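import Mathlib

/-!
P143: the definitions used by the statement.

Uniform spanning trees of finite connected subgraphs, the free uniform spanning forest as the
common weak limit along exhaustions, i.i.d. uniform labels, and the mass transport principle.
-/

namespace Vale.P143

open MeasureTheory Filter
open scoped ENNReal Topology

/-- `T` is the edge set of a spanning tree of the subgraph `H`. -/
def IsSpanningTree {V : Type*} {G : SimpleGraph V} (H : G.Subgraph) (T : Finset (Sym2 V)) : Prop :=
  (T : Set (Sym2 V)) ⊆ H.edgeSet ∧ (SimpleGraph.fromEdgeSet (T : Set (Sym2 V))).IsAcyclic ∧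
    ∀ u ∈ H.verts, ∀ v ∈ H.verts, (SimpleGraph.fromEdgeSet (T : Set (Sym2 V))).Reachable u v

/-- An increasing sequence of finite connected subgraphs whose union is `G`. -/
def IsExhaustion {V : Type*} (G : SimpleGraph V) (H : ℕ → G.Subgraph) : Prop :=
  Monotone H ∧ (∀ n, (H n).verts.Finite ∧ (H n).Connected) ∧ (∀ v, ∃ n, v ∈ (H n).verts) ∧
    ∀ e ∈ G.edgeSet, ∃ n, e ∈ (H n).edgeSet

/-- `law` is the free uniform spanning forest of `G`: it does not charge non-edges, exhaustions
exist, and along every exhaustion the uniform spanning tree probability of every cylinder event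
converges to its probability under `law`. -/
def IsFUSF {V : Type*} (G : SimpleGraph V) (law : Measure (Sym2 V → Bool)) : Prop :=
  IsProbabilityMeasure law ∧ (∀ e, e ∉ G.edgeSet → law {x | x e = true} = 0) ∧
    (∃ H : ℕ → G.Subgraph, IsExhaustion G H) ∧
    ∀ H : ℕ → G.Subgraph, IsExhaustion G H → ∀ (S : Finset (Sym2 V)) (b : Sym2 V → Bool),
      Tendsto
        (fun n => ({T | IsSpanningTree (H n) T ∧ ∀ e ∈ S, (e ∈ T ↔ b e = true)}.ncard : ℝ) /
          ({T | IsSpanningTree (H n) T}.ncard : ℝ))
        atTop (𝓝 (law {x | ∀ e ∈ S, x e = b e}).toReal)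

/-- The law of i.i.d. uniform vertex labels in the unit interval. -/
noncomputable def labelLaw (V : Type*) : Measure (V → ℝ) :=
  Measure.infinitePi fun _ : V => volume.restrict (Set.Icc (0 : ℝ) 1)

/-- The mass transport principle for the law of a random graph rooted at `o`. -/
def MassTransport {V : Type*} (μ : Measure (SimpleGraph V)) (o : V) : Prop :=
  ∀ f : SimpleGraph V → V → V → ℝ≥0∞,
    (∀ a b, Measurable fun G => f G a b) →
    (∀ (σ : Equiv.Perm V) (G : SimpleGraph V) (a b : V), f (G.comap σ) a b = f G (σ a) (σ b)) →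
    ∫⁻ G, ∑' v, f G o v ∂μ = ∫⁻ G, ∑' v, f G v o ∂μ

/-- The Cayley graph of `Γ` for the generating set `S`. -/
def cayleyGraph {Γ : Type*} [Group Γ] (S : Set Γ) : SimpleGraph Γ :=
  SimpleGraph.fromRel fun a b => a⁻¹ * b ∈ S

end Vale.P143
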