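import Vale.Agent.P143.Proj

/-!
P143: the effect of changing the field, column sums, continuity, and relabelling.
-/

namespace Vale.P143

open scoped RealInnerProductSpace ENNReal Topology
open Filter
open scoped Classical

noncomputable section

variable {V : Type*}

lemma summable_sq_coord (x : ESpace V) : Summable fun p => (x p) ^ 2 := by
  have := lp.summable_inner (𝕜 := ℝ) x x
  refine this.congr fun p => ?_
  simp [sq]

lemma tsum_sq_coord (x : ESpace V) : ∑' p, (x p) ^ 2 = ‖x‖ ^ 2 := by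
  rw [← real_inner_self_eq_norm_sq, lp.inner_eq_tsum]
  exact tsum_congr fun p => by simp [sq]

lemma inner_eq_tsum' (x z : ESpace V) : ⟪x, z⟫ = ∑' p, x p * z p := by
  rw [lp.inner_eq_tsum]
  exact tsum_congr fun p => by simp [mul_comm]

lemma summable_mul_coord (x z : ESpace V) : Summable fun p => x p * z p := by
  have := lp.summable_inner (𝕜 := ℝ) x z
  refine this.congr fun p => ?_
  simp [mul_comm]

lemma memlp_mul (g : V × V → ℝ) (C : ℝ) (hg : ∀ p, |g p| ≤ C) (x : ESpace V) :
    Memℓp (fun p => g p * x p) 2 := by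
  refine memℓp_gen ?_
  have h2 : (2 : ℝ≥0∞).toReal = ((2 : ℕ) : ℝ) := by simp
  simp only [h2, Real.rpow_natCast, Real.norm_eq_abs, sq_abs]
  refine Summable.of_nonneg_of_le (fun p => sq_nonneg _) (fun p => ?_)
    ((summable_sq_coord x).mul_left (C ^ 2))
  rw [mul_pow]
  refine mul_le_mul_of_nonneg_right ?_ (sq_nonneg _)
  rw [← sq_abs]
  exact pow_le_pow_left₀ (abs_nonneg _) (hg p) 2

/-- Coordinatewise multiplication by a bounded function. -/
def mulVec (g : V × V → ℝ) (C : ℝ) (hg : ∀ p, |g p| ≤ C) (x : ESpace V) : ESpace V :=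
  ⟨fun p => g p * x p, memlp_mul g C hg x⟩

lemma mulVec_apply (g : V × V → ℝ) (C : ℝ) (hg : ∀ p, |g p| ≤ C) (x : ESpace V) (p : V × V) :
    mulVec g C hg x p = g p * x p := rfl

/-- The coordinatewise ratio of two scalings. -/
def ratio (y y' : Sym2 V → ℝ) (p : V × V) : ℝ := scal y p / scal y' p

lemma ratio_pos (y y' : Sym2 V → ℝ) (p : V × V) : 0 < ratio y y' p :=
  div_pos (scal_pos y p) (scal_pos y' p)

lemma ratio_eq_exp (y y' : Sym2 V → ℝ) (p : V × V) :
    ratio y y' p = Real.exp ((y' s(p.1, p.2) - y s(p.1, p.2)) / 2) := by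
  rw [ratio, scal, scal, ← Real.exp_sub]
  congr 1
  ring

lemma abs_ratio_le {y y' : Sym2 V → ℝ} {L : ℝ} (h : ∀ e, |y' e - y e| ≤ L) (p : V × V) :
    |ratio y y' p| ≤ Real.exp L := by
  rw [abs_of_pos (ratio_pos y y' p), ratio_eq_exp]
  refine Real.exp_le_exp.2 ?_
  have h1 := abs_le.1 (h s(p.1, p.2))
  have h2 : 0 ≤ L := le_trans (abs_nonneg _) (h s(p.1, p.2))
  linarith [h1.2]

lemma abs_one_sub_ratio_le {y y' : Sym2 V → ℝ} {L : ℝ} (h : ∀ e, |y' e - y e| ≤ L) (p : V × V) :
    |1 - ratio y y' p| ≤ (1 + Real.exp L) := by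
  have := abs_ratio_le h p
  calc |1 - ratio y y' p| ≤ |(1 : ℝ)| + |ratio y y' p| := abs_sub _ _
    _ ≤ _ := by rw [abs_one]; linarith

lemma mulVec_ratio_mem {H : SimpleGraph V} {y y' : Sym2 V → ℝ} {C : ℝ}
    (hg : ∀ p, |ratio y y' p| ≤ C) {x : ESpace V} (hx : x ∈ cutSpace H y) :
    mulVec (ratio y y') C hg x ∈ cutSpace H y' := by
  obtain ⟨φ, hφ⟩ := hx
  refine ⟨φ, fun a b hab => ?_⟩
  rw [← hφ a b hab, mulVec_apply, ratio, ← mul_assoc,
    mul_div_cancel₀ _ (scal_pos y' _).ne']

/-- The remainder vector of one perturbation. -/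
def remVec (y y' : Sym2 V → ℝ) (L : ℝ) (h : ∀ e, |y' e - y e| ≤ L) (x : ESpace V) : ESpace V :=
  mulVec (fun p => 1 - ratio y y' p) (1 + Real.exp L) (abs_one_sub_ratio_le h) x

lemma remVec_eq {y y' : Sym2 V → ℝ} {L : ℝ} (h : ∀ e, |y' e - y e| ≤ L) (x : ESpace V) :
    remVec y y' L h x = x - mulVec (ratio y y') (Real.exp L) (abs_ratio_le h) x := by
  ext p
  simp only [remVec, mulVec_apply, lp.coeFn_sub, Pi.sub_apply]
  ring

lemma flip_abs {y y' : Sym2 V → ℝ} {L : ℝ} (h : ∀ e, |y' e - y e| ≤ L) :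
    ∀ e, |y e - y' e| ≤ L := fun e => abs_sub_comm (y e) (y' e) ▸ h e

theorem inner_sub_cproj (H : SimpleGraph V) (y y' : Sym2 V → ℝ) (L : ℝ)
    (h : ∀ e, |y' e - y e| ≤ L) (u : ESpace V) :
    ⟪u, cproj H y u⟫ - ⟪u, cproj H y' u⟫ =
      ⟪u - cproj H y' u, remVec y y' L h (cproj H y u)⟫ -
        ⟪cproj H y' u, remVec y' y L (flip_abs h) (u - cproj H y u)⟫ := by
  have h1 : ⟪u - cproj H y' u, mulVec (ratio y y') (Real.exp L) (abs_ratio_le h) (cproj H y u)⟫
      = 0 := cproj_inner_eq_zero H y' u (mulVec_ratio_mem _ (cproj_mem H y u))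
  have h2 : ⟪cproj H y' u,
      mulVec (ratio y' y) (Real.exp L) (abs_ratio_le (flip_abs h)) (u - cproj H y u)⟫ = 0 := by
    have h3 := cproj_inner_eq_zero H y u
      (mulVec_ratio_mem (abs_ratio_le (flip_abs h)) (cproj_mem H y' u))
    rw [inner_eq_tsum'] at h3 ⊢
    rw [← h3]
    refine tsum_congr fun p => ?_
    simp only [mulVec_apply]
    ring
  rw [remVec_eq, remVec_eq, inner_sub_right, inner_sub_right, h1, h2, sub_zero, sub_zero,
    inner_sub_left, inner_sub_right, real_inner_comm (cproj H y u) (cproj H y' u),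
    real_inner_comm u (cproj H y' u)]
  ring

/-- The kernel weight of changing the coordinate `q`, seen at the pair `p`. -/
def wgt (H : SimpleGraph V) (y : Sym2 V → ℝ) (p q : V × V) : ℝ :=
  pent H y q p ^ 2 + ((if q = p then 1 else 0) - pent H y q p) ^ 2

lemma wgt_nonneg (H : SimpleGraph V) (y : Sym2 V → ℝ) (p q : V × V) : 0 ≤ wgt H y p q := by
  unfold wgt; positivity

lemma cproj_apply (H : SimpleGraph V) (y : Sym2 V → ℝ) (p q : V × V) :
    cproj H y (unitVec p) q = pent H y q p := rfl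

lemma sub_cproj_apply (H : SimpleGraph V) (y : Sym2 V → ℝ) (p q : V × V) :
    (unitVec p - cproj H y (unitVec p)) q = (if q = p then 1 else 0) - pent H y q p := by
  rw [lp.coeFn_sub, Pi.sub_apply, unitVec_apply, cproj_apply]

lemma summable_wgt (H : SimpleGraph V) (y : Sym2 V → ℝ) (p : V × V) :
    Summable fun q => wgt H y p q := by
  have h1 := summable_sq_coord (cproj H y (unitVec p))
  have h2 := summable_sq_coord (unitVec p - cproj H y (unitVec p))
  refine (h1.add h2).congr fun q => ?_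
  rw [wgt, sub_cproj_apply, cproj_apply]

lemma wgt_comm (H : SimpleGraph V) (y : Sym2 V → ℝ) (p q : V × V) :
    wgt H y p q = wgt H y q p := by
  unfold wgt
  rw [pent_comm H y q p]
  congr 3
  simp [eq_comm]

lemma norm_sub_cproj_le (H : SimpleGraph V) (y : Sym2 V → ℝ) (u : ESpace V) :
    ‖u - cproj H y u‖ ≤ ‖u‖ := by
  rw [cproj, ← Submodule.starProjection_orthogonal_val]
  exact Submodule.norm_starProjection_apply_le _ _

lemma tsum_wgt_le (H : SimpleGraph V) (y : Sym2 V → ℝ) (q : V × V) :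
    ∑' p, ENNReal.ofReal (wgt H y p q) ≤ 2 := by
  simp only [fun p => wgt_comm H y p q]
  rw [← ENNReal.ofReal_tsum_of_nonneg (fun p => wgt_nonneg H y q p) (summable_wgt H y q)]
  rw [show (2 : ℝ≥0∞) = ENNReal.ofReal 2 by simp]
  refine ENNReal.ofReal_le_ofReal ?_
  have h1 := summable_sq_coord (cproj H y (unitVec q))
  have h2 := summable_sq_coord (unitVec q - cproj H y (unitVec q))
  have : ∑' p, wgt H y q p = ‖cproj H y (unitVec q)‖ ^ 2 +
      ‖unitVec q - cproj H y (unitVec q)‖ ^ 2 := by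
    rw [← tsum_sq_coord, ← tsum_sq_coord, ← h1.tsum_add h2]
    refine tsum_congr fun p => ?_
    rw [wgt, sub_cproj_apply, cproj_apply]
  rw [this]
  have a1 := pow_le_pow_left₀ (norm_nonneg _) (norm_cproj_le H y (unitVec q)) 2
  have a2 := pow_le_pow_left₀ (norm_nonneg _) (norm_sub_cproj_le H y (unitVec q)) 2
  rw [norm_unitVec, one_pow] at a1 a2
  linarith

lemma abs_tsum_mul_le {a b : V × V → ℝ} (hb : Summable b)
    (h : ∀ q, |a q| ≤ b q) : |∑' q, a q| ≤ ∑' q, b q := by
  have hs : Summable fun q => |a q| := Summable.of_nonneg_of_le (fun q => abs_nonneg _) h hb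
  calc |∑' q, a q| ≤ ∑' q, |a q| := by
        have := norm_tsum_le_tsum_norm (f := a) (by simpa [Real.norm_eq_abs] using hs)
        simpa [Real.norm_eq_abs] using this
    _ ≤ _ := hs.tsum_le_tsum h hb

theorem ofReal_abs_pent_sub_le (H : SimpleGraph V) (y y' : Sym2 V → ℝ) (L : ℝ)
    (h : ∀ e, |y' e - y e| ≤ L) (p : V × V) :
    ENNReal.ofReal |pent H y p p - pent H y' p p| ≤
      ENNReal.ofReal (1 + Real.exp L) * ∑' q : V × V,
        if y s(q.1, q.2) = y' s(q.1, q.2) then 0
        else ENNReal.ofReal (wgt H y p q + wgt H y' p q) := by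
  set c := 1 + Real.exp L with hc
  have hc0 : 0 ≤ c := by positivity
  let b : V × V → ℝ := fun q =>
    if y s(q.1, q.2) = y' s(q.1, q.2) then 0 else c * (wgt H y p q + wgt H y' p q)
  have hb0 : ∀ q, 0 ≤ b q := fun q => by
    simp only [b]; split_ifs
    · exact le_rfl
    · exact mul_nonneg hc0 (add_nonneg (wgt_nonneg H y p q) (wgt_nonneg H y' p q))
  have hb : Summable b := by
    refine Summable.of_nonneg_of_le hb0 (fun q => ?_)
      (((summable_wgt H y p).add (summable_wgt H y' p)).mul_left c)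
    simp only [b]; split_ifs
    · exact mul_nonneg hc0 (add_nonneg (wgt_nonneg H y p q) (wgt_nonneg H y' p q))
    · exact le_rfl
  have key : |pent H y p p - pent H y' p p| ≤ ∑' q, b q := by
    rw [pent_eq_inner, pent_eq_inner, inner_sub_cproj H y y' L h, inner_eq_tsum', inner_eq_tsum',
      ← (summable_mul_coord _ _).tsum_sub (summable_mul_coord _ _)]
    refine abs_tsum_mul_le hb fun q => ?_
    simp only [remVec, mulVec_apply, sub_cproj_apply, cproj_apply, b]
    set d : ℝ := if q = p then (1 : ℝ) else 0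
    split_ifs with he
    · have : ratio y y' q = 1 := by rw [ratio_eq_exp, he]; simp
      have : ratio y' y q = 1 := by rw [ratio_eq_exp, he]; simp
      simp [*]
    · have hr1 := abs_one_sub_ratio_le h q
      have hr2 := abs_one_sub_ratio_le (flip_abs h) q
      rw [← hc] at hr1 hr2
      refine (abs_sub _ _).trans ?_
      simp only [wgt, abs_mul]
      have t1 := mul_le_mul_of_nonneg_left
        (mul_le_mul_of_nonneg_right hr1 (abs_nonneg (pent H y q p))) (abs_nonneg (d - pent H y' q p))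
      have t2 := mul_le_mul_of_nonneg_left
        (mul_le_mul_of_nonneg_right hr2 (abs_nonneg (d - pent H y q p))) (abs_nonneg (pent H y' q p))
      have u1 := two_mul_le_add_sq |d - pent H y' q p| |pent H y q p|
      have u2 := two_mul_le_add_sq |pent H y' q p| |d - pent H y q p|
      simp only [sq_abs] at u1 u2
      have s1 := sq_nonneg (pent H y q p)
      have s2 := sq_nonneg (d - pent H y q p)
      have s3 := sq_nonneg (pent H y' q p)
      have s4 := sq_nonneg (d - pent H y' q p)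
      nlinarith [abs_nonneg (d - pent H y' q p), abs_nonneg (pent H y q p),
        abs_nonneg (pent H y' q p), abs_nonneg (d - pent H y q p)]
  refine (ENNReal.ofReal_le_ofReal key).trans_eq ?_
  rw [ENNReal.ofReal_tsum_of_nonneg hb0 hb, ← ENNReal.tsum_mul_left]
  refine tsum_congr fun q => ?_
  simp only [b]
  split_ifs
  · simp
  · rw [ENNReal.ofReal_mul hc0]

theorem tendsto_pent_field (H : SimpleGraph V) {y : Sym2 V → ℝ} {yj : ℕ → Sym2 V → ℝ} (L : ℝ)
    (h : ∀ j e, |yj j e - y e| ≤ L) (hev : ∀ e, ∀ᶠ j in atTop, yj j e = y e) (p : V × V) :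
    Tendsto (fun j => pent H (yj j) p p) atTop (𝓝 (pent H y p p)) := by
  have key : ∀ (x : ESpace V), Tendsto (fun j => ‖remVec y (yj j) L (h j) x‖) atTop (𝓝 0) ∧
      Tendsto (fun j => ‖remVec (yj j) y L (flip_abs (h j)) x‖) atTop (𝓝 0) := by
    intro x
    have main : ∀ (z : ℕ → ESpace V), (∀ j q, |z j q| ≤ (1 + Real.exp L) * |x q|) →
        (∀ q, ∀ᶠ j in atTop, z j q = 0) → Tendsto (fun j => ‖z j‖) atTop (𝓝 0) := by
      intro z hz hz0
      have h2 : Tendsto (fun j => ∑' q, (z j q) ^ 2) atTop (𝓝 (∑' _q : V × V, (0 : ℝ))) := by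
        refine tendsto_tsum_of_dominated_convergence
          (bound := fun q => (1 + Real.exp L) ^ 2 * (x q) ^ 2)
          ((summable_sq_coord x).mul_left _) (fun q => ?_) (Eventually.of_forall fun j q => ?_)
        · exact tendsto_const_nhds.congr' ((hz0 q).mono fun j hj => by simp [hj])
        · rw [Real.norm_eq_abs, abs_pow, ← sq_abs (x q), ← mul_pow]
          exact pow_le_pow_left₀ (abs_nonneg _) (hz j q) 2
      simp only [tsum_sq_coord, tsum_zero] at h2
      have h3 := (Real.continuous_sqrt.tendsto (0 : ℝ)).comp h2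
      simpa [Function.comp_def, Real.sqrt_sq (norm_nonneg _)] using h3
    refine ⟨main _ (fun j q => ?_) (fun q => ?_), main _ (fun j q => ?_) (fun q => ?_)⟩
    · rw [remVec, mulVec_apply, abs_mul]
      exact mul_le_mul_of_nonneg_right (abs_one_sub_ratio_le (h j) q) (abs_nonneg _)
    · refine (hev s(q.1, q.2)).mono fun j hj => ?_
      rw [remVec, mulVec_apply, ratio_eq_exp, hj]; simp
    · rw [remVec, mulVec_apply, abs_mul]
      exact mul_le_mul_of_nonneg_right (abs_one_sub_ratio_le (flip_abs (h j)) q) (abs_nonneg _)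
    · refine (hev s(q.1, q.2)).mono fun j hj => ?_
      rw [remVec, mulVec_apply, ratio_eq_exp, hj]; simp
  have hu := norm_unitVec p
  rw [tendsto_iff_norm_sub_tendsto_zero]
  have h0 := ((key (cproj H y (unitVec p))).1.add (key (unitVec p - cproj H y (unitVec p))).2)
  rw [add_zero] at h0
  refine squeeze_zero (fun j => norm_nonneg _) (fun j => ?_) h0
  rw [norm_sub_rev, Real.norm_eq_abs, pent_eq_inner, pent_eq_inner,
    inner_sub_cproj H y (yj j) L (h j)]
  refine (abs_sub _ _).trans (add_le_add ?_ ?_)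
  · refine (abs_real_inner_le_norm _ _).trans (mul_le_of_le_one_left (norm_nonneg _) ?_)
    exact (norm_sub_cproj_le H (yj j) (unitVec p)).trans hu.le
  · refine (abs_real_inner_le_norm _ _).trans (mul_le_of_le_one_left (norm_nonneg _) ?_)
    exact (norm_cproj_le H (yj j) (unitVec p)).trans hu.le

theorem tendsto_medge_field (H : SimpleGraph V) {y : Sym2 V → ℝ} {yj : ℕ → Sym2 V → ℝ} (L : ℝ)
    (h : ∀ j e, |yj j e - y e| ≤ L) (hev : ∀ e, ∀ᶠ j in atTop, yj j e = y e) (e : Sym2 V) :
    Tendsto (fun j => medge H (yj j) e) atTop (𝓝 (medge H y e)) := by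
  induction e using Sym2.ind with
  | h a b => exact (tendsto_pent_field H L h hev _).add (tendsto_pent_field H L h hev _)

/-- Relabelling of coordinates by a permutation of the vertices. -/
def relab (σ : Equiv.Perm V) (x : ESpace V) : ESpace V :=
  ⟨fun p => x (σ p.1, σ p.2), by
    refine memℓp_gen ?_
    have hx := summable_sq_coord x
    have h2 : (2 : ℝ≥0∞).toReal = ((2 : ℕ) : ℝ) := by simp
    simp only [h2, Real.rpow_natCast, Real.norm_eq_abs, sq_abs]
    exact hx.comp_injective (σ.prodCongr σ).injective⟩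

lemma relab_apply (σ : Equiv.Perm V) (x : ESpace V) (p : V × V) :
    relab σ x p = x (σ p.1, σ p.2) := rfl

lemma inner_relab (σ : Equiv.Perm V) (x z : ESpace V) : ⟪relab σ x, relab σ z⟫ = ⟪x, z⟫ := by
  rw [inner_eq_tsum', inner_eq_tsum']
  exact (σ.prodCongr σ).tsum_eq (fun p => x p * z p)

lemma relab_relab_symm (σ : Equiv.Perm V) (x : ESpace V) : relab σ (relab σ.symm x) = x := by
  ext p; simp [relab_apply]

lemma relab_sub (σ : Equiv.Perm V) (x z : ESpace V) :
    relab σ (x - z) = relab σ x - relab σ z := by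
  ext p; simp [relab_apply]

lemma relab_unitVec (σ : Equiv.Perm V) (p : V × V) :
    relab σ (unitVec (σ p.1, σ p.2)) = unitVec p := by
  ext q
  rw [relab_apply, unitVec_apply, unitVec_apply]
  simp [Prod.ext_iff]

lemma relab_mem {σ : Equiv.Perm V} {H : SimpleGraph V} {y : Sym2 V → ℝ} {x : ESpace V}
    (hx : x ∈ cutSpace H y) :
    relab σ x ∈ cutSpace (H.comap σ) (fun e => y (e.map σ)) := by
  obtain ⟨φ, hφ⟩ := hx
  refine ⟨fun v => φ (σ v), fun a b hab => ?_⟩
  have := hφ (σ a) (σ b) hab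
  simpa [scal, relab_apply] using this

lemma relab_symm_mem {σ : Equiv.Perm V} {H : SimpleGraph V} {y : Sym2 V → ℝ} {w : ESpace V}
    (hw : w ∈ cutSpace (H.comap σ) (fun e => y (e.map σ))) :
    relab σ.symm w ∈ cutSpace H y := by
  obtain ⟨φ, hφ⟩ := hw
  refine ⟨fun v => φ (σ.symm v), fun a b hab => ?_⟩
  have := hφ (σ.symm a) (σ.symm b) (by simpa using hab)
  simpa [scal, relab_apply] using this

theorem pent_comap (σ : Equiv.Perm V) (H : SimpleGraph V) (y : Sym2 V → ℝ) (p q : V × V) :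
    pent (H.comap σ) (fun e => y (e.map σ)) p q = pent H y (σ p.1, σ p.2) (σ q.1, σ q.2) := by
  have : cproj (H.comap σ) (fun e => y (e.map σ)) (unitVec q) =
      relab σ (cproj H y (unitVec (σ q.1, σ q.2))) := by
    refine Submodule.eq_starProjection_of_mem_of_inner_eq_zero (relab_mem (cproj_mem _ _ _))
      fun w hw => ?_
    rw [← relab_relab_symm σ w, ← relab_unitVec σ q, ← relab_sub, inner_relab]
    exact cproj_inner_eq_zero H y _ (relab_symm_mem hw)
  rw [pent, this, relab_apply]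
  rfl

theorem medge_comap (σ : Equiv.Perm V) (H : SimpleGraph V) (y : Sym2 V → ℝ) (e : Sym2 V) :
    medge (H.comap σ) (fun e => y (e.map σ)) e = medge H y (e.map σ) := by
  induction e using Sym2.ind with
  | h a b => rw [medge_mk, pent_comap, pent_comap]; rfl

theorem wgt_comap (σ : Equiv.Perm V) (H : SimpleGraph V) (y : Sym2 V → ℝ) (p q : V × V) :
    wgt (H.comap σ) (fun e => y (e.map σ)) p q = wgt H y (σ p.1, σ p.2) (σ q.1, σ q.2) := by
  unfold wgt
  rw [pent_comap]
  congr 3
  simp [Prod.ext_iff]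

end

end Vale.P143
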