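import Vale.Agent.P143.Relabel
import Vale.Agent.P143.Perturb
import Vale.Agent.P143.Defs

/-!
P143: by mass transport the Picard iterates converge to the true bits.
-/

namespace Vale.P143

open scoped ENNReal Topology
open scoped Classical
open Filter MeasureTheory ProbabilityTheory

noncomputable section

variable {V : Type*} [Countable V]

/-- The free forest as a kernel. -/
def fusfK : Kernel (SimpleGraph V) (Sym2 V → Bool) := ⟨fusf, measurable_fusf⟩

instance isMarkovKernel_fusfK : IsMarkovKernel (fusfK (V := V)) :=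
  ⟨fun G => isProbabilityMeasure_fusf G⟩

/-- The law of the bits as a kernel. -/
def bitsK : Kernel (SimpleGraph V) (Slot V → Bool) :=
  (fusfK ×ₖ Kernel.const _ (iid (Slot V))).map fun z => bitsOf z.1 z.2

instance isMarkovKernel_bitsK : IsMarkovKernel (bitsK (V := V)) :=
  Kernel.IsMarkovKernel.map _ measurable_bitsOf

/-- The world as a kernel. -/
def worldK : Kernel (SimpleGraph V) ((Slot V → ℝ) × (Slot V → Bool) × (Slot V → ℝ)) :=
  Kernel.const _ (iid (Slot V)) ×ₖ (bitsK ×ₖ Kernel.const _ (iid (Slot V)))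

instance isMarkovKernel_worldK : IsMarkovKernel (worldK (V := V)) := by
  unfold worldK; infer_instance

lemma worldK_apply (G : SimpleGraph V) : worldK G = world G := by
  rw [worldK, Kernel.prod_apply, Kernel.prod_apply, bitsK,
    Kernel.map_apply _ measurable_bitsOf, Kernel.prod_apply, Kernel.const_apply,
    world, inner', bitLaw]
  rfl

lemma measurable_lintegral_world {Z : Type*} [MeasurableSpace Z] {Gf : Z → SimpleGraph V}
    (hG : Measurable Gf) {f : Z → (Slot V → ℝ) × (Slot V → Bool) × (Slot V → ℝ) → ℝ≥0∞}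
    (hf : Measurable (Function.uncurry f)) :
    Measurable fun z => ∫⁻ w, f z w ∂world (Gf z) := by
  have h := Measurable.lintegral_kernel_prod_right' (κ := (worldK (V := V)).comap Gf hG) hf
  simpa [Kernel.comap_apply, worldK_apply] using h

lemma worldK_apply_set {s : Set (SimpleGraph V × (Slot V → ℝ) × (Slot V → Bool) × (Slot V → ℝ))}
    (hs : MeasurableSet s) : Measurable fun G => world G (Prod.mk G ⁻¹' s) := by
  have h := Kernel.measurable_kernel_prodMk_left (κ := worldK (V := V)) hs
  simpa [worldK_apply] using h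

/-- The mass of wrong observed edges at the vertex `o` before time `u`. -/
def errSum (G : SimpleGraph V) (k i : ℕ) (o : V) (u : ℝ) : ℝ≥0∞ :=
  ∫⁻ w, ∑' d : V, (if Err G k i s(o, d) w ∧ w.1 (k, s(o, d)) < u then 1 else 0) ∂world G

/-- The mean discrepancy. -/
def gapMean (G : SimpleGraph V) (k i : ℕ) (r : ℝ) (e : Sym2 V) : ℝ≥0∞ :=
  ∫⁻ w, gap G k i r e w ∂world G

lemma measurable_w : Measurable fun z : SimpleGraph V ×
    ((Slot V → ℝ) × (Slot V → Bool) × (Slot V → ℝ)) => z.2 := measurable_snd

lemma measurableSet_errLt {Z : Type*} [MeasurableSpace Z] {Gf : Z → SimpleGraph V}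
    {Wf : Z → (Slot V → ℝ) × (Slot V → Bool) × (Slot V → ℝ)} {uf : Z → ℝ}
    (hG : Measurable Gf) (hW : Measurable Wf) (hu : Measurable uf) (k i : ℕ) (e : Sym2 V) :
    MeasurableSet {z | Err (Gf z) k i e (Wf z) ∧ (Wf z).1 (k, e) < uf z} :=
  (measurableSet_err hG hW k i e).inter
    (measurableSet_lt ((measurable_pi_apply ((k, e) : Slot V)).comp (measurable_fst.comp hW)) hu)

lemma measurable_errSum (k i : ℕ) (o : V) (u : ℝ) :
    Measurable fun G : SimpleGraph V => errSum G k i o u := by
  refine measurable_lintegral_world measurable_id (Measurable.tsum fun d => ?_)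
  exact Measurable.ite (measurableSet_errLt (uf := fun _ => u) measurable_fst measurable_snd
    measurable_const k i _) measurable_const measurable_const

lemma measurable_gapMean (k i : ℕ) (e : Sym2 V) :
    Measurable fun z : SimpleGraph V × ℝ => gapMean z.1 k i z.2 e :=
  measurable_lintegral_world measurable_fst
    (measurable_gap (measurable_fst.comp measurable_fst) measurable_snd
      (measurable_snd.comp measurable_fst) k i e)

lemma unif_Ici_half {r : ℝ} (hr : r ≤ 1 / 2) : (2 : ℝ≥0∞)⁻¹ ≤ unif (Set.Ici r) := by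
  calc (2 : ℝ≥0∞)⁻¹ = volume (Set.Icc (1 / 2 : ℝ) 1) := by
        rw [Real.volume_Icc, show (1 : ℝ) - 1 / 2 = (2 : ℝ)⁻¹ by norm_num,
          ENNReal.ofReal_inv_of_pos two_pos, ENNReal.ofReal_ofNat]
    _ = unif (Set.Icc (1 / 2 : ℝ) 1) := by
        rw [unif, Measure.restrict_apply measurableSet_Icc,
          Set.inter_eq_left.2 (Set.Icc_subset_Icc (by norm_num) le_rfl)]
    _ ≤ _ := measure_mono fun x hx => hr.trans hx.1

/-- The discrepancy averaged over the bits and the auxiliary variables. -/
def gapQ (G : SimpleGraph V) (k i : ℕ) (e : Sym2 V) (r : ℝ) (U : Slot V → ℝ) : ℝ≥0∞ :=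
  ∫⁻ z, gap G k i r e (U, z) ∂inner' G

lemma measurable_gapQ (G : SimpleGraph V) (k i : ℕ) (e : Sym2 V) :
    Measurable fun z : ℝ × (Slot V → ℝ) => gapQ G k i e z.1 z.2 := by
  have h : Measurable fun z : (ℝ × (Slot V → ℝ)) × ((Slot V → Bool) × (Slot V → ℝ)) =>
      gap G k i z.1.1 e (z.1.2, z.2) :=
    measurable_gap (Gf := fun _ => G) measurable_const
      ((measurable_snd.comp measurable_fst).prodMk measurable_snd)
      (measurable_fst.comp measurable_fst) k i e
  exact h.lintegral_prod_right'

lemma gapQ_update (G : SimpleGraph V) (k i : ℕ) (e : Sym2 V) (U : Slot V → ℝ) {r t : ℝ}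
    (hrt : r ≤ t) (hr : r ≤ 1 / 2) :
    gapQ G k i e r (Function.update U (k, e) t) = gapQ G k i e r (Function.update U (k, e) 1) := by
  refine lintegral_congr fun z => ?_
  obtain ⟨b, a⟩ := z
  rw [gap_update_one G b a (by rw [Function.update_self]; exact hrt) hr, Function.update_idem]

lemma gapMean_eq (G : SimpleGraph V) (k i : ℕ) (e : Sym2 V) (r : ℝ) :
    gapMean G k i r e = ∫⁻ U, gapQ G k i e r U ∂iid (Slot V) := by
  rw [gapMean, world, lintegral_prod]
  · rfl
  · exact (measurable_gap (Gf := fun _ => G) (uf := fun _ => r) measurable_const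
      measurable_id measurable_const k i e).aemeasurable

lemma gapQ_def (G : SimpleGraph V) (k i : ℕ) (e : Sym2 V) (r : ℝ) (U : Slot V → ℝ) :
    gapQ G k i e r U = ∫⁻ z, gap G k i r e (U, z) ∂inner' G := rfl

attribute [local irreducible] gapQ gapMean

lemma gapQ_one_le (G : SimpleGraph V) (k i : ℕ) (e : Sym2 V) {r : ℝ} (hr : r ≤ 1 / 2) :
    ∫⁻ U, gapQ G k i e r (Function.update U (k, e) 1) ∂iid (Slot V) ≤ 2 * gapMean G k i r e := by
  have hQr : Measurable fun U => gapQ G k i e r U :=
    (measurable_gapQ G k i e).comp measurable_prodMk_left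
  have hlow : ∀ U, (2 : ℝ≥0∞)⁻¹ * gapQ G k i e r (Function.update U (k, e) 1) ≤
      ∫⁻ t, gapQ G k i e r (Function.update U (k, e) t) ∂unif := by
    intro U
    calc (2 : ℝ≥0∞)⁻¹ * gapQ G k i e r (Function.update U (k, e) 1)
        ≤ unif (Set.Ici r) * gapQ G k i e r (Function.update U (k, e) 1) :=
          mul_le_mul_left (unif_Ici_half hr) _
      _ = ∫⁻ _t in Set.Ici r, gapQ G k i e r (Function.update U (k, e) 1) ∂unif := by
          rw [setLIntegral_const, mul_comm]
      _ = ∫⁻ t in Set.Ici r, gapQ G k i e r (Function.update U (k, e) t) ∂unif :=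
          setLIntegral_congr_fun measurableSet_Ici fun t ht => (gapQ_update G k i e U ht hr).symm
      _ ≤ _ := setLIntegral_le_lintegral _ _
  have h2 : ∀ x : ℝ≥0∞, x = 2 * (2⁻¹ * x) := fun x => by
    rw [← mul_assoc, ENNReal.mul_inv_cancel two_ne_zero (by simp), one_mul]
  rw [gapMean_eq, lintegral_iid_update ((k, e) : Slot V) hQr]
  calc ∫⁻ U, gapQ G k i e r (Function.update U (k, e) 1) ∂iid (Slot V)
      = ∫⁻ U, 2 * (2⁻¹ * gapQ G k i e r (Function.update U (k, e) 1)) ∂iid (Slot V) :=
        lintegral_congr fun U => h2 _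
    _ ≤ ∫⁻ U, 2 * ∫⁻ t, gapQ G k i e r (Function.update U (k, e) t) ∂unif ∂iid (Slot V) :=
        lintegral_mono fun U => mul_le_mul_right (hlow U) _
    _ = _ := lintegral_const_mul' _ _ (by simp)

theorem err_time_bound (G : SimpleGraph V) (k i : ℕ) (e : Sym2 V) {u : ℝ} (hu : u ≤ 1 / 2) :
    ∫⁻ w, (if Err G k (i + 1) e w ∧ w.1 (k, e) < u then 1 else 0) ∂world G ≤
      2 * ∫⁻ r in Set.Iio u, gapMean G k i r e ∂unif := by
  set s : Slot V := (k, e) with hs
  let F : (Slot V → ℝ) → ℝ≥0∞ := fun U => if U s < u then gapQ G k i e (U s) U else 0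
  have h0 : Measurable fun U : Slot V → ℝ => (U s, U) :=
    (measurable_pi_apply s).prodMk measurable_id
  have hF : Measurable F :=
    Measurable.ite (measurableSet_lt (measurable_pi_apply s) measurable_const)
      (show Measurable fun U : Slot V → ℝ => gapQ G k i e (U s) U from
        (measurable_gapQ G k i e).comp h0)
      measurable_const
  have hH : Measurable fun z : (Slot V → ℝ) × ℝ =>
      if z.2 < u then gapQ G k i e z.2 (Function.update z.1 s 1) else 0 :=
    Measurable.ite (measurableSet_lt measurable_snd measurable_const)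
      ((measurable_gapQ G k i e).comp (measurable_snd.prodMk
        (measurable_update'.comp (measurable_fst.prodMk measurable_const)))) measurable_const
  calc ∫⁻ w, (if Err G k (i + 1) e w ∧ w.1 (k, e) < u then 1 else 0) ∂world G
      = ∫⁻ U, ∫⁻ z, (if Err G k (i + 1) e (U, z) ∧ U s < u then 1 else 0) ∂inner' G
          ∂iid (Slot V) := by
        rw [world, lintegral_prod]
        exact (Measurable.ite (measurableSet_errLt (Gf := fun _ => G) (uf := fun _ => u)
          measurable_const measurable_id measurable_const k (i + 1) e)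
          measurable_const measurable_const).aemeasurable
    _ ≤ ∫⁻ U, F U ∂iid (Slot V) := by
        refine lintegral_mono fun U => ?_
        simp only [F]
        by_cases hU : U s < u
        · rw [if_pos hU]
          by_cases hobs : Obs G U s
          · rw [gapQ_def]
            refine le_trans (le_of_eq (lintegral_congr fun z => ?_)) (err_step G k i e U hobs)
            simp [hU]
          · refine le_trans (le_of_eq ?_) bot_le
            exact (lintegral_congr fun z => if_neg fun h => hobs h.1.1).trans lintegral_zero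
        · rw [if_neg hU]
          exact le_of_eq ((lintegral_congr fun z => if_neg fun h => hU h.2).trans lintegral_zero)
    _ = ∫⁻ U, ∫⁻ r, F (Function.update U s r) ∂unif ∂iid (Slot V) := lintegral_iid_update s hF
    _ = ∫⁻ U, ∫⁻ r, (if r < u then gapQ G k i e r (Function.update U s 1) else 0) ∂unif
          ∂iid (Slot V) := by
        refine lintegral_congr fun U => lintegral_congr fun r => ?_
        simp only [F, Function.update_self]
        split_ifs with hr
        · exact gapQ_update G k i e U le_rfl (hr.le.trans hu)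
        · rfl
    _ = ∫⁻ r, ∫⁻ U, (if r < u then gapQ G k i e r (Function.update U s 1) else 0) ∂iid (Slot V)
          ∂unif :=
        lintegral_lintegral_swap hH.aemeasurable
    _ ≤ ∫⁻ r, (Set.Iio u).indicator (fun r => 2 * gapMean G k i r e) r ∂unif := by
        refine lintegral_mono fun r => ?_
        by_cases hr : r < u
        · rw [Set.indicator_of_mem (show r ∈ Set.Iio u from hr)]
          simp only [if_pos hr]
          exact gapQ_one_le G k i e (hr.le.trans hu)
        · rw [Set.indicator_of_notMem (show r ∉ Set.Iio u from hr)]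
          simp [hr]
    _ = _ := by
        rw [lintegral_indicator measurableSet_Iio, lintegral_const_mul' _ _ (by simp)]

/-- The kernel through which a wrong edge `q` influences the pair `p`. -/
def kern (G : SimpleGraph V) (k i : ℕ) (r : ℝ)
    (w : (Slot V → ℝ) × (Slot V → Bool) × (Slot V → ℝ)) (p q : V × V) : ℝ≥0∞ :=
  if Err G k i s(q.1, q.2) w ∧ w.1 (k, s(q.1, q.2)) < r then
    ENNReal.ofReal (wgt G (yv k (Past G w.1 k r) (hybBits G k i w)) p q +
      wgt G (yv k (Past G w.1 k r) w.2.1) p q)
  else 0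

/-- The constant of the Lipschitz bound in round `k`. -/
def lip (k : ℕ) : ℝ := 1 + Real.exp (beta * (2 * (k + 1)))

lemma lip_pos (k : ℕ) : 0 < lip k := by unfold lip; positivity

theorem gap_le_kern (G : SimpleGraph V) (k i : ℕ) (r : ℝ)
    (w : (Slot V → ℝ) × (Slot V → Bool) × (Slot V → ℝ)) (a c : V) :
    gap G k i r s(a, c) w ≤
      ENNReal.ofReal (lip k) *
        ((∑' q, kern G k i r w (a, c) q) + ∑' q, kern G k i r w (c, a) q) := by
  set y' := yv k (Past G w.1 k r) (hybBits G k i w) with hy'
  set y := yv k (Past G w.1 k r) w.2.1 with hy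
  have hbound : ∀ e, |y e - y' e| ≤ beta * (2 * (k + 1)) := fun e => abs_yv_sub_le k _ _ _ _ e
  have hchanged : ∀ g, y' g ≠ y g → Err G k i g w ∧ w.1 (k, g) < r := by
    intro g hg
    by_contra hcon
    refine hg ?_
    simp only [hy, hy', yv, scaled]
    rw [cnt_congr (P' := Past G w.1 k r) (fun _ _ => Iff.rfl) fun j hj hpast => ?_]
    simp only [hybBits, merge]
    by_cases hjk : j = k
    · subst hjk
      rw [if_pos rfl]
      by_contra hne
      exact hcon ⟨⟨hpast.1, hne⟩, (hpast.2.resolve_left (lt_irrefl _)).2⟩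
    · rw [if_neg hjk]
  have hpair : ∀ p : V × V, ENNReal.ofReal |pent G y' p p - pent G y p p| ≤
      ENNReal.ofReal (lip k) * ∑' q, kern G k i r w p q := by
    intro p
    refine (ofReal_abs_pent_sub_le G y' y _ hbound p).trans
      (mul_le_mul_right (ENNReal.tsum_le_tsum fun q => ?_) _)
    split_ifs with h
    · exact bot_le
    · rw [kern, if_pos (hchanged _ h)]
  rw [mul_add]
  refine le_trans ?_ (add_le_add (hpair (a, c)) (hpair (c, a)))
  rw [← ENNReal.ofReal_add (abs_nonneg _) (abs_nonneg _)]
  refine ENNReal.ofReal_le_ofReal ?_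
  show |pval G y' s(a, c) - pval G y s(a, c)| ≤ _
  simp only [pval, medge_mk]
  have h1 := abs_add_le (pent G y' (a, c) (a, c) - pent G y (a, c) (a, c))
    (pent G y' (c, a) (c, a) - pent G y (c, a) (c, a))
  have h2 := abs_nonneg (pent G y' (a, c) (a, c) - pent G y (a, c) (a, c) +
    (pent G y' (c, a) (c, a) - pent G y (c, a) (c, a)))
  rw [show 1 / 4 + (pent G y' (a, c) (a, c) + pent G y' (c, a) (c, a)) / 2 -
      (1 / 4 + (pent G y (a, c) (a, c) + pent G y (c, a) (c, a)) / 2) =
      (pent G y' (a, c) (a, c) - pent G y (a, c) (a, c) +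
        (pent G y' (c, a) (c, a) - pent G y (c, a) (c, a))) / 2 by ring, abs_div, abs_two]
  linarith

lemma tsum_kern_le (G : SimpleGraph V) (k i : ℕ) (r : ℝ)
    (w : (Slot V → ℝ) × (Slot V → Bool) × (Slot V → ℝ)) (q : V × V) :
    ∑' p, kern G k i r w p q ≤
      4 * (if Err G k i s(q.1, q.2) w ∧ w.1 (k, s(q.1, q.2)) < r then 1 else 0) := by
  by_cases h : Err G k i s(q.1, q.2) w ∧ w.1 (k, s(q.1, q.2)) < r
  · simp only [kern, if_pos h, mul_one, ENNReal.ofReal_add (wgt_nonneg _ _ _ _) (wgt_nonneg _ _ _ _)]
    rw [ENNReal.tsum_add, show (4 : ℝ≥0∞) = 2 + 2 by norm_num]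
    exact add_le_add (tsum_wgt_le _ _ _) (tsum_wgt_le _ _ _)
  · simp [kern, h]

/-- The mass sent from `a` to `b`. -/
def flow (G : SimpleGraph V) (k i : ℕ) (r : ℝ) (a b : V) : ℝ≥0∞ :=
  ∫⁻ w, ∑' c : V, ∑' d : V, (kern G k i r w (a, c) (b, d) + kern G k i r w (c, a) (b, d)) ∂world G

lemma measurable_kern (k i : ℕ) (r : ℝ) (p q : V × V) :
    Measurable fun z : SimpleGraph V × ((Slot V → ℝ) × (Slot V → Bool) × (Slot V → ℝ)) =>
      kern z.1 k i r z.2 p q := by
  have hU : Measurable fun z : SimpleGraph V × ((Slot V → ℝ) × (Slot V → Bool) × (Slot V → ℝ)) =>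
      z.2.1 := measurable_fst.comp measurable_snd
  have hy : ∀ {Bf : SimpleGraph V × ((Slot V → ℝ) × (Slot V → Bool) × (Slot V → ℝ)) →
      Slot V → Bool}, Measurable Bf →
      Measurable fun z : SimpleGraph V × ((Slot V → ℝ) × (Slot V → Bool) × (Slot V → ℝ)) =>
        wgt z.1 (yv k (Past z.1 z.2.1 k r) (Bf z)) p q := by
    intro Bf hB
    have hp : ∀ a b : V × V, Measurable fun z : SimpleGraph V ×
        ((Slot V → ℝ) × (Slot V → Bool) × (Slot V → ℝ)) =>
        pent z.1 (yv k (Past z.1 z.2.1 k r) (Bf z)) a b := fun a b =>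
      measurable_pent measurable_fst (fun e => measurable_cnt
        (measurableSet_past (uf := fun _ => r) measurable_fst hU measurable_const k) hB k e) a b
    exact ((hp q p).pow_const 2).add ((measurable_const.sub (hp q p)).pow_const 2)
  refine Measurable.ite (measurableSet_errLt (uf := fun _ => r) measurable_fst measurable_snd
    measurable_const k i _) ?_ measurable_const
  exact ((hy (measurable_hybBits measurable_fst measurable_snd k i)).add
    (hy (measurable_fst.comp (measurable_snd.comp measurable_snd)))).ennreal_ofReal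

lemma measurable_flow_sum (k i : ℕ) (r : ℝ) (a b : V) :
    Measurable fun z : SimpleGraph V × ((Slot V → ℝ) × (Slot V → Bool) × (Slot V → ℝ)) =>
      ∑' c : V, ∑' d : V,
        (kern z.1 k i r z.2 (a, c) (b, d) + kern z.1 k i r z.2 (c, a) (b, d)) :=
  Measurable.tsum fun c => Measurable.tsum fun d =>
    (measurable_kern k i r _ _).add (measurable_kern k i r _ _)

lemma measurable_flow (k i : ℕ) (r : ℝ) (a b : V) :
    Measurable fun G : SimpleGraph V => flow G k i r a b :=
  measurable_lintegral_world measurable_id (measurable_flow_sum k i r a b)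

theorem flow_comap (σ : Equiv.Perm V) (G : SimpleGraph V) (k i : ℕ) (r : ℝ) (a b : V) :
    flow (G.comap σ) k i r a b = flow G k i r (σ a) (σ b) := by
  rw [flow, flow, lintegral_world_comap σ G (f := fun w => ∑' c : V, ∑' d : V,
    (kern (G.comap σ) k i r w (a, c) (b, d) + kern (G.comap σ) k i r w (c, a) (b, d)))
    ((measurable_flow_sum k i r a b).comp (measurable_const.prodMk measurable_id))]
  refine lintegral_congr fun w => ?_
  have hk : ∀ p q : V × V, kern (G.comap σ) k i r (pullWorld σ w) p q =
      kern G k i r w (σ p.1, σ p.2) (σ q.1, σ q.2) := by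
    intro p q
    have hy : ∀ bts : Slot V → Bool,
        wgt (G.comap σ) (yv k (Past (G.comap σ) (pullWorld σ w).1 k r) (pullSlot σ bts)) p q =
          wgt G (yv k (Past G w.1 k r) bts) (σ p.1, σ p.2) (σ q.1, σ q.2) := fun bts => by
      show wgt (G.comap σ) (yv k (Past (G.comap σ) (pullSlot σ w.1) k r) (pullSlot σ bts)) p q = _
      rw [yv_comap, wgt_comap]
    unfold kern
    rw [hybBits_comap, hy, show (pullWorld σ w).2.1 = pullSlot σ w.2.1 from rfl, hy]
    refine if_congr ?_ rfl rfl
    simp only [err_comap, Sym2.map_mk]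
    rfl
  simp only [hk]
  rw [← Equiv.tsum_eq σ (fun c => ∑' d : V,
    (kern G k i r w (σ a, c) (σ b, d) + kern G k i r w (c, σ a) (σ b, d)))]
  refine tsum_congr fun c => ?_
  rw [← Equiv.tsum_eq σ (fun d =>
    (kern G k i r w (σ a, σ c) (σ b, d) + kern G k i r w (σ c, σ a) (σ b, d)))]

theorem tsum_gapMean_le (G : SimpleGraph V) (k i : ℕ) (r : ℝ) (o : V) :
    ∑' d, gapMean G k i r s(o, d) ≤ ENNReal.ofReal (lip k) * ∑' b, flow G k i r o b := by
  have hm : ∀ b, Measurable fun w => ∑' c : V, ∑' d : V,
      (kern G k i r w (o, c) (b, d) + kern G k i r w (c, o) (b, d)) :=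
    fun b => (measurable_flow_sum k i r o b).comp (measurable_const.prodMk measurable_id)
  have hg : ∀ d, Measurable fun w => gap G k i r s(o, d) w := fun d =>
    measurable_gap (Gf := fun _ => G) (uf := fun _ => r) measurable_const measurable_id
      measurable_const k i _
  simp only [gapMean, flow]
  rw [← lintegral_tsum fun d => (hg d).aemeasurable,
    ← lintegral_tsum fun b => (hm b).aemeasurable,
    ← lintegral_const_mul' _ _ ENNReal.ofReal_ne_top]
  refine lintegral_mono fun w => ?_
  calc ∑' d, gap G k i r s(o, d) w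
      ≤ ∑' d, ENNReal.ofReal (lip k) *
          ((∑' q, kern G k i r w (o, d) q) + ∑' q, kern G k i r w (d, o) q) :=
        ENNReal.tsum_le_tsum fun d => gap_le_kern G k i r w o d
    _ = ENNReal.ofReal (lip k) * ∑' c, ∑' b, ∑' d,
          (kern G k i r w (o, c) (b, d) + kern G k i r w (c, o) (b, d)) := by
        rw [ENNReal.tsum_mul_left]
        congr 1
        refine tsum_congr fun c => ?_
        rw [ENNReal.tsum_prod', ENNReal.tsum_prod', ← ENNReal.tsum_add]
        exact tsum_congr fun b => ENNReal.tsum_add.symm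
    _ = _ := by rw [ENNReal.tsum_comm]

theorem tsum_flow_le (G : SimpleGraph V) (k i : ℕ) (r : ℝ) (o : V) :
    ∑' a, flow G k i r a o ≤ 8 * errSum G k i o r := by
  have hm : ∀ a, Measurable fun w => ∑' c : V, ∑' d : V,
      (kern G k i r w (a, c) (o, d) + kern G k i r w (c, a) (o, d)) :=
    fun a => (measurable_flow_sum k i r a o).comp (measurable_const.prodMk measurable_id)
  simp only [flow, errSum]
  rw [← lintegral_tsum fun a => (hm a).aemeasurable, ← lintegral_const_mul' _ _ (by simp)]
  refine lintegral_mono fun w => ?_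
  calc ∑' a, ∑' c, ∑' d, (kern G k i r w (a, c) (o, d) + kern G k i r w (c, a) (o, d))
      = ∑' d, ((∑' p : V × V, kern G k i r w p (o, d)) +
          ∑' p : V × V, kern G k i r w p (o, d)) := by
        rw [← ENNReal.tsum_prod
          (f := fun a c => ∑' d, (kern G k i r w (a, c) (o, d) + kern G k i r w (c, a) (o, d)))]
        rw [ENNReal.tsum_comm]
        refine tsum_congr fun d => ?_
        rw [ENNReal.tsum_add]
        congr 1
        exact (Equiv.prodComm V V).tsum_eq (fun p => kern G k i r w p (o, d))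
    _ ≤ ∑' d, 8 * (if Err G k i s(o, d) w ∧ w.1 (k, s(o, d)) < r then 1 else 0) := by
        refine ENNReal.tsum_le_tsum fun d => ?_
        refine (add_le_add (tsum_kern_le G k i r w (o, d)) (tsum_kern_le G k i r w (o, d))).trans_eq ?_
        rw [← add_mul]
        norm_num
    _ = _ := ENNReal.tsum_mul_left

variable {μ : Measure (SimpleGraph V)} [IsProbabilityMeasure μ] {o : V}

/-- The averaged mass of wrong edges at the root. -/
def rootErr (μ : Measure (SimpleGraph V)) (o : V) (k i : ℕ) (u : ℝ) : ℝ≥0∞ :=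
  ∫⁻ G, errSum G k i o u ∂μ

theorem rootErr_succ_le (hμ : MassTransport μ o) (k i : ℕ) {u : ℝ} (hu : u ≤ 1 / 2) :
    rootErr μ o k (i + 1) u ≤
      ENNReal.ofReal (16 * lip k) * ∫⁻ r in Set.Iio u, rootErr μ o k i r ∂unif := by
  have hS : Measurable fun z : SimpleGraph V × ℝ => ∑' d, gapMean z.1 k i z.2 s(o, d) :=
    Measurable.tsum fun d => measurable_gapMean k i _
  have h1 : ∀ G, errSum G k (i + 1) o u ≤
      2 * ∫⁻ r in Set.Iio u, ∑' d, gapMean G k i r s(o, d) ∂unif := by
    intro G
    have hg : ∀ d, Measurable fun r => gapMean G k i r s(o, d) := fun d =>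
      (measurable_gapMean k i _).comp measurable_prodMk_left
    rw [lintegral_tsum fun d => (hg d).aemeasurable, errSum, lintegral_tsum fun d => ?_,
      ← ENNReal.tsum_mul_left]
    · exact ENNReal.tsum_le_tsum fun d => err_time_bound G k i _ hu
    · exact (Measurable.ite (measurableSet_errLt (Gf := fun _ => G) (uf := fun _ => u)
        measurable_const measurable_id measurable_const k (i + 1) _)
        measurable_const measurable_const).aemeasurable
  have h2 : ∀ r, ∫⁻ G, ∑' d, gapMean G k i r s(o, d) ∂μ ≤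
      ENNReal.ofReal (lip k) * (8 * rootErr μ o k i r) := by
    intro r
    calc ∫⁻ G, ∑' d, gapMean G k i r s(o, d) ∂μ
        ≤ ∫⁻ G, ENNReal.ofReal (lip k) * ∑' b, flow G k i r o b ∂μ :=
          lintegral_mono fun G => tsum_gapMean_le G k i r o
      _ = ENNReal.ofReal (lip k) * ∫⁻ G, ∑' a, flow G k i r a o ∂μ := by
          rw [lintegral_const_mul' _ _ ENNReal.ofReal_ne_top,
            hμ (fun G a b => flow G k i r a b) (fun a b => measurable_flow k i r a b)
              (fun σ G a b => flow_comap σ G k i r a b)]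
      _ ≤ _ := by
          refine mul_le_mul_right ?_ _
          rw [rootErr, ← lintegral_const_mul' _ _ (by simp)]
          exact lintegral_mono fun G => tsum_flow_le G k i r o
  calc rootErr μ o k (i + 1) u
      ≤ ∫⁻ G, 2 * ∫⁻ r in Set.Iio u, ∑' d, gapMean G k i r s(o, d) ∂unif ∂μ := lintegral_mono h1
    _ = 2 * ∫⁻ r in Set.Iio u, ∫⁻ G, ∑' d, gapMean G k i r s(o, d) ∂μ ∂unif := by
        rw [lintegral_const_mul' _ _ (by simp), lintegral_lintegral_swap hS.aemeasurable]
    _ ≤ 2 * ∫⁻ r in Set.Iio u, ENNReal.ofReal (lip k) * (8 * rootErr μ o k i r) ∂unif :=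
        mul_le_mul_right (lintegral_mono fun r => h2 r) _
    _ = _ := by
        simp only [← mul_assoc]
        rw [lintegral_const_mul' _ _ (ENNReal.mul_ne_top ENNReal.ofReal_ne_top (by simp)),
          ← mul_assoc]
        congr 1
        rw [ENNReal.ofReal_mul (by norm_num), show ENNReal.ofReal (16 : ℝ) = 16 by norm_num]
        ring

omit [Countable V] in
lemma tsum_inClass_le (G : SimpleGraph V) (k : ℕ) (o : V) :
    ∑' d, (if InClass G k s(o, d) then (1 : ℝ≥0∞) else 0) ≤ k := by
  rw [ENNReal.tsum_eq_iSup_sum]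
  refine iSup_le fun S => ?_
  rw [Finset.sum_boole]
  rcases (S.filter fun d => InClass G k s(o, d)).eq_empty_or_nonempty with h | ⟨d₀, hd₀⟩
  · simp [h]
  · have hdeg : (G.neighborSet o).encard ≤ k :=
      (Finset.mem_filter.1 hd₀).2.2 o (Sym2.mem_mk_left _ _)
    have hsub : ((S.filter fun d => InClass G k s(o, d) : Finset V) : Set V) ⊆ G.neighborSet o :=
      fun d hd => (Finset.mem_filter.1 hd).2.1
    have := (Set.encard_le_encard hsub).trans hdeg
    rw [Set.encard_coe_eq_coe_finsetCard, Nat.cast_le] at this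
    exact_mod_cast this

theorem rootErr_le (hμ : MassTransport μ o) (k i : ℕ) {u : ℝ} (hu0 : 0 ≤ u) (hu : u ≤ 1 / 2) :
    rootErr μ o k i u ≤ ENNReal.ofReal (k * (1 / 2) ^ i * Real.exp (32 * lip k * u)) := by
  induction i generalizing u with
  | zero =>
    refine le_trans ?_ (ENNReal.ofReal_le_ofReal (p := (k : ℝ)) ?_)
    · rw [ENNReal.ofReal_natCast, rootErr]
      refine (lintegral_mono (g := fun _ => (k : ℝ≥0∞)) fun G => ?_).trans (by simp)
      rw [errSum]
      refine (lintegral_mono (g := fun _ => (k : ℝ≥0∞)) fun w => ?_).trans (by simp)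
      refine le_trans (ENNReal.tsum_le_tsum fun d => ?_) (tsum_inClass_le G k o)
      by_cases h : Err G k 0 s(o, d) w ∧ w.1 (k, s(o, d)) < u
      · rw [if_pos h, if_pos (h.1.1.1 : InClass G k s(o, d))]
      · rw [if_neg h]; exact bot_le
    · have := Real.one_le_exp (x := 32 * lip k * u) (by have := lip_pos k; positivity)
      rw [pow_zero, mul_one]
      exact le_mul_of_one_le_right (Nat.cast_nonneg k) this
  | succ i ih =>
    set lam := 32 * lip k with hlam
    have hlpos : 0 < lam := by have := lip_pos k; positivity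
    refine (rootErr_succ_le hμ k i hu).trans ?_
    have hsupp : ∀ᵐ r ∂(unif.restrict (Set.Iio u)), 0 ≤ r ∧ r < u := by
      rw [unif, Measure.restrict_restrict measurableSet_Iio]
      filter_upwards [ae_restrict_mem (measurableSet_Iio.inter measurableSet_Icc)] with r hr
      exact ⟨hr.2.1, hr.1⟩
    calc ENNReal.ofReal (16 * lip k) * ∫⁻ r in Set.Iio u, rootErr μ o k i r ∂unif
        ≤ ENNReal.ofReal (16 * lip k) * ∫⁻ r in Set.Iio u,
            ENNReal.ofReal (k * (1 / 2) ^ i * Real.exp (lam * r)) ∂unif := by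
          refine mul_le_mul_right (lintegral_mono_ae ?_) _
          filter_upwards [hsupp] with r hr using ih hr.1 (hr.2.le.trans hu)
      _ ≤ ENNReal.ofReal (16 * lip k) * ∫⁻ r in Set.Icc 0 u,
            ENNReal.ofReal (k * (1 / 2) ^ i * Real.exp (lam * r)) := by
          refine mul_le_mul_right ?_ _
          rw [unif, Measure.restrict_restrict measurableSet_Iio]
          exact lintegral_mono_set fun r hr => ⟨hr.2.1, (hr.1 : r < u).le⟩
      _ ≤ _ := by
          have hint : IntegrableOn (fun r => (k : ℝ) * (1 / 2) ^ i * Real.exp (lam * r))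
              (Set.Icc 0 u) := (by fun_prop : Continuous fun r =>
                (k : ℝ) * (1 / 2) ^ i * Real.exp (lam * r)).continuousOn.integrableOn_compact
              isCompact_Icc
          rw [← ofReal_integral_eq_lintegral_ofReal hint
            (Eventually.of_forall fun r => by positivity),
            ← ENNReal.ofReal_mul (by have := lip_pos k; positivity)]
          refine ENNReal.ofReal_le_ofReal ?_
          rw [integral_Icc_eq_integral_Ioc, ← intervalIntegral.integral_of_le hu0,
            intervalIntegral.integral_const_mul,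
            intervalIntegral.integral_comp_mul_left _ hlpos.ne', mul_zero, integral_exp,
            Real.exp_zero, smul_eq_mul]
          have e : 16 * lip k * ((k : ℝ) * (1 / 2) ^ i * (lam⁻¹ * (Real.exp (lam * u) - 1))) =
              (k : ℝ) * (1 / 2) ^ (i + 1) * (Real.exp (lam * u) - 1) := by
            have := (lip_pos k).ne'
            rw [hlam, pow_succ]
            field_simp
            ring
          rw [e]
          exact mul_le_mul_of_nonneg_left (by linarith [Real.exp_pos (lam * u)]) (by positivity)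

/-- All iterates at the vertex `o` are eventually right. -/
def Good (G : SimpleGraph V) (k : ℕ) (o : V)
    (w : (Slot V → ℝ) × (Slot V → Bool) × (Slot V → ℝ)) : Prop :=
  ∀ d, ∀ᶠ i in atTop, ¬Err G k i s(o, d) w

lemma measurableSet_good (k : ℕ) (o : V) :
    MeasurableSet {z : SimpleGraph V × ((Slot V → ℝ) × (Slot V → Bool) × (Slot V → ℝ)) |
      ¬Good z.1 k o z.2} := by
  refine MeasurableSet.compl ?_
  have : {z : SimpleGraph V × ((Slot V → ℝ) × (Slot V → Bool) × (Slot V → ℝ)) |
      Good z.1 k o z.2} = ⋂ d, ⋃ N : ℕ, ⋂ i ≥ N, {z | Err z.1 k i s(o, d) z.2}ᶜ := by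
    ext z; simp [Good, eventually_atTop]
  show MeasurableSet {z : SimpleGraph V × ((Slot V → ℝ) × (Slot V → Bool) × (Slot V → ℝ)) |
      Good z.1 k o z.2}
  rw [this]
  exact MeasurableSet.iInter fun d => MeasurableSet.iUnion fun N => MeasurableSet.iInter fun i =>
    MeasurableSet.iInter fun _ => (measurableSet_err measurable_fst measurable_snd k i _).compl

lemma good_comap (σ : Equiv.Perm V) (G : SimpleGraph V) (k : ℕ) (a : V)
    (w : (Slot V → ℝ) × (Slot V → Bool) × (Slot V → ℝ)) :
    Good (G.comap σ) k a (pullWorld σ w) ↔ Good G k (σ a) w := by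
  simp only [Good, err_comap, Sym2.map_mk]
  exact σ.forall_congr_left.trans (by simp)

theorem ae_good (hμ : MassTransport μ o) (k : ℕ) :
    ∀ᵐ G ∂μ, ∀ᵐ w ∂world G, ∀ v, Good G k v w := by
  let bad : SimpleGraph V → V → ℝ≥0∞ := fun G v => world G {w | ¬Good G k v w}
  have hbadm : ∀ v, Measurable fun G => bad G v := fun v =>
    worldK_apply_set (measurableSet_good k v)
  have hinv : ∀ (σ : Equiv.Perm V) (G : SimpleGraph V) (b : V),
      bad (G.comap σ) b = bad G (σ b) := by
    intro σ G b
    show world (G.comap σ) (Prod.mk (G.comap σ) ⁻¹' {z | ¬Good z.1 k b z.2}) =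
      world G {w | ¬Good G k (σ b) w}
    rw [world_comap, Measure.map_apply (measurable_pullWorld σ)
      (measurable_prodMk_left (measurableSet_good k b))]
    congr 1
    ext w
    simp [good_comap]
  have hroot : ∀ᵐ G ∂μ, bad G o = 0 := by
    have hsum : ∫⁻ G, ∑' i, errSum G k i o (1 / 2) ∂μ ≠ ⊤ := by
      rw [lintegral_tsum fun i => (measurable_errSum k i o _).aemeasurable]
      refine ne_top_of_le_ne_top ?_
        (ENNReal.tsum_le_tsum fun i => rootErr_le hμ k i (by norm_num : (0 : ℝ) ≤ 1 / 2) le_rfl)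
      rw [← ENNReal.ofReal_tsum_of_nonneg (fun i => by positivity)
        (((summable_geometric_of_lt_one (by norm_num) (by norm_num : (1 / 2 : ℝ) < 1)).mul_left
          (k : ℝ)).mul_right _)]
      exact ENNReal.ofReal_ne_top
    filter_upwards [ae_lt_top (Measurable.tsum fun i => measurable_errSum k i o _) hsum] with G hG
    have hfin : ∀ᵐ w ∂world G, ∀ d,
        ∑' i, (if Err G k i s(o, d) w ∧ w.1 (k, s(o, d)) < 1 / 2 then (1 : ℝ≥0∞) else 0) ≠ ⊤ := by
      have hm : ∀ i d, Measurable fun w =>
          (if Err G k i s(o, d) w ∧ w.1 (k, s(o, d)) < 1 / 2 then (1 : ℝ≥0∞) else 0) := fun i d =>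
        Measurable.ite (measurableSet_errLt (Gf := fun _ => G) (uf := fun _ => 1 / 2)
          measurable_const measurable_id measurable_const k i _) measurable_const measurable_const
      have h' : ∫⁻ w, ∑' i, ∑' d,
          (if Err G k i s(o, d) w ∧ w.1 (k, s(o, d)) < 1 / 2 then (1 : ℝ≥0∞) else 0) ∂world G ≠ ⊤ := by
        rw [lintegral_tsum fun i => (Measurable.tsum fun d => hm i d).aemeasurable]
        exact hG.ne
      filter_upwards [ae_lt_top (Measurable.tsum fun i => Measurable.tsum fun d => hm i d) h']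
        with w hw d
      exact ne_top_of_le_ne_top hw.ne (ENNReal.tsum_le_tsum fun i => ENNReal.le_tsum d)
    refine ae_iff.1 ?_
    filter_upwards [hfin] with w hw
    intro d
    have ht := ENNReal.tendsto_atTop_zero_of_tsum_ne_top (hw d)
    filter_upwards [ht.eventually (eventually_lt_nhds one_pos)] with i hi herr
    rw [if_pos ⟨herr, herr.1.2⟩] at hi
    exact lt_irrefl _ hi
  have hall : ∀ᵐ G ∂μ, ∑' v, bad G v = 0 := by
    refine (lintegral_eq_zero_iff (Measurable.tsum hbadm)).1 ?_
    calc ∫⁻ G, ∑' v, bad G v ∂μ = ∫⁻ G, ∑' v, bad G o ∂μ :=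
          hμ (fun G _ b => bad G b) (fun _ b => hbadm b) (fun σ G _ b => hinv σ G b)
      _ = 0 := by
          rw [lintegral_eq_zero_iff (Measurable.tsum fun _ => hbadm o)]
          filter_upwards [hroot] with G hG
          simp [hG]
  filter_upwards [hall] with G hG
  rw [ae_all_iff]
  intro v
  rw [ae_iff]
  exact ENNReal.tsum_eq_zero.1 hG v

theorem ae_sol_eq_bits (hμ : MassTransport μ o) :
    ∀ᵐ G ∂μ, ∀ᵐ w ∂world G, ∀ s : Slot V, Obs G w.1 s →
      sol G w.1 (vOf G w.1 w.2.1 w.2.2) s = w.2.1 s := by
  have h : ∀ᵐ G ∂μ, ∀ k, ∀ᵐ w ∂world G, ∀ v, Good G k v w := ae_all_iff.2 (ae_good hμ)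
  filter_upwards [h] with G hG
  filter_upwards [ae_all_iff.2 hG] with w hw
  obtain ⟨U, b, a⟩ := w
  have hup : ∀ k : ℕ, ∀ s : Slot V, Obs G U s → s.1 < k → upto G U (vOf G U b a) k s = b s := by
    intro k
    induction k with
    | zero => intro s _ h; exact absurd h (Nat.not_lt_zero _)
    | succ k ih =>
      rintro ⟨j, e⟩ hs hjk
      show merge k _ _ (j, e) = _
      unfold merge
      by_cases hj : j = k
      · subst hj
        rw [if_pos rfl]
        have hpast : Past G U j (1 / 2) (j, e) := ⟨hs, Or.inr ⟨rfl, hs.2⟩⟩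
        have heq : ∀ i, iter G U (vOf G U b a) j (upto G U (vOf G U b a) j) i e =
            hyb G j i (U, b, a) e := fun i =>
          iter_congr G (fun _ => Iff.rfl) (fun _ _ => rfl) (fun _ _ _ => rfl)
            (fun t ht htj => ih t ht.1 htj) i e hpast
        have hev : ∀ᶠ i in atTop, hyb G j i (U, b, a) e = b (j, e) := by
          induction e using Sym2.ind with
          | h x y =>
            filter_upwards [hw j x y] with i hi
            by_contra hne
            exact hi ⟨hs, hne⟩
        show decide (∃ N, ∀ i ≥ N, iter G U (vOf G U b a) j _ i e = true) = b (j, e)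
        simp only [heq]
        obtain ⟨N₀, hN₀⟩ := eventually_atTop.1 hev
        cases hb : b (j, e)
        · rw [decide_eq_false_iff_not]
          rintro ⟨N, hN⟩
          have h1 := hN₀ (max N N₀) (le_max_right _ _)
          rw [hN (max N N₀) (le_max_left _ _), hb] at h1
          exact Bool.noConfusion h1
        · rw [decide_eq_true_eq]
          exact ⟨N₀, fun i hi => (hN₀ i hi).trans hb⟩
      · rw [if_neg hj]
        exact ih (j, e) hs (lt_of_le_of_ne (Nat.lt_succ_iff.1 hjk) hj)
  intro s hs
  exact hup (s.1 + 1) s hs (Nat.lt_succ_self _)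

end

end Vale.P143
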