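import Vale.Agent.P143.Proj

/-!
P143: Kirchhoff's formula for weighted maximal spanning forests of a finite edge set.
-/

namespace Vale.P143

open scoped RealInnerProductSpace
open scoped Classical

noncomputable section

variable {V : Type*}

/-- The graph of a finite edge set. -/
def edgeGraph (T : Finset (Sym2 V)) : SimpleGraph V := SimpleGraph.fromEdgeSet (T : Set (Sym2 V))

lemma edgeGraph_adj {T : Finset (Sym2 V)} {a b : V} :
    (edgeGraph T).Adj a b ↔ s(a, b) ∈ T ∧ a ≠ b := by
  simp [edgeGraph, SimpleGraph.fromEdgeSet_adj]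

lemma edgeGraph_mono {S T : Finset (Sym2 V)} (h : S ⊆ T) : edgeGraph S ≤ edgeGraph T :=
  fun a b hab => by
    rw [edgeGraph_adj] at hab ⊢
    exact ⟨h hab.1, hab.2⟩

/-- A maximal spanning forest of `H`, as a set of edges. -/
def IsSpanForest (H : SimpleGraph V) (T : Finset (Sym2 V)) : Prop :=
  (T : Set (Sym2 V)) ⊆ H.edgeSet ∧ (edgeGraph T).IsAcyclic ∧
    ∀ a b, H.Adj a b → (edgeGraph T).Reachable a b

/-- A forest whose extension by the edge `ab` is spanning and which separates `a` from `b`. -/
def IsSplitForest (H : SimpleGraph V) (a b : V) (F : Finset (Sym2 V)) : Prop :=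
  (F : Set (Sym2 V)) ⊆ H.edgeSet ∧ (edgeGraph F).IsAcyclic ∧ ¬(edgeGraph F).Reachable a b ∧
    ∀ u v, H.Adj u v → (edgeGraph (insert s(a, b) F)).Reachable u v

/-- The finite set of maximal spanning forests. -/
def spanForests (H : SimpleGraph V) (hfin : H.edgeSet.Finite) : Finset (Finset (Sym2 V)) :=
  hfin.toFinset.powerset.filter (IsSpanForest H)

lemma mem_spanForests {H : SimpleGraph V} {hfin : H.edgeSet.Finite} {T : Finset (Sym2 V)} :
    T ∈ spanForests H hfin ↔ IsSpanForest H T := by
  simp only [spanForests, Finset.mem_filter, Finset.mem_powerset, and_iff_right_iff_imp]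
  exact fun h e he => hfin.mem_toFinset.2 (h.1 he)

/-- The finite set of split forests. -/
def splitForests (H : SimpleGraph V) (hfin : H.edgeSet.Finite) (a b : V) :
    Finset (Finset (Sym2 V)) :=
  hfin.toFinset.powerset.filter (IsSplitForest H a b)

lemma mem_splitForests {H : SimpleGraph V} {hfin : H.edgeSet.Finite} {a b : V}
    {T : Finset (Sym2 V)} : T ∈ splitForests H hfin a b ↔ IsSplitForest H a b T := by
  simp only [splitForests, Finset.mem_filter, Finset.mem_powerset, and_iff_right_iff_imp]
  exact fun h e he => hfin.mem_toFinset.2 (h.1 he)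

lemma reach_of_edges {S : Finset (Sym2 V)} {G : SimpleGraph V}
    (h : ∀ u v, (edgeGraph S).Adj u v → G.Reachable u v) {x z : V}
    (hxz : (edgeGraph S).Reachable x z) : G.Reachable x z := by
  obtain ⟨p⟩ := hxz
  induction p with
  | nil => exact SimpleGraph.Reachable.refl _
  | cons hadj _ ih => exact (h _ _ hadj).trans ih

lemma reach_erase_or (T : Finset (Sym2 V)) (v t : V) {x z : V}
    (hxz : (edgeGraph T).Reachable x z) :
    (edgeGraph (T.erase s(v, t))).Reachable x z ∨
      (edgeGraph (T.erase s(v, t))).Reachable x v ∨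
      (edgeGraph (T.erase s(v, t))).Reachable x t := by
  obtain ⟨p⟩ := hxz
  induction p with
  | nil => exact Or.inl (SimpleGraph.Reachable.refl _)
  | @cons x w z hadj p ih =>
    by_cases he : s(x, w) = s(v, t)
    · rcases Sym2.eq_iff.1 he with ⟨rfl, -⟩ | ⟨rfl, -⟩
      · exact Or.inr (Or.inl (SimpleGraph.Reachable.refl _))
      · exact Or.inr (Or.inr (SimpleGraph.Reachable.refl _))
    · have h' : (edgeGraph (T.erase s(v, t))).Reachable x w := by
        rw [edgeGraph_adj] at hadj
        exact SimpleGraph.Adj.reachable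
          (edgeGraph_adj.2 ⟨Finset.mem_erase.2 ⟨he, hadj.1⟩, hadj.2⟩)
      rcases ih with i | i | i
      · exact Or.inl (h'.trans i)
      · exact Or.inr (Or.inl (h'.trans i))
      · exact Or.inr (Or.inr (h'.trans i))

lemma bridge_of_acyclic {T : Finset (Sym2 V)} (hT : (edgeGraph T).IsAcyclic) {v t : V}
    (hmem : s(v, t) ∈ T) (hne : v ≠ t) : ¬(edgeGraph (T.erase s(v, t))).Reachable v t := by
  have h := SimpleGraph.isAcyclic_iff_forall_adj_isBridge.1 hT (edgeGraph_adj.2 ⟨hmem, hne⟩)
  rw [SimpleGraph.isBridge_iff] at h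
  refine fun hr => h (hr.mono ?_)
  intro a b hab
  rw [edgeGraph_adj, Finset.mem_erase] at hab
  rw [SimpleGraph.deleteEdges_adj, edgeGraph_adj]
  exact ⟨⟨hab.1.2, hab.2⟩, by simpa using hab.1.1⟩

lemma isAcyclic_insert {F : Finset (Sym2 V)} (hF : (edgeGraph F).IsAcyclic) {v t : V}
    (hn : ¬(edgeGraph F).Reachable v t) : (edgeGraph (insert s(v, t) F)).IsAcyclic := by
  refine (hF.sup_edge_of_not_reachable hn).anti ?_
  intro a b hab
  rw [edgeGraph_adj, Finset.mem_insert] at hab
  rcases hab.1 with h | h
  · exact Or.inr ((SimpleGraph.edge_adj v t a b).2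
      ⟨Sym2.eq_iff.1 h, hab.2⟩)
  · exact Or.inl (edgeGraph_adj.2 ⟨h, hab.2⟩)

/-- Signed indicator of the side of `x` after deleting the edge `vt`. -/
def side (T : Finset (Sym2 V)) (v t x : V) : ℝ :=
  (if (edgeGraph (T.erase s(v, t))).Reachable v x then 1 else 0) -
    (if (edgeGraph (T.erase s(v, t))).Reachable t x then 1 else 0)

lemma side_swap (T : Finset (Sym2 V)) (v t x : V) : side T t v x = -side T v t x := by
  unfold side
  rw [Sym2.eq_swap]
  ring

lemma side_congr (T : Finset (Sym2 V)) (v t : V) {x z : V}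
    (h : (edgeGraph (T.erase s(v, t))).Reachable x z) : side T v t x = side T v t z := by
  have h1 : ∀ w, (edgeGraph (T.erase s(v, t))).Reachable w x ↔
      (edgeGraph (T.erase s(v, t))).Reachable w z :=
    fun w => ⟨fun i => i.trans h, fun i => i.trans h.symm⟩
  unfold side
  simp only [h1]

/-- The net number of crossings of the oriented edge `vt` by the tree path from `a` to `b`. -/
def net (T : Finset (Sym2 V)) (a b v t : V) : ℝ :=
  if s(v, t) ∈ T then (side T v t a - side T v t b) / 2 else 0

lemma net_swap (T : Finset (Sym2 V)) (a b v t : V) : net T a b t v = -net T a b v t := by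
  unfold net
  rw [side_swap T v t a, side_swap T v t b, Sym2.eq_swap]
  split_ifs <;> ring

lemma net_trans (T : Finset (Sym2 V)) (a c b v t : V) :
    net T a b v t = net T a c v t + net T c b v t := by
  unfold net
  split_ifs <;> ring

lemma net_self (T : Finset (Sym2 V)) (a v t : V) : net T a a v t = 0 := by
  unfold net
  split_ifs <;> simp

lemma net_adj {T : Finset (Sym2 V)} (hT : (edgeGraph T).IsAcyclic) {a b : V}
    (hab : (edgeGraph T).Adj a b) (v t : V) :
    net T a b v t =
      (if v = a ∧ t = b then 1 else 0) - (if v = b ∧ t = a then 1 else 0) := by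
  have hne := (edgeGraph_adj.1 hab).2
  have hmem := (edgeGraph_adj.1 hab).1
  have hbr := bridge_of_acyclic hT hmem hne
  have key : net T a b a b = 1 := by
    unfold net side
    rw [if_pos hmem, if_pos (SimpleGraph.Reachable.refl a), if_neg (fun h => hbr h.symm),
      if_neg hbr, if_pos (SimpleGraph.Reachable.refl b)]
    norm_num
  by_cases h1 : v = a ∧ t = b
  · obtain ⟨rfl, rfl⟩ := h1
    rw [key, if_pos ⟨rfl, rfl⟩, if_neg (fun h => hne h.1)]
    ring
  by_cases h2 : v = b ∧ t = a
  · obtain ⟨rfl, rfl⟩ := h2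
    rw [net_swap, key, if_neg h1, if_pos ⟨rfl, rfl⟩]
    ring
  rw [if_neg h1, if_neg h2, sub_zero]
  have hne' : s(a, b) ≠ s(v, t) := by
    intro h
    rcases Sym2.eq_iff.1 h with ⟨e1, e2⟩ | ⟨e1, e2⟩
    · exact h1 ⟨e1.symm, e2.symm⟩
    · exact h2 ⟨e2.symm, e1.symm⟩
  have : (edgeGraph (T.erase s(v, t))).Adj a b :=
    edgeGraph_adj.2 ⟨Finset.mem_erase.2 ⟨hne', hmem⟩, hne⟩
  unfold net
  rw [side_congr T v t this.reachable]
  split_ifs <;> simp

lemma net_div {T : Finset (Sym2 V)} (hT : (edgeGraph T).IsAcyclic) {a b : V}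
    (hab : (edgeGraph T).Reachable a b) (S : Finset V)
    (hS : ∀ u w, (edgeGraph T).Adj u w → u ∈ S) (v : V) :
    ∑ t ∈ S, net T a b v t = (if v = a then 1 else 0) - (if v = b then 1 else 0) := by
  obtain ⟨p⟩ := hab
  induction p with
  | nil => simp [net_self]
  | @cons a c b hadj p ih =>
    rw [Finset.sum_congr rfl fun t _ => net_trans T a c b v t, Finset.sum_add_distrib, ih]
    rw [Finset.sum_congr rfl fun t _ => net_adj hT hadj v t, Finset.sum_sub_distrib]
    have ha : a ∈ S := hS a c hadj
    have hc : c ∈ S := hS c a hadj.symm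
    have e1 : ∑ t ∈ S, (if v = a ∧ t = c then (1 : ℝ) else 0) = if v = a then 1 else 0 := by
      by_cases hv : v = a <;> simp [hv, hc]
    have e2 : ∑ t ∈ S, (if v = c ∧ t = a then (1 : ℝ) else 0) = if v = c then 1 else 0 := by
      by_cases hv : v = c <;> simp [hv, ha]
    rw [e1, e2]
    ring

lemma net_eq {T : Finset (Sym2 V)} (hT : (edgeGraph T).IsAcyclic) {a b v t : V}
    (hab : (edgeGraph T).Reachable a b) (hne : v ≠ t) :
    net T a b v t =
      if s(v, t) ∈ T ∧ ¬(edgeGraph (T.erase s(v, t))).Reachable a b then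
        (if (edgeGraph (T.erase s(v, t))).Reachable v a then 1 else 0) -
          (if (edgeGraph (T.erase s(v, t))).Reachable t a then 1 else 0)
      else 0 := by
  unfold net
  by_cases hm : s(v, t) ∈ T
  swap
  · simp [hm]
  rw [if_pos hm]
  set R := (edgeGraph (T.erase s(v, t))).Reachable with hR
  by_cases hr : R a b
  · rw [side_congr T v t hr, if_neg (fun h => h.2 hr)]
    simp
  rw [if_pos ⟨hm, hr⟩]
  have hbr : ¬R v t := bridge_of_acyclic hT hm hne
  unfold side
  rw [← hR]
  rcases (reach_erase_or T v t hab).resolve_left hr with ha | ha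
  · have hb : R b t := ((reach_erase_or T v t hab.symm).resolve_left (fun h => hr h.symm)).resolve_left
      (fun h => hr (ha.trans h.symm))
    rw [if_pos ha.symm, if_neg (fun h : R t a => hbr (h.trans ha).symm),
      if_neg (fun h : R v b => hbr (h.trans hb)), if_pos hb.symm]
    norm_num
  · have hb : R b v := ((reach_erase_or T v t hab.symm).resolve_left (fun h => hr h.symm)).resolve_right
      (fun h => hr (ha.trans h.symm))
    rw [if_neg (fun h : R v a => hbr (h.trans ha)), if_pos ha.symm, if_pos hb.symm,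
      if_neg (fun h : R t b => hbr (h.trans hb).symm)]
    norm_num

/-- The weight of an edge set. -/
def weight (y : Sym2 V → ℝ) (T : Finset (Sym2 V)) : ℝ := ∏ e ∈ T, Real.exp (y e)

lemma weight_pos (y : Sym2 V → ℝ) (T : Finset (Sym2 V)) : 0 < weight y T :=
  Finset.prod_pos fun e _ => Real.exp_pos _

theorem spanForests_nonempty (H : SimpleGraph V) (hfin : H.edgeSet.Finite) :
    (spanForests H hfin).Nonempty := by
  set C := hfin.toFinset.powerset.filter (fun F => (edgeGraph F).IsAcyclic)
  have hC : (∅ : Finset (Sym2 V)) ∈ C := by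
    have hbot : edgeGraph (∅ : Finset (Sym2 V)) = ⊥ := by
      ext u w; simp [edgeGraph_adj]
    simp only [C, Finset.mem_filter, Finset.empty_mem_powerset, true_and, hbot]
    exact SimpleGraph.isAcyclic_bot
  obtain ⟨T, hT, hmax⟩ := C.exists_max_image Finset.card ⟨∅, hC⟩
  simp only [C, Finset.mem_filter, Finset.mem_powerset] at hT
  refine ⟨T, mem_spanForests.2 ⟨fun e he => hfin.mem_toFinset.1 (hT.1 he), hT.2, ?_⟩⟩
  intro a b hab
  by_contra hn
  have hnot : s(a, b) ∉ T := fun h => hn (SimpleGraph.Adj.reachable (edgeGraph_adj.2 ⟨h, hab.ne⟩))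
  have hins : insert s(a, b) T ∈ C := by
    simp only [C, Finset.mem_filter, Finset.mem_powerset, Finset.insert_subset_iff,
      Set.Finite.mem_toFinset, SimpleGraph.mem_edgeSet]
    exact ⟨⟨hab, hT.1⟩, isAcyclic_insert hT.2 hn⟩
  have := hmax _ hins
  rw [Finset.card_insert_of_notMem hnot] at this
  omega

lemma split_insert {H : SimpleGraph V} {a b v t : V} {F : Finset (Sym2 V)}
    (hF : IsSplitForest H a b F) (hvt : H.Adj v t)
    (hcross : ¬((edgeGraph F).Reachable v a ↔ (edgeGraph F).Reachable t a)) :
    s(v, t) ∉ F ∧ IsSpanForest H (insert s(v, t) F) := by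
  obtain ⟨hsub, hac, hnab, hspan⟩ := hF
  have hnvt : ¬(edgeGraph F).Reachable v t :=
    fun h => hcross ⟨fun i => h.symm.trans i, fun i => h.trans i⟩
  refine ⟨fun h => hnvt (SimpleGraph.Adj.reachable (edgeGraph_adj.2 ⟨h, hvt.ne⟩)), ?_,
    isAcyclic_insert hac hnvt, ?_⟩
  · intro e he
    simp only [Finset.coe_insert, Set.mem_insert_iff] at he
    rcases he with rfl | he
    · exact hvt
    · exact hsub he
  have habF : s(a, b) ∉ F := by
    intro h
    by_cases e : a = b
    · exact hnab (e ▸ SimpleGraph.Reachable.refl a)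
    · exact hnab (SimpleGraph.Adj.reachable (edgeGraph_adj.2 ⟨h, e⟩))
  have hv := reach_erase_or _ a b (hspan v t hvt)
  have ht := reach_erase_or _ a b (hspan v t hvt).symm
  rw [Finset.erase_insert habF] at hv ht
  replace hv := hv.resolve_left hnvt
  replace ht := ht.resolve_left (fun h => hnvt h.symm)
  set T := insert s(v, t) F
  have hmono : ∀ {x z : V}, (edgeGraph F).Reachable x z → (edgeGraph T).Reachable x z :=
    fun h => h.mono (edgeGraph_mono (Finset.subset_insert _ _))
  have hT : (edgeGraph T).Reachable v t :=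
    SimpleGraph.Adj.reachable (edgeGraph_adj.2 ⟨Finset.mem_insert_self _ _, hvt.ne⟩)
  have hTab : (edgeGraph T).Reachable a b := by
    rcases hv with hv | hv
    · rcases ht with ht | ht
      · exact absurd (iff_of_true hv ht) hcross
      · exact ((hmono hv).symm.trans hT).trans (hmono ht)
    · rcases ht with ht | ht
      · exact ((hmono ht).symm.trans hT.symm).trans (hmono hv)
      · exact absurd (hv.trans ht.symm) hnvt
  intro x z hxz
  refine reach_of_edges (fun u w huw => ?_) (hspan x z hxz)
  rw [edgeGraph_adj, Finset.mem_insert] at huw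
  rcases huw.1 with e | e
  · rcases Sym2.eq_iff.1 e with ⟨rfl, rfl⟩ | ⟨rfl, rfl⟩
    · exact hTab
    · exact hTab.symm
  · exact hmono (SimpleGraph.Adj.reachable (edgeGraph_adj.2 ⟨e, huw.2⟩))

lemma erase_split {H : SimpleGraph V} {a b v t : V} {T : Finset (Sym2 V)} (hab : H.Adj a b)
    (hT : IsSpanForest H T) (hvt : H.Adj v t) (hm : s(v, t) ∈ T)
    (hr : ¬(edgeGraph (T.erase s(v, t))).Reachable a b) :
    IsSplitForest H a b (T.erase s(v, t)) ∧
      ¬((edgeGraph (T.erase s(v, t))).Reachable v a ↔
        (edgeGraph (T.erase s(v, t))).Reachable t a) := by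
  obtain ⟨hsub, hac, hspan⟩ := hT
  have hbr := bridge_of_acyclic hac hm hvt.ne
  set F := T.erase s(v, t)
  have ha := (reach_erase_or T v t (hspan a b hab)).resolve_left hr
  have hb := (reach_erase_or T v t (hspan a b hab).symm).resolve_left (fun h => hr h.symm)
  refine ⟨⟨fun e he => hsub (Finset.erase_subset _ _ he),
    hac.anti (edgeGraph_mono (Finset.erase_subset _ _)), hr, ?_⟩, ?_⟩
  · have hmono : ∀ {x z : V}, (edgeGraph F).Reachable x z →
        (edgeGraph (insert s(a, b) F)).Reachable x z :=
      fun h => h.mono (edgeGraph_mono (Finset.subset_insert _ _))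
    have hab' : (edgeGraph (insert s(a, b) F)).Reachable a b :=
      SimpleGraph.Adj.reachable (edgeGraph_adj.2 ⟨Finset.mem_insert_self _ _, hab.ne⟩)
    have hvt' : (edgeGraph (insert s(a, b) F)).Reachable v t := by
      rcases ha with ha | ha
      · rcases hb with hb | hb
        · exact absurd (ha.trans hb.symm) hr
        · exact ((hmono ha).symm.trans hab').trans (hmono hb)
      · rcases hb with hb | hb
        · exact ((hmono hb).symm.trans hab'.symm).trans (hmono ha)
        · exact absurd (ha.trans hb.symm) hr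
    intro x z hxz
    refine reach_of_edges (fun u w huw => ?_) (hspan x z hxz)
    rw [edgeGraph_adj] at huw
    by_cases e : s(u, w) = s(v, t)
    · rcases Sym2.eq_iff.1 e with ⟨rfl, rfl⟩ | ⟨rfl, rfl⟩
      · exact hvt'
      · exact hvt'.symm
    · exact hmono (SimpleGraph.Adj.reachable
        (edgeGraph_adj.2 ⟨Finset.mem_erase.2 ⟨e, huw.1⟩, huw.2⟩))
  · intro hiff
    rcases ha with ha | ha
    · exact hbr (ha.symm.trans (hiff.1 ha.symm).symm)
    · exact hbr ((hiff.2 ha.symm).trans ha)

/-- The current of the oriented edge `vt`. -/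
def current (H : SimpleGraph V) (hfin : H.edgeSet.Finite) (y : Sym2 V → ℝ) (a b v t : V) : ℝ :=
  ∑ T ∈ spanForests H hfin, weight y T * net T a b v t

/-- The potential given by the split forests. -/
def fpot (H : SimpleGraph V) (hfin : H.edgeSet.Finite) (y : Sym2 V → ℝ) (a b v : V) : ℝ :=
  ∑ F ∈ splitForests H hfin a b,
    weight y F * (if (edgeGraph F).Reachable v a then 1 else 0)

lemma current_eq (H : SimpleGraph V) (hfin : H.edgeSet.Finite) (y : Sym2 V → ℝ) {a b v t : V}
    (hab : H.Adj a b) (hvt : H.Adj v t) :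
    current H hfin y a b v t =
      Real.exp (y s(v, t)) * (fpot H hfin y a b v - fpot H hfin y a b t) := by
  have hL : current H hfin y a b v t =
      ∑ T ∈ (spanForests H hfin).filter
        (fun T => s(v, t) ∈ T ∧ ¬(edgeGraph (T.erase s(v, t))).Reachable a b),
        weight y T *
          ((if (edgeGraph (T.erase s(v, t))).Reachable v a then (1 : ℝ) else 0) -
            (if (edgeGraph (T.erase s(v, t))).Reachable t a then 1 else 0)) := by
    unfold current
    rw [Finset.sum_filter]
    refine Finset.sum_congr rfl fun T hT => ?_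
    rw [mem_spanForests] at hT
    rw [net_eq hT.2.1 (hT.2.2 a b hab) hvt.ne, mul_ite, mul_zero]
  have hR : fpot H hfin y a b v - fpot H hfin y a b t =
      ∑ F ∈ (splitForests H hfin a b).filter
        (fun F => ¬((edgeGraph F).Reachable v a ↔ (edgeGraph F).Reachable t a)),
        weight y F * ((if (edgeGraph F).Reachable v a then (1 : ℝ) else 0) -
          (if (edgeGraph F).Reachable t a then 1 else 0)) := by
    unfold fpot
    rw [← Finset.sum_sub_distrib, Finset.sum_filter]
    refine Finset.sum_congr rfl fun F _ => ?_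
    split_ifs <;> first | (exfalso; tauto) | ring
  rw [hL, hR, Finset.mul_sum]
  refine Finset.sum_nbij' (fun T => T.erase s(v, t)) (fun F => insert s(v, t) F) ?_ ?_ ?_ ?_ ?_
  · intro T hT
    simp only [Finset.mem_filter, mem_spanForests] at hT
    have := erase_split hab hT.1 hvt hT.2.1 hT.2.2
    simp only [Finset.mem_filter, mem_splitForests]
    exact this
  · intro F hF
    simp only [Finset.mem_filter, mem_splitForests] at hF
    obtain ⟨hnot, hspan⟩ := split_insert hF.1 hvt hF.2
    simp only [Finset.mem_filter, mem_spanForests, Finset.mem_insert_self,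
      true_and, Finset.erase_insert hnot]
    exact ⟨hspan, hF.1.2.2.1⟩
  · intro T hT
    simp only [Finset.mem_filter] at hT
    exact Finset.insert_erase hT.2.1
  · intro F hF
    simp only [Finset.mem_filter, mem_splitForests] at hF
    exact Finset.erase_insert (split_insert hF.1 hvt hF.2).1
  · intro T hT
    simp only [Finset.mem_filter] at hT
    have : weight y T = Real.exp (y s(v, t)) * weight y (T.erase s(v, t)) :=
      (Finset.mul_prod_erase T _ hT.2.1).symm
    rw [this]
    ring

theorem kirchhoff (H : SimpleGraph V) (hfin : H.edgeSet.Finite) (y : Sym2 V → ℝ) {e : Sym2 V}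
    (he : e ∈ H.edgeSet) :
    ∑ T ∈ (spanForests H hfin).filter (fun T => e ∈ T), weight y T =
      medge H y e * ∑ T ∈ spanForests H hfin, weight y T := by
  induction e using Sym2.ind with
  | h a b =>
  have hab : H.Adj a b := he
  set Z := ∑ T ∈ spanForests H hfin, weight y T with hZdef
  have hZ : 0 < Z := Finset.sum_pos (fun T _ => weight_pos y T) (spanForests_nonempty H hfin)
  suffices key : ∀ p q : V, H.Adj p q →
      pent H y (p, q) (p, q) * (2 * Z) =
        ∑ T ∈ (spanForests H hfin).filter (fun T => s(p, q) ∈ T), weight y T by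
    have h1 := key a b hab
    have h2 := key b a hab.symm
    rw [Sym2.eq_swap] at h2
    rw [medge_mk]
    linarith
  clear he hab a b
  intro a b hab
  let S : Finset V := hfin.toFinset.biUnion Sym2.toFinset
  have hS : ∀ u w, H.Adj u w → u ∈ S := fun u w h => by
    simp only [S, Finset.mem_biUnion, Set.Finite.mem_toFinset, Sym2.mem_toFinset]
    exact ⟨s(u, w), h, Sym2.mem_mk_left u w⟩
  let i : V → V → ℝ := fun v t => current H hfin y a b v t
  have hi0 : ∀ v t, ¬H.Adj v t → i v t = 0 := by
    intro v t h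
    refine Finset.sum_eq_zero fun T hT => ?_
    rw [mem_spanForests] at hT
    unfold net
    rw [if_neg (fun hm : s(v, t) ∈ T => h (hT.1 (Finset.mem_coe.2 hm))), mul_zero]
  have hanti : ∀ v t, i t v = -i v t := fun v t => by
    simp only [i, current, ← Finset.sum_neg_distrib]
    exact Finset.sum_congr rfl fun T _ => by rw [net_swap]; ring
  have hdiv : ∀ v, ∑ t ∈ S, i v t = Z * ((if v = a then 1 else 0) - (if v = b then 1 else 0)) := by
    intro v
    simp only [i, current]
    rw [Finset.sum_comm, hZdef, Finset.sum_mul]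
    refine Finset.sum_congr rfl fun T hT => ?_
    rw [mem_spanForests] at hT
    rw [← Finset.mul_sum, net_div hT.2.1 (hT.2.2 a b hab) S]
    intro u w huw
    rw [edgeGraph_adj] at huw
    exact hS u w (hT.1 huw.1)
  have hiab : i a b = ∑ T ∈ (spanForests H hfin).filter (fun T => s(a, b) ∈ T), weight y T := by
    rw [Finset.sum_filter]
    refine Finset.sum_congr rfl fun T hT => ?_
    rw [mem_spanForests] at hT
    by_cases hm : s(a, b) ∈ T
    · rw [if_pos hm, net_adj hT.2.1 (edgeGraph_adj.2 ⟨hm, hab.ne⟩), if_pos ⟨rfl, rfl⟩,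
        if_neg (fun h => hab.ne h.1)]
      ring
    · unfold net
      rw [if_neg hm, if_neg hm, mul_zero]
  set κ := 1 / (2 * Z * scal y (a, b)) with hκ
  let x : ESpace V := ∑ p ∈ S ×ˢ S, (κ * scal y p * i p.1 p.2) • unitVec p
  have hxapp : ∀ u w, H.Adj u w → x (u, w) = κ * scal y (u, w) * i u w := by
    intro u w huw
    simp only [x, lp.coeFn_sum, Finset.sum_apply, lp.coeFn_smul, Pi.smul_apply, unitVec_apply,
      smul_eq_mul, mul_ite, mul_one, mul_zero, Finset.sum_ite_eq]
    rw [if_pos (Finset.mem_product.2 ⟨hS u w huw, hS w u huw.symm⟩)]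
  have hscal : ∀ p : V × V, scal y p * scal y p * Real.exp (y s(p.1, p.2)) = 1 := by
    intro p
    rw [scal, ← Real.exp_add, ← Real.exp_add]
    simp
  have hxmem : x ∈ cutSpace H y := by
    refine ⟨fun v => -(κ * fpot H hfin y a b v), fun u w huw => ?_⟩
    rw [hxapp u w huw]
    show scal y (u, w) * (κ * scal y (u, w) * current H hfin y a b u w) = _
    rw [current_eq H hfin y hab huw]
    linear_combination (κ * (fpot H hfin y a b u - fpot H hfin y a b w)) * hscal (u, w)
  have horth : ∀ z ∈ cutSpace H y, ⟪unitVec (a, b) - x, z⟫ = 0 := by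
    rintro z ⟨φ, hφ⟩
    have hsum : ∑ p ∈ S ×ˢ S, i p.1 p.2 * (φ p.2 - φ p.1) = -(2 * Z * (φ a - φ b)) := by
      have hd : ∑ v ∈ S, φ v * ∑ t ∈ S, i v t = Z * (φ a - φ b) := by
        simp only [hdiv, mul_sub, mul_ite, mul_one, mul_zero, Finset.sum_sub_distrib,
          Finset.sum_ite_eq', if_pos (hS a b hab), if_pos (hS b a hab.symm)]
        ring
      have h1 : ∑ p ∈ S ×ˢ S, i p.1 p.2 * φ p.1 = Z * (φ a - φ b) := by
        rw [Finset.sum_product, ← hd]
        refine Finset.sum_congr rfl fun v _ => ?_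
        rw [Finset.mul_sum]
        exact Finset.sum_congr rfl fun t _ => mul_comm _ _
      have h2 : ∑ p ∈ S ×ˢ S, i p.1 p.2 * φ p.2 = -(Z * (φ a - φ b)) := by
        rw [Finset.sum_product_right, ← hd, ← Finset.sum_neg_distrib]
        refine Finset.sum_congr rfl fun v _ => ?_
        rw [Finset.mul_sum, ← Finset.sum_neg_distrib]
        exact Finset.sum_congr rfl fun t _ => by rw [hanti v t]; ring
      simp only [mul_sub, Finset.sum_sub_distrib, h1, h2]
      ring
    have hterm : ∀ p : V × V, κ * scal y p * i p.1 p.2 * z p = κ * (i p.1 p.2 * (φ p.2 - φ p.1)) := by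
      intro p
      by_cases hp : H.Adj p.1 p.2
      · rw [← hφ p.1 p.2 hp]; ring
      · rw [hi0 _ _ hp]; ring
    rw [inner_sub_left, inner_unitVec_left]
    simp only [x, sum_inner, real_inner_smul_left, inner_unitVec_left, hterm, ← Finset.mul_sum,
      hsum]
    have h3 := hφ a b hab
    rw [hκ]
    have := (scal_pos y (a, b)).ne'
    field_simp
    linear_combination h3
  have hproj : cproj H y (unitVec (a, b)) = x :=
    Submodule.eq_starProjection_of_mem_of_inner_eq_zero hxmem horth
  rw [pent, hproj, hxapp a b hab, hiab, hκ]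
  have := (scal_pos y (a, b)).ne'
  field_simp

end

end Vale.P143
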