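import Vale.Agent.P143.Process

/-!
P143: everything commutes with relabelling the vertices.
-/

namespace Vale.P143

open scoped ENNReal
open scoped Classical
open MeasureTheory

noncomputable section

variable {V : Type*}

/-- Relabelling of slot configurations. -/
def pullSlot {α : Type*} (σ : Equiv.Perm V) (f : Slot V → α) : Slot V → α :=
  fun s => f (s.1, s.2.map σ)

lemma measurable_pullSlot {α : Type*} [MeasurableSpace α] (σ : Equiv.Perm V) :
    Measurable (pullSlot (α := α) σ) := measurable_pi_lambda _ fun _ => measurable_pi_apply _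

/-- Relabelling of worlds. -/
def pullWorld (σ : Equiv.Perm V) (w : (Slot V → ℝ) × (Slot V → Bool) × (Slot V → ℝ)) :
    (Slot V → ℝ) × (Slot V → Bool) × (Slot V → ℝ) :=
  (pullSlot σ w.1, pullSlot σ w.2.1, pullSlot σ w.2.2)

lemma mem_edgeSet_comap (σ : Equiv.Perm V) (G : SimpleGraph V) (e : Sym2 V) :
    e ∈ (G.comap σ).edgeSet ↔ e.map σ ∈ G.edgeSet := by
  induction e using Sym2.ind with
  | h a b => simp

lemma encard_neighborSet_comap (σ : Equiv.Perm V) (G : SimpleGraph V) (v : V) :
    ((G.comap σ).neighborSet v).encard = (G.neighborSet (σ v)).encard := by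
  have : G.neighborSet (σ v) = σ '' (G.comap σ).neighborSet v := by
    ext w
    constructor
    · intro h
      exact ⟨σ.symm w, by simpa using h, by simp⟩
    · rintro ⟨u, hu, rfl⟩
      simpa using hu
  rw [this, σ.injective.injOn.encard_image]

lemma inClass_comap (σ : Equiv.Perm V) (G : SimpleGraph V) (k : ℕ) (e : Sym2 V) :
    InClass (G.comap σ) k e ↔ InClass G k (e.map σ) := by
  induction e using Sym2.ind with
  | h a b => simp [InClass, encard_neighborSet_comap]

lemma obs_comap (σ : Equiv.Perm V) (G : SimpleGraph V) (U : Slot V → ℝ) (s : Slot V) :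
    Obs (G.comap σ) (pullSlot σ U) s ↔ Obs G U (s.1, s.2.map σ) := by
  simp [Obs, inClass_comap, pullSlot]

lemma past_comap (σ : Equiv.Perm V) (G : SimpleGraph V) (U : Slot V → ℝ) (k : ℕ) (u : ℝ)
    (s : Slot V) :
    Past (G.comap σ) (pullSlot σ U) k u s ↔ Past G U k u (s.1, s.2.map σ) := by
  simp [Past, obs_comap, pullSlot]

lemma cnt_comap (σ : Equiv.Perm V) (G : SimpleGraph V) (U : Slot V → ℝ) (k : ℕ) (u : ℝ)
    (b : Slot V → Bool) (e : Sym2 V) :
    cnt k (Past (G.comap σ) (pullSlot σ U) k u) (pullSlot σ b) e =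
      cnt k (Past G U k u) b (e.map σ) := by
  refine Finset.sum_congr rfl fun j _ => ?_
  exact if_congr (past_comap σ G U k u (j, e)) rfl rfl

lemma yv_comap (σ : Equiv.Perm V) (G : SimpleGraph V) (U : Slot V → ℝ) (k : ℕ) (u : ℝ)
    (b : Slot V → Bool) :
    yv k (Past (G.comap σ) (pullSlot σ U) k u) (pullSlot σ b) =
      fun e => yv k (Past G U k u) b (e.map σ) := by
  funext e
  simp only [yv, scaled, cnt_comap]

lemma pUpTo_comap (σ : Equiv.Perm V) (G : SimpleGraph V) (U : Slot V → ℝ) (k : ℕ) (u : ℝ)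
    (b : Slot V → Bool) (e : Sym2 V) :
    pUpTo (G.comap σ) (pullSlot σ U) k u (pullSlot σ b) e = pUpTo G U k u b (e.map σ) := by
  rw [pUpTo, pUpTo, pval, pval, yv_comap, medge_comap]

lemma merge_comap (σ : Equiv.Perm V) (k : ℕ) (b : Slot V → Bool) (c : Sym2 V → Bool) :
    merge k (pullSlot σ b) (pullEdges σ c) = pullSlot σ (merge k b c) := by
  funext s
  simp [merge, pullSlot, pullEdges]

lemma iter_comap (σ : Equiv.Perm V) (G : SimpleGraph V) (U Vl : Slot V → ℝ) (k : ℕ)
    (b : Slot V → Bool) : ∀ i,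
    iter (G.comap σ) (pullSlot σ U) (pullSlot σ Vl) k (pullSlot σ b) i =
      pullEdges σ (iter G U Vl k b i) := by
  intro i
  induction i with
  | zero => rfl
  | succ i ih =>
    funext e
    show decide (_ < _) = decide (_ < _)
    rw [ih, merge_comap, pUpTo_comap]
    rfl

lemma roundLim_comap (σ : Equiv.Perm V) (G : SimpleGraph V) (U Vl : Slot V → ℝ) (k : ℕ)
    (b : Slot V → Bool) :
    roundLim (G.comap σ) (pullSlot σ U) (pullSlot σ Vl) k (pullSlot σ b) =
      pullEdges σ (roundLim G U Vl k b) := by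
  funext e
  simp [roundLim, iter_comap, pullEdges]

lemma upto_comap (σ : Equiv.Perm V) (G : SimpleGraph V) (U Vl : Slot V → ℝ) : ∀ k,
    upto (G.comap σ) (pullSlot σ U) (pullSlot σ Vl) k = pullSlot σ (upto G U Vl k) := by
  intro k
  induction k with
  | zero => rfl
  | succ k ih =>
    show merge k _ _ = _
    rw [ih, roundLim_comap, merge_comap]
    rfl

lemma sol_comap (σ : Equiv.Perm V) (G : SimpleGraph V) (U Vl : Slot V → ℝ) :
    sol (G.comap σ) (pullSlot σ U) (pullSlot σ Vl) = pullSlot σ (sol G U Vl) := by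
  funext s
  simp only [sol, upto_comap, pullSlot]

variable [Countable V]

lemma pSlot_comap (σ : Equiv.Perm V) (G : SimpleGraph V) (U : Slot V → ℝ) (b : Slot V → Bool)
    (s : Slot V) :
    pSlot (G.comap σ) (pullSlot σ U) (pullSlot σ b) s = pSlot G U b (s.1, s.2.map σ) :=
  pUpTo_comap σ G U s.1 _ b s.2

lemma vOf_comap (σ : Equiv.Perm V) (G : SimpleGraph V) (U : Slot V → ℝ) (b : Slot V → Bool)
    (a : Slot V → ℝ) :
    vOf (G.comap σ) (pullSlot σ U) (pullSlot σ b) (pullSlot σ a) =
      pullSlot σ (vOf G U b a) := by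
  funext s
  simp only [vOf, pSlot_comap, obs_comap]
  rfl

lemma hyb_comap (σ : Equiv.Perm V) (G : SimpleGraph V) (k i : ℕ)
    (w : (Slot V → ℝ) × (Slot V → Bool) × (Slot V → ℝ)) :
    hyb (G.comap σ) k i (pullWorld σ w) = pullEdges σ (hyb G k i w) := by
  simp only [hyb, pullWorld, vOf_comap, iter_comap]

lemma hybBits_comap (σ : Equiv.Perm V) (G : SimpleGraph V) (k i : ℕ)
    (w : (Slot V → ℝ) × (Slot V → Bool) × (Slot V → ℝ)) :
    hybBits (G.comap σ) k i (pullWorld σ w) = pullSlot σ (hybBits G k i w) := by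
  rw [hybBits, hybBits, hyb_comap]
  exact merge_comap σ k w.2.1 _

lemma err_comap (σ : Equiv.Perm V) (G : SimpleGraph V) (k i : ℕ) (e : Sym2 V)
    (w : (Slot V → ℝ) × (Slot V → Bool) × (Slot V → ℝ)) :
    Err (G.comap σ) k i e (pullWorld σ w) ↔ Err G k i (e.map σ) w := by
  simp only [Err, hyb_comap]
  simp [pullWorld, obs_comap, pullSlot, pullEdges]

lemma sym2_map_injective (σ : Equiv.Perm V) :
    Function.Injective fun s : Slot V => ((s.1, s.2.map σ) : Slot V) := fun s t h => by
  obtain ⟨h1, h2⟩ := Prod.ext_iff.1 h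
  exact Prod.ext h1 (Sym2.map.injective σ.injective h2)

lemma iid_pullSlot (σ : Equiv.Perm V) : (iid (Slot V)).map (pullSlot σ) = iid (Slot V) :=
  iid_map_comp _ (sym2_map_injective σ)

lemma bitsOf_comap (σ : Equiv.Perm V) (x : Sym2 V → Bool) (N : Slot V → ℝ) :
    bitsOf (pullEdges σ x) (pullSlot σ N) = pullSlot σ (bitsOf x N) := rfl

lemma bitLaw_comap (σ : Equiv.Perm V) (G : SimpleGraph V) :
    bitLaw (G.comap σ) = (bitLaw G).map (pullSlot σ) := by
  rw [bitLaw, bitLaw, fusf_comap]
  conv_lhs => rw [← iid_pullSlot σ]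
  rw [Measure.map_prod_map _ _ (measurable_pullEdges σ) (measurable_pullSlot σ),
    Measure.map_map measurable_bitsOf
      ((measurable_pullEdges σ).prodMap (measurable_pullSlot σ)),
    Measure.map_map (measurable_pullSlot σ) measurable_bitsOf]
  rfl

lemma measurable_pullWorld (σ : Equiv.Perm V) : Measurable (pullWorld σ) :=
  ((measurable_pullSlot σ).comp measurable_fst).prodMk
    (((measurable_pullSlot σ).comp (measurable_fst.comp measurable_snd)).prodMk
      ((measurable_pullSlot σ).comp (measurable_snd.comp measurable_snd)))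

theorem world_comap (σ : Equiv.Perm V) (G : SimpleGraph V) :
    world (G.comap σ) = (world G).map (pullWorld σ) := by
  rw [world, world, inner', inner', bitLaw_comap]
  conv_lhs => rw [← iid_pullSlot σ]
  rw [Measure.map_prod_map _ _ (measurable_pullSlot σ) (measurable_pullSlot σ),
    Measure.map_prod_map _ _ (measurable_pullSlot σ)
      ((measurable_pullSlot σ).prodMap (measurable_pullSlot σ))]
  rfl

lemma lintegral_world_comap (σ : Equiv.Perm V) (G : SimpleGraph V)
    {f : (Slot V → ℝ) × (Slot V → Bool) × (Slot V → ℝ) → ℝ≥0∞} (hf : Measurable f) :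
    ∫⁻ w, f w ∂world (G.comap σ) = ∫⁻ w, f (pullWorld σ w) ∂world G := by
  rw [world_comap, lintegral_map hf (measurable_pullWorld σ)]

end

end Vale.P143
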