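import Vale.Agent.P143.Readout
import Vale.Agent.P143.Relabel

/-!
P143: independent edge labels from i.i.d. vertex labels, and the factor map.
-/

namespace Vale.P143

open scoped ENNReal Topology
open scoped Classical
open MeasureTheory

noncomputable section

/-- The indices of the uniform variables carried by one vertex. -/
abbrev LabelIdx := Option (ℕ × ℕ × Bool)

lemma exists_split : ∃ ψ : ℝ → LabelIdx → ℝ, Measurable ψ ∧ unif.map ψ = iid LabelIdx := by
  obtain ⟨f, hf, hmap⟩ := Measure.exists_measurable_map_eq (iid LabelIdx)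
  have hp : Measurable (Set.projIcc (0 : ℝ) 1 zero_le_one) := continuous_projIcc.measurable
  refine ⟨f ∘ Set.projIcc 0 1 zero_le_one, hf.comp hp, ?_⟩
  rw [← Measure.map_map hf hp]
  conv_rhs => rw [← hmap]
  congr 1
  have hc : (volume : Measure unitInterval).map ((↑) : unitInterval → ℝ) = unif :=
    unitInterval.measurePreserving_coe.map_eq
  rw [← hc, Measure.map_map hp measurable_subtype_coe]
  have : Set.projIcc (0 : ℝ) 1 zero_le_one ∘ ((↑) : unitInterval → ℝ) = id := by
    funext x
    exact Set.projIcc_val zero_le_one x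
  rw [this]
  exact Measure.map_id

/-- One uniform variable turned into countably many. -/
def split : ℝ → LabelIdx → ℝ := exists_split.choose

lemma measurable_split : Measurable split := exists_split.choose_spec.1

lemma map_split : unif.map split = iid LabelIdx := exists_split.choose_spec.2

variable {V : Type*}

/-- The primary label of a vertex. -/
def prim (L : V → ℝ) (v : V) : ℝ := split (L v) none

/-- The secondary labels. -/
def secd (L : V → ℝ) (p : V × (ℕ × ℕ × Bool)) : ℝ := split (L p.1) (some p.2)

/-- The rank of `b` among the neighbours of `o`. -/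
def rank (G : SimpleGraph V) (P : V → ℝ) (o b : V) : ℕ :=
  ⌊(∑' c, if G.Adj o c ∧ P c < P b then (1 : ℝ≥0∞) else 0).toReal⌋₊

/-- The label of a slot, taken from the endpoint with the smaller primary label. -/
def edgeVal (G : SimpleGraph V) (P : V → ℝ) (R : V × (ℕ × ℕ × Bool) → ℝ) (k : ℕ) (c : Bool) :
    Sym2 V → ℝ :=
  Sym2.lift ⟨fun a b => if P a < P b then R (a, rank G P a b, k, c)
      else if P b < P a then R (b, rank G P b a, k, c) else 0,
    fun a b => by
      dsimp only
      by_cases h1 : P a < P b
      · rw [if_pos h1, if_neg (asymm h1), if_pos h1]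
      · by_cases h2 : P b < P a
        · rw [if_neg h1, if_pos h2, if_pos h2]
        · rw [if_neg h1, if_neg h2, if_neg h2, if_neg h1]⟩

/-- The slot labels computed from the primary and the secondary labels. -/
def slotLab (G : SimpleGraph V) (P : V → ℝ) (R : V × (ℕ × ℕ × Bool) → ℝ) (p : Slot V × Bool) : ℝ :=
  edgeVal G P R p.1.1 p.2 p.1.2

/-- The output computed from slot labels. -/
def outPair (G : SimpleGraph V) (a : Slot V × Bool → ℝ) : Sym2 V → Bool :=
  outFn G (fun s => a (s, false)) fun s => a (s, true)

/-- The factor map. -/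
def factorMap (z : SimpleGraph V × (V → ℝ)) : Sym2 V → Bool :=
  outPair z.1 (slotLab z.1 (prim z.2) (secd z.2))

/-! ### Dependence on the labels of edges only -/

lemma upto_congr (G : SimpleGraph V) {U U' Vl Vl' : Slot V → ℝ}
    (hU : ∀ s : Slot V, s.2 ∈ G.edgeSet → U s = U' s)
    (hV : ∀ s : Slot V, s.2 ∈ G.edgeSet → Vl s = Vl' s) :
    ∀ (k : ℕ) (s : Slot V), Obs G U s → upto G U Vl k s = upto G U' Vl' k s := by
  have hobs : ∀ t, Obs G U t ↔ Obs G U' t := fun t =>
    ⟨fun h => ⟨h.1, hU t h.1.1 ▸ h.2⟩, fun h => ⟨h.1, (hU t h.1.1).symm ▸ h.2⟩⟩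
  intro k
  induction k with
  | zero => intro s _; rfl
  | succ k ih =>
    rintro ⟨j, e⟩ hs
    show merge k _ _ (j, e) = merge k _ _ (j, e)
    unfold merge
    by_cases hj : j = k
    · subst hj
      rw [if_pos rfl, if_pos rfl]
      have hP : ∀ t, Past G U j (1 / 2) t ↔ Past G U' j (1 / 2) t := by
        intro t
        constructor
        · intro ht
          exact ⟨(hobs t).1 ht.1, ht.2.imp_right fun g => ⟨g.1, hU t ht.1.1.1 ▸ g.2⟩⟩
        · intro ht
          exact ⟨(hobs t).2 ht.1, ht.2.imp_right fun g => ⟨g.1, (hU t ht.1.1.1).symm ▸ g.2⟩⟩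
      have hit : ∀ i, iter G U Vl j (upto G U Vl j) i e = iter G U' Vl' j (upto G U' Vl' j) i e :=
        fun i => iter_congr G hP (fun t ht => hU t ht.1.1.1) (fun t ht _ => hV t ht.1.1.1)
          (fun t ht _ => ih t ht.1) i e ⟨hs, Or.inr ⟨rfl, hs.2⟩⟩
      simp only [roundLim, hit]
    · rw [if_neg hj, if_neg hj]
      exact ih (j, e) hs

lemma outFn_congr (G : SimpleGraph V) {U U' Vl Vl' : Slot V → ℝ}
    (hU : ∀ s : Slot V, s.2 ∈ G.edgeSet → U s = U' s)
    (hV : ∀ s : Slot V, s.2 ∈ G.edgeSet → Vl s = Vl' s) :
    outFn G U Vl = outFn G U' Vl' := by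
  have hobs : ∀ t, Obs G U t ↔ Obs G U' t := fun t =>
    ⟨fun h => ⟨h.1, hU t h.1.1 ▸ h.2⟩, fun h => ⟨h.1, (hU t h.1.1).symm ▸ h.2⟩⟩
  funext e
  have hz : ∀ j, zterm G U (sol G U Vl) e j = zterm G U' (sol G U' Vl') e j := by
    intro j
    unfold zterm
    by_cases ho : Obs G U (j, e)
    · rw [if_pos ho, if_pos ((hobs _).1 ho), sol, sol, upto_congr G hU hV _ _ ho]
    · rw [if_neg ho, if_neg fun h => ho ((hobs _).2 h)]
  simp only [outFn, readout, hz]

lemma outPair_congr (G : SimpleGraph V) {a a' : Slot V × Bool → ℝ}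
    (h : ∀ p : Slot V × Bool, p.1.2 ∈ G.edgeSet → a p = a' p) : outPair G a = outPair G a' :=
  outFn_congr G (fun s hs => h (s, false) hs) fun s hs => h (s, true) hs

/-! ### Relabelling -/

lemma rank_comap (σ : Equiv.Perm V) (G : SimpleGraph V) (P : V → ℝ) (o b : V) :
    rank (G.comap σ) (P ∘ σ) o b = rank G P (σ o) (σ b) := by
  unfold rank
  congr 2
  exact σ.tsum_eq (fun c => if G.Adj (σ o) c ∧ P c < P (σ b) then (1 : ℝ≥0∞) else 0)

lemma slotLab_comap (σ : Equiv.Perm V) (G : SimpleGraph V) (L : V → ℝ) (k : ℕ) (e : Sym2 V)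
    (c : Bool) :
    slotLab (G.comap σ) (prim (L ∘ σ)) (secd (L ∘ σ)) ((k, e), c) =
      slotLab G (prim L) (secd L) ((k, e.map σ), c) := by
  induction e using Sym2.ind with
  | h a b =>
    have hP : prim (L ∘ σ) = prim L ∘ σ := rfl
    simp only [slotLab, edgeVal, Sym2.map_mk, Sym2.lift_mk, hP, rank_comap]
    rfl

lemma readout_comap (σ : Equiv.Perm V) (G : SimpleGraph V) (U : Slot V → ℝ) (b : Slot V → Bool)
    (e : Sym2 V) :
    readout (G.comap σ) (pullSlot σ U) (pullSlot σ b) e = readout G U b (e.map σ) := by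
  have hz : ∀ j, zterm (G.comap σ) (pullSlot σ U) (pullSlot σ b) e j =
      zterm G U b (e.map σ) j := fun j => by
    unfold zterm
    exact if_congr (obs_comap σ G U (j, e)) rfl rfl
  simp only [readout, hz, mem_edgeSet_comap]

theorem factorMap_comap (σ : Equiv.Perm V) (G : SimpleGraph V) (L : V → ℝ) (e : Sym2 V) :
    factorMap (G.comap σ, L ∘ σ) e = factorMap (G, L) (e.map σ) := by
  set U : Slot V → ℝ := fun s => slotLab G (prim L) (secd L) (s, false)
  set W : Slot V → ℝ := fun s => slotLab G (prim L) (secd L) (s, true)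
  have hU : (fun s => slotLab (G.comap σ) (prim (L ∘ σ)) (secd (L ∘ σ)) (s, false)) =
      pullSlot σ U := funext fun s => slotLab_comap σ G L s.1 s.2 false
  have hW : (fun s => slotLab (G.comap σ) (prim (L ∘ σ)) (secd (L ∘ σ)) (s, true)) =
      pullSlot σ W := funext fun s => slotLab_comap σ G L s.1 s.2 true
  show outFn (G.comap σ) _ _ e = outFn G U W (e.map σ)
  rw [hU, hW, outFn, sol_comap, readout_comap]
  rfl

/-! ### The law of the slot labels -/

variable [Countable V]

lemma measurable_labels : Measurable fun L : V → ℝ => (prim L, secd L) :=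
  (measurable_pi_lambda _ fun v =>
      (measurable_pi_apply (X := fun _ : LabelIdx => ℝ) none).comp
        (measurable_split.comp (measurable_pi_apply v))).prodMk
    (measurable_pi_lambda _ fun p =>
      (measurable_pi_apply (X := fun _ : LabelIdx => ℝ) (some p.2)).comp
        (measurable_split.comp (measurable_pi_apply p.1)))

lemma map_labels :
    (iid V).map (fun L => (prim L, secd L)) = (iid V).prod (iid (V × (ℕ × ℕ × Bool))) := by
  let g : V × LabelIdx → V ⊕ (V × (ℕ × ℕ × Bool)) :=
    fun p => p.2.elim (Sum.inl p.1) fun t => Sum.inr (p.1, t)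
  let h : V ⊕ (V × (ℕ × ℕ × Bool)) → V × LabelIdx :=
    Sum.elim (fun v => (v, none)) fun p => (p.1, some p.2)
  have hgh : Function.LeftInverse g h := by rintro (v | ⟨v, t⟩) <;> rfl
  have hh : Function.Injective h := hgh.injective
  have hjoint : (iid V).map (fun (L : V → ℝ) (p : V × LabelIdx) => split (L p.1) p.2) =
      iid (V × LabelIdx) := by
    have hc : Measurable fun (L : V → ℝ) (v : V) => split (L v) :=
      measurable_pi_lambda _ fun v => measurable_split.comp (measurable_pi_apply v)
    have h1 : (iid V).map (fun (L : V → ℝ) (v : V) => split (L v)) =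
        Measure.infinitePi fun _ : V => iid LabelIdx := by
      rw [iid, Measure.infinitePi_map_pi _ fun _ => measurable_split]
      simp only [map_split]
    have h2 := Measure.infinitePi_map_curry_symm (ι := V) (κ := LabelIdx) (X := ℝ)
      (μ := fun _ _ => unif)
    calc (iid V).map (fun (L : V → ℝ) (p : V × LabelIdx) => split (L p.1) p.2)
        = ((iid V).map fun (L : V → ℝ) (v : V) => split (L v)).map
            (MeasurableEquiv.curry V LabelIdx ℝ).symm := by
          rw [Measure.map_map (MeasurableEquiv.measurable _) hc]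
          rfl
      _ = _ := by rw [h1]; exact h2
  have hsum : (iid V).map (fun L => Sum.elim (prim L) (secd L)) =
      iid (V ⊕ (V × (ℕ × ℕ × Bool))) := by
    rw [← iid_map_comp h hh, ← hjoint, Measure.map_map
      (show Measurable fun x : V × LabelIdx → ℝ => x ∘ h from
        measurable_pi_lambda _ fun i => measurable_pi_apply _)
      (show Measurable fun (L : V → ℝ) (p : V × LabelIdx) => split (L p.1) p.2 from
        measurable_pi_lambda _ fun p => (measurable_pi_apply (X := fun _ : LabelIdx => ℝ) p.2).comp
          (measurable_split.comp (measurable_pi_apply p.1)))]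
    congr 1
    funext L i
    cases i <;> rfl
  let back : (V ⊕ (V × (ℕ × ℕ × Bool)) → ℝ) → (V → ℝ) × (V × (ℕ × ℕ × Bool) → ℝ) :=
    fun x => (x ∘ Sum.inl, x ∘ Sum.inr)
  have hback : Measurable back :=
    (measurable_pi_lambda _ fun i => measurable_pi_apply _).prodMk
      (measurable_pi_lambda _ fun i => measurable_pi_apply _)
  have helim : Measurable fun z : (V → ℝ) × (V × (ℕ × ℕ × Bool) → ℝ) => Sum.elim z.1 z.2 := by
    refine measurable_pi_lambda _ fun i => ?_
    cases i with
    | inl i => exact (measurable_pi_apply i).comp measurable_fst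
    | inr i => exact (measurable_pi_apply i).comp measurable_snd
  calc (iid V).map (fun L => (prim L, secd L))
      = ((iid V).map fun L => Sum.elim (prim L) (secd L)).map back := by
        rw [Measure.map_map hback (show Measurable fun L : V → ℝ => Sum.elim (prim L) (secd L)
          from helim.comp measurable_labels)]
        rfl
    _ = _ := by
        rw [hsum, ← iid_sum, Measure.map_map hback helim]
        exact Measure.map_id

omit [Countable V] in
lemma rank_strict (G : SimpleGraph V) (P : V → ℝ) {o b b' : V} (hfin : (G.neighborSet o).Finite)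
    (hb : G.Adj o b) (h : P b < P b') : rank G P o b < rank G P o b' := by
  have key : ∀ c : V, rank G P o c = (hfin.toFinset.filter fun x => P x < P c).card := by
    intro c
    unfold rank
    rw [tsum_eq_sum (s := hfin.toFinset) (fun x hx => if_neg fun hxx => hx
      (hfin.mem_toFinset.2 hxx.1))]
    have : ∑ x ∈ hfin.toFinset, (if G.Adj o x ∧ P x < P c then (1 : ℝ≥0∞) else 0) =
        ((hfin.toFinset.filter fun x => P x < P c).card : ℝ≥0∞) := by
      rw [← Finset.sum_boole]
      refine Finset.sum_congr rfl fun x hx => ?_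
      have hx' : G.Adj o x := hfin.mem_toFinset.1 hx
      simp [hx']
    rw [this, ENNReal.toReal_natCast, Nat.floor_natCast]
  rw [key, key]
  refine Finset.card_lt_card ((Finset.ssubset_iff_of_subset ?_).2 ⟨b, ?_, ?_⟩)
  · exact fun x hx => Finset.mem_filter.2
      ⟨(Finset.mem_filter.1 hx).1, (Finset.mem_filter.1 hx).2.trans h⟩
  · exact Finset.mem_filter.2 ⟨hfin.mem_toFinset.2 hb, h⟩
  · exact fun hx => lt_irrefl _ (Finset.mem_filter.1 hx).2

theorem law_fixed_prim (G : SimpleGraph V) (hG : ∀ v, (G.neighborSet v).Finite) {P : V → ℝ}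
    (hP : Function.Injective P) :
    (iid (V × (ℕ × ℕ × Bool))).map (fun R => outPair G (slotLab G P R)) =
      (iid (Slot V × Bool)).map (outPair G) := by
  let E := {p : Slot V × Bool // p.1.2 ∈ G.edgeSet}
  have hend : ∀ p : E, ∃ a b : V, p.1.1.2 = s(a, b) ∧ G.Adj a b ∧ P a < P b := by
    rintro ⟨⟨⟨k, e⟩, c⟩, he⟩
    induction e using Sym2.ind with
    | h a b =>
      have hab : G.Adj a b := he
      rcases lt_or_gt_of_ne (fun h => hab.ne (hP h)) with h | h
      · exact ⟨a, b, rfl, hab, h⟩
      · exact ⟨b, a, Sym2.eq_swap, hab.symm, h⟩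
  choose o t hot using hend
  let g : E → V × (ℕ × ℕ × Bool) := fun p => (o p, rank G P (o p) (t p), p.1.1.1, p.1.2)
  have hg : Function.Injective g := by
    intro p q h
    simp only [g, Prod.mk.injEq] at h
    obtain ⟨h1, h2, h3, h4⟩ := h
    have ht : t p = t q := by
      rcases lt_trichotomy (P (t p)) (P (t q)) with hlt | heq | hlt
      · have := rank_strict G P (hG (o p)) (hot p).2.1 hlt
        rw [h2, h1] at this
        exact absurd this (lt_irrefl _)
      · exact hP heq
      · have := rank_strict G P (hG (o q)) (hot q).2.1 hlt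
        rw [← h2, ← h1] at this
        exact absurd this (lt_irrefl _)
    refine Subtype.ext (Prod.ext (Prod.ext h3 ?_) h4)
    rw [(hot p).1, (hot q).1, h1, ht]
  have hval : ∀ (R : V × (ℕ × ℕ × Bool) → ℝ) (p : E), slotLab G P R p.1 = R (g p) := by
    intro R p
    simp only [slotLab, (hot p).1, edgeVal, Sym2.lift_mk, if_pos (hot p).2.2, g]
  let ext : (E → ℝ) → Slot V × Bool → ℝ := fun x p => if h : p.1.2 ∈ G.edgeSet then x ⟨p, h⟩ else 0
  have hext : Measurable ext := measurable_pi_lambda _ fun p => by
    simp only [ext]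
    split_ifs with h
    · exact measurable_pi_apply _
    · exact measurable_const
  have hout : Measurable (outPair G) :=
    measurable_outFn (Gf := fun _ : Slot V × Bool → ℝ => G) measurable_const
      (measurable_pi_lambda _ fun s => measurable_pi_apply _)
      (measurable_pi_lambda _ fun s => measurable_pi_apply _)
  have h1 : (fun R => outPair G (slotLab G P R)) = (outPair G ∘ ext) ∘ fun R => R ∘ g := by
    funext R
    exact outPair_congr G fun p hp => by simp [ext, hp, ← hval R ⟨p, hp⟩]
  have h2 : outPair G = (outPair G ∘ ext) ∘ fun a : Slot V × Bool → ℝ => a ∘ Subtype.val := by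
    funext a
    exact outPair_congr G fun p hp => by simp [ext, hp]
  rw [h1]
  conv_rhs => rw [h2]
  rw [← Measure.map_map (hout.comp hext) (measurable_pi_lambda _ fun i => measurable_pi_apply _),
    ← Measure.map_map (hout.comp hext) (measurable_pi_lambda _ fun i => measurable_pi_apply _),
    iid_map_comp g hg, iid_map_comp _ Subtype.val_injective]

lemma measurable_rank (o b : V) :
    Measurable fun z : SimpleGraph V × (V → ℝ) => rank z.1 z.2 o b := by
  refine Nat.measurable_floor.comp (ENNReal.measurable_toReal.comp (Measurable.tsum fun c => ?_))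
  refine Measurable.ite (MeasurableSet.inter ?_ ?_) measurable_const measurable_const
  · show MeasurableSet (Prod.fst ⁻¹' {G : SimpleGraph V | G.Adj o c})
    refine measurable_fst (measurableSet_setOfPred.2 ?_)
    fun_prop
  · exact measurableSet_lt ((measurable_pi_apply c).comp measurable_snd)
      ((measurable_pi_apply b).comp measurable_snd)

lemma measurable_secondary (o b : V) (k : ℕ) (c : Bool) :
    Measurable fun z : SimpleGraph V × (V → ℝ) × (V × (ℕ × ℕ × Bool) → ℝ) =>
      z.2.2 (o, rank z.1 z.2.1 o b, k, c) := by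
  have hr : Measurable fun z : SimpleGraph V × (V → ℝ) × (V × (ℕ × ℕ × Bool) → ℝ) =>
      (rank z.1 z.2.1 o b, z.2.2) :=
    ((measurable_rank o b).comp (measurable_fst.prodMk (measurable_fst.comp measurable_snd))).prodMk
      (measurable_snd.comp measurable_snd)
  have he : Measurable fun q : ℕ × (V × (ℕ × ℕ × Bool) → ℝ) => q.2 (o, q.1, k, c) :=
    measurable_from_prod_countable_right fun n =>
      measurable_pi_apply (X := fun _ : V × (ℕ × ℕ × Bool) => ℝ) (o, n, k, c)
  exact he.comp hr

lemma measurable_slotLab :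
    Measurable fun z : SimpleGraph V × (V → ℝ) × (V × (ℕ × ℕ × Bool) → ℝ) =>
      slotLab z.1 z.2.1 z.2.2 := by
  refine measurable_pi_lambda _ fun p => ?_
  obtain ⟨⟨k, e⟩, c⟩ := p
  induction e using Sym2.ind with
  | h a b =>
    simp only [slotLab, edgeVal, Sym2.lift_mk]
    have hp : ∀ v : V, Measurable fun z : SimpleGraph V × (V → ℝ) × (V × (ℕ × ℕ × Bool) → ℝ) =>
        z.2.1 v := fun v => (measurable_pi_apply v).comp (measurable_fst.comp measurable_snd)
    exact Measurable.ite (measurableSet_lt (hp a) (hp b)) (measurable_secondary a b k c)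
      (Measurable.ite (measurableSet_lt (hp b) (hp a)) (measurable_secondary b a k c)
        measurable_const)

lemma measurable_outPair_slotLab :
    Measurable fun z : SimpleGraph V × (V → ℝ) × (V × (ℕ × ℕ × Bool) → ℝ) =>
      outPair z.1 (slotLab z.1 z.2.1 z.2.2) :=
  measurable_outFn measurable_fst
    (measurable_pi_lambda _ fun t =>
      (measurable_pi_apply (X := fun _ : Slot V × Bool => ℝ) (t, false)).comp measurable_slotLab)
    (measurable_pi_lambda _ fun t =>
      (measurable_pi_apply (X := fun _ : Slot V × Bool => ℝ) (t, true)).comp measurable_slotLab)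

attribute [local irreducible] split rank edgeVal outFn

theorem measurable_factorMap : Measurable (factorMap (V := V)) := by
  have h : Measurable fun z : SimpleGraph V × (V → ℝ) => (z.1, prim z.2, secd z.2) :=
    measurable_fst.prodMk (measurable_labels.comp measurable_snd)
  have h' := measurable_outPair_slotLab.comp h
  simp only [Function.comp_def] at h'
  unfold factorMap
  exact h'

theorem map_factorMap (G : SimpleGraph V) (hG : ∀ v, (G.neighborSet v).Finite) :
    (iid V).map (fun L => factorMap (G, L)) = (iid (Slot V × Bool)).map (outPair G) := by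
  have hm : Measurable fun z : (V → ℝ) × (V × (ℕ × ℕ × Bool) → ℝ) =>
      outPair G (slotLab G z.1 z.2) :=
    measurable_outPair_slotLab.comp (measurable_const.prodMk measurable_id)
  have : (fun L => factorMap (G, L)) =
      (fun z : (V → ℝ) × (V × (ℕ × ℕ × Bool) → ℝ) => outPair G (slotLab G z.1 z.2)) ∘
        fun L => (prim L, secd L) := rfl
  rw [this, ← Measure.map_map hm measurable_labels, map_labels]
  refine Measure.ext fun A hA => ?_
  rw [Measure.map_apply hm hA, Measure.prod_apply (hm hA)]
  have hinj : ∀ᵐ P ∂iid V, Function.Injective P := by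
    have h : ∀ᵐ P ∂iid V, ∀ v w : V, v ≠ w → P v ≠ P w := by
      simp only [ae_all_iff]
      intro v w hvw
      rw [ae_iff]
      simpa using iid_eq_zero hvw
    filter_upwards [h] with P hP v w hvw
    by_contra hne
    exact hP v w hne hvw
  calc ∫⁻ P, iid (V × (ℕ × ℕ × Bool)) (Prod.mk P ⁻¹'
        ((fun z : (V → ℝ) × (V × (ℕ × ℕ × Bool) → ℝ) => outPair G (slotLab G z.1 z.2)) ⁻¹' A))
        ∂iid V
      = ∫⁻ _P, (iid (Slot V × Bool)).map (outPair G) A ∂iid V := by
        refine lintegral_congr_ae ?_
        filter_upwards [hinj] with P hP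
        rw [← law_fixed_prim G hG hP, Measure.map_apply _ hA]
        · rfl
        exact hm.comp measurable_prodMk_left
    _ = _ := by simp

end

end Vale.P143
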