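import Vale.Agent.P143.Perturb
import Vale.Agent.P143.Kirchhoff

/-!
P143: the free forest as the unique law with the predictive identities, as a weak limit,
its measurability and its behaviour under relabelling.
-/

namespace Vale.P143

open scoped RealInnerProductSpace ENNReal Topology
open scoped Classical
open Filter MeasureTheory

noncomputable section

variable {V : Type*}

/-- A slot: a round number and a pair of vertices. -/
abbrev Slot (V : Type*) := ℕ × Sym2 V

/-- The log odds of one observation. -/
def beta : ℝ := Real.log 3

/-- The sign of a bit. -/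
def sgnBit (b : Bool) : ℝ := if b then 1 else -1

/-- The probability of observing `b` on an edge of state `x`. -/
def chan (b x : Bool) : ℝ := if b = x then 3 / 4 else 1 / 4

lemma chan_pos (b x : Bool) : 0 < chan b x := by
  unfold chan; split_ifs <;> norm_num

lemma chan_le_one (b x : Bool) : chan b x ≤ 1 := by
  unfold chan; split_ifs <;> norm_num

lemma chan_eq (b x : Bool) :
    chan b x = chan b false * (if x = true then Real.exp (beta * sgnBit b) else 1) := by
  cases b <;> cases x <;> simp [chan, beta, sgnBit, Real.exp_neg, Real.exp_log] <;> norm_num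

/-- The likelihood of the bits of `A` given the edge states. -/
def lik (A : Finset (Slot V)) (b : Slot V → Bool) (x : Sym2 V → Bool) : ℝ :=
  ∏ s ∈ A, chan (b s) (x s.2)

/-- The field produced by the bits of `A`. -/
def fld (A : Finset (Slot V)) (b : Slot V → Bool) (e : Sym2 V) : ℝ :=
  beta * ∑ s ∈ A, if s.2 = e then sgnBit (b s) else 0

/-- The predictive probability. -/
def pval (G : SimpleGraph V) (y : Sym2 V → ℝ) (e : Sym2 V) : ℝ := 1 / 4 + medge G y e / 2

lemma pval_mem (G : SimpleGraph V) (y : Sym2 V → ℝ) {e : Sym2 V} (he : e ∈ G.edgeSet) :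
    1 / 4 ≤ pval G y e ∧ pval G y e ≤ 3 / 4 := by
  have := medge_nonneg G y e
  have := medge_le_one y he
  unfold pval
  constructor <;> linarith

/-- The edge indicator of a finite set. -/
def treeInd (T : Finset (Sym2 V)) : Sym2 V → Bool := fun e => decide (e ∈ T)

lemma lik_treeInd (A : Finset (Slot V)) (b : Slot V → Bool) (T : Finset (Sym2 V)) :
    lik A b (treeInd T) = (∏ s ∈ A, chan (b s) false) * weight (fld A b) T := by
  have h1 : weight (fld A b) T =
      ∏ s ∈ A, (if s.2 ∈ T then Real.exp (beta * sgnBit (b s)) else 1) := by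
    simp only [weight, fld, ← Real.exp_sum, ← Finset.mul_sum]
    rw [Finset.sum_comm, Finset.mul_sum, Real.exp_sum]
    refine Finset.prod_congr rfl fun s _ => ?_
    rw [Finset.sum_ite_eq]
    split_ifs with h
    · rfl
    · simp
  rw [h1, ← Finset.prod_mul_distrib]
  refine Finset.prod_congr rfl fun s _ => ?_
  rw [chan_eq]
  congr 1
  simp [treeInd]

/-- The average over maximal spanning forests. -/
def treeAvg (H : SimpleGraph V) (hfin : H.edgeSet.Finite) (f : (Sym2 V → Bool) → ℝ) : ℝ :=
  (∑ T ∈ spanForests H hfin, f (treeInd T)) / ((spanForests H hfin).card : ℝ)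

theorem treeAvg_predict (H : SimpleGraph V) (hfin : H.edgeSet.Finite) (A : Finset (Slot V))
    (b : Slot V → Bool) {e : Sym2 V} (he : e ∈ H.edgeSet) :
    treeAvg H hfin (fun x => lik A b x * chan true (x e)) =
      treeAvg H hfin (lik A b) * pval H (fld A b) e := by
  unfold treeAvg
  rw [div_mul_eq_mul_div]
  congr 1
  have hK := kirchhoff H hfin (fld A b) he
  rw [Finset.sum_filter] at hK
  set c := ∏ s ∈ A, chan (b s) false
  calc ∑ T ∈ spanForests H hfin, lik A b (treeInd T) * chan true (treeInd T e)
      = ∑ T ∈ spanForests H hfin, (c / 4 * weight (fld A b) T +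
          c / 2 * (if e ∈ T then weight (fld A b) T else 0)) := by
        refine Finset.sum_congr rfl fun T _ => ?_
        rw [lik_treeInd]
        have ht : chan true (treeInd T e) = if e ∈ T then 3 / 4 else 1 / 4 := by
          by_cases h : e ∈ T <;> simp [treeInd, chan, h]
        rw [ht]
        split_ifs <;> ring
    _ = c / 4 * (∑ T ∈ spanForests H hfin, weight (fld A b) T) +
          c / 2 * (medge H (fld A b) e * ∑ T ∈ spanForests H hfin, weight (fld A b) T) := by
        rw [Finset.sum_add_distrib, ← Finset.mul_sum, ← Finset.mul_sum, hK]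
    _ = _ := by
        simp only [lik_treeInd, ← Finset.mul_sum, pval]
        ring

lemma continuous_lik (A : Finset (Slot V)) (b : Slot V → Bool) : Continuous (lik A b) :=
  continuous_finsetProd _ fun s _ =>
    (continuous_of_discreteTopology (f := fun x => chan (b s) x)).comp (continuous_apply s.2)

lemma continuous_lik_chan (A : Finset (Slot V)) (b : Slot V → Bool) (e : Sym2 V) :
    Continuous fun x => lik A b x * chan true (x e) :=
  (continuous_lik A b).mul
    ((continuous_of_discreteTopology (f := fun x => chan true x)).comp (continuous_apply e))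

/-- The uniform maximal spanning forest of a finite edge set. -/
def usfMeasure (H : SimpleGraph V) (hfin : H.edgeSet.Finite) : Measure (Sym2 V → Bool) :=
  ∑ T ∈ spanForests H hfin, ((spanForests H hfin).card : ℝ≥0∞)⁻¹ • Measure.dirac (treeInd T)

lemma spanForests_card_pos (H : SimpleGraph V) (hfin : H.edgeSet.Finite) :
    0 < (spanForests H hfin).card := Finset.card_pos.2 (spanForests_nonempty H hfin)

instance isProbabilityMeasure_usfMeasure (H : SimpleGraph V) (hfin : H.edgeSet.Finite) :
    IsProbabilityMeasure (usfMeasure H hfin) := by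
  constructor
  simp only [usfMeasure, Measure.coe_finsetSum, Finset.sum_apply, Measure.smul_apply,
    measure_univ, smul_eq_mul, mul_one, Finset.sum_const, nsmul_eq_mul]
  exact ENNReal.mul_inv_cancel (by exact_mod_cast (spanForests_card_pos H hfin).ne')
    (ENNReal.natCast_ne_top _)

/-- The uniform maximal spanning forest as a probability measure. -/
def usf (H : SimpleGraph V) (hfin : H.edgeSet.Finite) : ProbabilityMeasure (Sym2 V → Bool) :=
  ⟨usfMeasure H hfin, inferInstance⟩

variable [Countable V]

lemma integrable_of_continuous {f : (Sym2 V → Bool) → ℝ} (hf : Continuous f)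
    (μ : Measure (Sym2 V → Bool)) [IsFiniteMeasure μ] : Integrable f μ := by
  have h := hf.continuousOn.integrableOn_compact (μ := μ) isCompact_univ
  exact integrableOn_univ.1 h

lemma integral_usf (H : SimpleGraph V) (hfin : H.edgeSet.Finite) {f : (Sym2 V → Bool) → ℝ}
    (hf : Continuous f) : ∫ x, f x ∂(usf H hfin : Measure (Sym2 V → Bool)) = treeAvg H hfin f := by
  show ∫ x, f x ∂usfMeasure H hfin = _
  unfold usfMeasure treeAvg
  rw [integral_finsetSum_measure]
  · rw [Finset.sum_div]
    refine Finset.sum_congr rfl fun T _ => ?_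
    rw [integral_smul_measure, integral_dirac' _ _ hf.measurable.stronglyMeasurable]
    simp [ENNReal.toReal_inv, div_eq_inv_mul]
  · intro T _
    exact (integrable_of_continuous hf _).smul_measure
      (ENNReal.inv_ne_top.2 (by exact_mod_cast (spanForests_card_pos H hfin).ne'))

/-- The laws with the predictive identities of the free forest of `G`. -/
def IsFree (G : SimpleGraph V) (ν : Measure (Sym2 V → Bool)) : Prop :=
  (∀ e, e ∉ G.edgeSet → ν {x | x e = true} = 0) ∧
    ∀ (A : Finset (Slot V)) (b : Slot V → Bool), ∀ e ∈ G.edgeSet,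
      ∫ x, lik A b x * chan true (x e) ∂ν = (∫ x, lik A b x ∂ν) * pval G (fld A b) e

/-- The event that all edges of `S` are present. -/
def allIn (S : Finset (Sym2 V)) : Set (Sym2 V → Bool) := {x | ∀ e ∈ S, x e = true}

lemma measurableSet_allIn (S : Finset (Sym2 V)) : MeasurableSet (allIn S) := by
  have : allIn S = ⋂ e ∈ S, (fun x : Sym2 V → Bool => x e) ⁻¹' {true} := by
    ext x; simp [allIn]
  rw [this]
  exact Finset.measurableSet_biInter S fun e _ => measurable_pi_apply e (measurableSet_singleton _)

lemma generateFrom_allIn :
    (inferInstance : MeasurableSpace (Sym2 V → Bool)) =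
      MeasurableSpace.generateFrom (Set.range (allIn (V := V))) := by
  refine le_antisymm ?_ (MeasurableSpace.generateFrom_le ?_)
  · have hsingle : ∀ e : Sym2 V,
        MeasurableSet[MeasurableSpace.generateFrom (Set.range (allIn (V := V)))]
          {x : Sym2 V → Bool | x e = true} := fun e => by
      refine MeasurableSpace.measurableSet_generateFrom ⟨{e}, ?_⟩
      ext x; simp [allIn]
    refine iSup_le fun e => ?_
    rintro _ ⟨t, -, rfl⟩
    have : (fun x : Sym2 V → Bool => x e) ⁻¹' t =
        (if true ∈ t then {x | x e = true} else ∅) ∪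
          (if false ∈ t then {x | x e = true}ᶜ else ∅) := by
      ext x
      cases hx : x e <;> by_cases h1 : true ∈ t <;> by_cases h2 : false ∈ t <;> simp [hx, h1, h2]
    rw [this]
    refine MeasurableSet.union ?_ ?_ <;> split_ifs
    · exact hsingle e
    · exact @MeasurableSet.empty _ (MeasurableSpace.generateFrom _)
    · exact (hsingle e).compl
    · exact @MeasurableSet.empty _ (MeasurableSpace.generateFrom _)
  · rintro _ ⟨S, rfl⟩
    exact measurableSet_allIn S

lemma isPiSystem_allIn : IsPiSystem (Set.range (allIn (V := V))) := by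
  rintro _ ⟨S, rfl⟩ _ ⟨T, rfl⟩ -
  refine ⟨S ∪ T, ?_⟩
  ext x
  simp [allIn, or_imp, forall_and]

lemma continuous_indicator_allIn (S : Finset (Sym2 V)) :
    Continuous fun x : Sym2 V → Bool => ∏ e ∈ S, (if x e = true then (1 : ℝ) else 0) :=
  continuous_finsetProd _ fun e _ =>
    (continuous_of_discreteTopology (f := fun t : Bool => if t = true then (1 : ℝ) else 0)).comp
      (continuous_apply e)

lemma integral_prod_eq_real (ν : Measure (Sym2 V → Bool)) (S : Finset (Sym2 V)) :
    ∫ x, ∏ e ∈ S, (if x e = true then (1 : ℝ) else 0) ∂ν = ν.real (allIn S) := by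
  rw [← integral_indicator_one (measurableSet_allIn S)]
  refine integral_congr_ae (Eventually.of_forall fun x => ?_)
  by_cases h : x ∈ allIn S
  · rw [Set.indicator_of_mem h, Pi.one_apply]
    exact Finset.prod_eq_one fun e he => if_pos (h e he)
  · rw [Set.indicator_of_notMem h]
    simp only [allIn, Set.mem_ofPred_eq, not_forall] at h
    obtain ⟨e, he, hx⟩ := h
    exact Finset.prod_eq_zero he (if_neg hx)

theorem IsFree.unique {G : SimpleGraph V} {ν ν' : Measure (Sym2 V → Bool)}
    [IsProbabilityMeasure ν] [IsProbabilityMeasure ν'] (h : IsFree G ν) (h' : IsFree G ν') :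
    ν = ν' := by
  have hlik : ∀ (A : Finset (Slot V)),
      ∫ x, lik A (fun _ => true) x ∂ν = ∫ x, lik A (fun _ => true) x ∂ν' := by
    intro A
    induction A using Finset.induction_on with
    | empty => simp [lik]
    | @insert s A hs ih =>
      have e1 : ∀ x : Sym2 V → Bool, lik (insert s A) (fun _ => true) x =
          lik A (fun _ => true) x * chan true (x s.2) := fun x => by
        rw [lik, Finset.prod_insert hs, mul_comm]; rfl
      simp only [e1]
      by_cases he : s.2 ∈ G.edgeSet
      · rw [h.2 A _ _ he, h'.2 A _ _ he, ih]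
      · have key : ∀ (m : Measure (Sym2 V → Bool)), m {x | x s.2 = true} = 0 →
            ∫ x, lik A (fun _ => true) x * chan true (x s.2) ∂m =
              (∫ x, lik A (fun _ => true) x ∂m) * (1 / 4) := by
          intro m hm
          rw [← integral_mul_const]
          refine integral_congr_ae ?_
          have hae : ∀ᵐ x ∂m, x s.2 = false := by
            rw [ae_iff]
            simpa using hm
          filter_upwards [hae] with x hx
          simp [hx, chan]
        rw [key ν (h.1 _ he), key ν' (h'.1 _ he), ih]
  have hcyl : ∀ S : Finset (Sym2 V), ν.real (allIn S) = ν'.real (allIn S) := by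
    intro S
    induction S using Finset.strongInduction with
    | H S ih =>
      have key : ∀ (m : Measure (Sym2 V → Bool)) [IsProbabilityMeasure m],
          ∫ x, lik (S.image fun e => ((0 : ℕ), e)) (fun _ => true) x ∂m =
            ∑ t ∈ S.powerset, (1 / 2 : ℝ) ^ t.card * (1 / 4 : ℝ) ^ (S \ t).card *
              m.real (allIn t) := by
        intro m _
        have hexp : ∀ x : Sym2 V → Bool,
            lik (S.image fun e => ((0 : ℕ), e)) (fun _ => true) x =
              ∑ t ∈ S.powerset, (1 / 2 : ℝ) ^ t.card * (1 / 4 : ℝ) ^ (S \ t).card *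
                ∏ e ∈ t, (if x e = true then (1 : ℝ) else 0) := by
          intro x
          rw [lik, Finset.prod_image (fun a _ c _ h => (Prod.ext_iff.1 h).2)]
          rw [show (∏ e ∈ S, chan true (x e)) =
              ∏ e ∈ S, ((1 / 2 : ℝ) * (if x e = true then 1 else 0) + 1 / 4) from
            Finset.prod_congr rfl fun e _ => by cases x e <;> norm_num [chan]]
          rw [Finset.prod_add]
          refine Finset.sum_congr rfl fun t _ => ?_
          rw [Finset.prod_mul_distrib, Finset.prod_const, Finset.prod_const]
          ring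
        simp only [hexp]
        rw [integral_finsetSum _ fun t _ =>
          (integrable_of_continuous (continuous_indicator_allIn t) m).const_mul _]
        refine Finset.sum_congr rfl fun t _ => ?_
        rw [integral_const_mul, integral_prod_eq_real]
      have h2 := hlik (S.image fun e => ((0 : ℕ), e))
      rw [key ν, key ν', ← Finset.add_sum_erase _ _ (Finset.mem_powerset_self S),
        ← Finset.add_sum_erase _ _ (Finset.mem_powerset_self S)] at h2
      have h3 : ∀ t ∈ S.powerset.erase S, ν.real (allIn t) = ν'.real (allIn t) := by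
        intro t ht
        rw [Finset.mem_erase, Finset.mem_powerset] at ht
        exact ih t (ht.2.ssubset_of_ne ht.1)
      rw [Finset.sum_congr rfl (fun t ht => by rw [h3 t ht]), add_left_inj] at h2
      exact mul_left_cancel₀ (mul_ne_zero (by positivity) (by positivity)) h2
  refine ext_of_generate_finite _ generateFrom_allIn isPiSystem_allIn ?_ (by simp)
  rintro _ ⟨S, rfl⟩
  exact (measureReal_eq_measureReal_iff).1 (hcyl S)

/-- A sequence of finite edge sets increasing to the edge set of `G`. -/
structure FinExh (G : SimpleGraph V) where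
  seq : ℕ → SimpleGraph V
  exh : Exhausts seq G
  fin : ∀ n, (seq n).edgeSet.Finite

/-- A numbering of the vertices. -/
def vnum (v : V) : ℕ := (Countable.exists_injective_nat V).choose v

lemma vnum_injective : Function.Injective (vnum (V := V)) :=
  (Countable.exists_injective_nat V).choose_spec

/-- The edges of `G` between the vertices numbered below `n`. -/
def cutEdges (n : ℕ) (G : SimpleGraph V) : Finset (Sym2 V) :=
  let A : Finset V := (Finset.range n).preimage vnum vnum_injective.injOn
  ((A ×ˢ A).image fun p => s(p.1, p.2)).filter fun e => e ∈ G.edgeSet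

lemma mem_cutEdges {n : ℕ} {G : SimpleGraph V} {a b : V} :
    s(a, b) ∈ cutEdges n G ↔ (vnum a < n ∧ vnum b < n) ∧ G.Adj a b := by
  simp only [cutEdges, Finset.mem_filter, Finset.mem_image, Finset.mem_product,
    Finset.mem_preimage, Finset.mem_range, SimpleGraph.mem_edgeSet]
  refine and_congr_left fun _ => ⟨?_, fun h => ⟨(a, b), h, rfl⟩⟩
  rintro ⟨⟨c, d⟩, ⟨hc, hd⟩, h⟩
  rcases Sym2.eq_iff.1 h with ⟨rfl, rfl⟩ | ⟨rfl, rfl⟩
  · exact ⟨hc, hd⟩
  · exact ⟨hd, hc⟩

/-- The finite restrictions of `G`. -/
def restrGraph (G : SimpleGraph V) (n : ℕ) : SimpleGraph V := edgeGraph (cutEdges n G)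

lemma restrGraph_adj {G : SimpleGraph V} {n : ℕ} {a b : V} :
    (restrGraph G n).Adj a b ↔ (vnum a < n ∧ vnum b < n) ∧ G.Adj a b := by
  rw [restrGraph, edgeGraph_adj, mem_cutEdges]
  exact ⟨fun h => h.1, fun h => ⟨h, h.2.ne⟩⟩

lemma edgeGraph_edgeSet_finite (E : Finset (Sym2 V)) : (edgeGraph E).edgeSet.Finite :=
  E.finite_toSet.subset fun e he => by
    induction e using Sym2.ind with
    | h a b => exact (edgeGraph_adj.1 he).1

/-- The canonical exhaustion of a graph by finite edge sets. -/
def canonExh (G : SimpleGraph V) : FinExh G where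
  seq := restrGraph G
  exh :=
    { mono := fun m n hmn a b h => by
        rw [restrGraph_adj] at h ⊢
        exact ⟨⟨h.1.1.trans_le hmn, h.1.2.trans_le hmn⟩, h.2⟩
      le := fun n a b h => (restrGraph_adj.1 h).2
      cover := fun a b h => ⟨max (vnum a) (vnum b) + 1, restrGraph_adj.2
        ⟨⟨Nat.lt_succ_of_le (le_max_left _ _), Nat.lt_succ_of_le (le_max_right _ _)⟩, h⟩⟩ }
  fin := fun n => edgeGraph_edgeSet_finite _

lemma mapClusterPt_integral {u : ℕ → ProbabilityMeasure (Sym2 V → Bool)}
    {ν : ProbabilityMeasure (Sym2 V → Bool)} (h : MapClusterPt ν atTop u)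
    {f : (Sym2 V → Bool) → ℝ} (hf : Continuous f) :
    MapClusterPt (∫ x, f x ∂(ν : Measure (Sym2 V → Bool))) atTop
      (fun n => ∫ x, f x ∂(u n : Measure (Sym2 V → Bool))) :=
  h.continuousAt_comp
    (ProbabilityMeasure.continuous_integral_boundedContinuousFunction
      (BoundedContinuousFunction.mkOfCompact ⟨f, hf⟩)).continuousAt

lemma eq_of_mapClusterPt {u : ℕ → ℝ} {a l : ℝ} (h : MapClusterPt a atTop u)
    (hu : Tendsto u atTop (𝓝 l)) : a = l :=
  eq_of_nhds_neBot (ClusterPt.mono h hu)

theorem isFree_of_mapClusterPt {G : SimpleGraph V} (E : FinExh G)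
    {ν : ProbabilityMeasure (Sym2 V → Bool)}
    (h : MapClusterPt ν atTop fun n => usf (E.seq n) (E.fin n)) :
    IsFree G (ν : Measure (Sym2 V → Bool)) := by
  refine ⟨fun e he => ?_, fun A b e he => ?_⟩
  · have hc := mapClusterPt_integral h (continuous_indicator_allIn {e})
    have hz : ∀ n, ∫ x, ∏ i ∈ ({e} : Finset (Sym2 V)), (if x i = true then (1 : ℝ) else 0)
        ∂(usf (E.seq n) (E.fin n) : Measure (Sym2 V → Bool)) = 0 := by
      intro n
      rw [integral_usf _ _ (continuous_indicator_allIn {e}), treeAvg]
      rw [Finset.sum_eq_zero, zero_div]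
      intro T hT
      rw [mem_spanForests] at hT
      have hnot : e ∉ T := fun h' =>
        he (SimpleGraph.edgeSet_mono (E.exh.le n) (hT.1 (Finset.mem_coe.2 h')))
      simp [treeInd, hnot]
    have h0 := eq_of_mapClusterPt hc (tendsto_const_nhds.congr fun n => (hz n).symm)
    rw [integral_prod_eq_real, measureReal_eq_zero_iff] at h0
    simpa [allIn] using h0
  · set g := fun x : Sym2 V → Bool => lik A b x * chan true (x e) - lik A b x * pval G (fld A b) e
    have hg : Continuous g :=
      (continuous_lik_chan A b e).sub ((continuous_lik A b).mul continuous_const)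
    have hc := mapClusterPt_integral h hg
    have hev : ∀ᶠ n in atTop, e ∈ (E.seq n).edgeSet := by
      induction e using Sym2.ind with
      | h a c =>
        obtain ⟨n, hn⟩ := E.exh.cover a c he
        exact eventually_atTop.2 ⟨n, fun m hm => E.exh.mono hm hn⟩
    have hlim : Tendsto (fun n => ∫ x, g x ∂(usf (E.seq n) (E.fin n) : Measure (Sym2 V → Bool)))
        atTop (𝓝 0) := by
      have hbd : ∀ n, |treeAvg (E.seq n) (E.fin n) (lik A b)| ≤ 1 := by
        intro n
        have hpos : (0 : ℝ) < ((spanForests (E.seq n) (E.fin n)).card : ℝ) :=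
          Nat.cast_pos.2 (spanForests_card_pos _ _)
        rw [treeAvg, abs_div, abs_of_pos hpos, div_le_one hpos]
        refine (Finset.abs_sum_le_sum_abs _ _).trans
          ((Finset.sum_le_sum fun T _ => ?_).trans_eq (by rw [Finset.sum_const, nsmul_one]))
        rw [lik, Finset.abs_prod]
        exact Finset.prod_le_one (fun s _ => abs_nonneg _)
          (fun s _ => by rw [abs_of_pos (chan_pos _ _)]; exact chan_le_one _ _)
      have h0 : Tendsto (fun n => |pval (E.seq n) (fld A b) e - pval G (fld A b) e|) atTop (𝓝 0) := by
        have := (((tendsto_medge E.exh (fld A b) e).div_const 2).const_add (1 / 4 : ℝ)).sub_const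
          (pval G (fld A b) e)
        rw [show 1 / 4 + medge G (fld A b) e / 2 - pval G (fld A b) e = 0 by unfold pval; ring]
          at this
        simpa [pval] using this.abs
      refine squeeze_zero_norm' (hev.mono fun n hn => ?_) h0
      have hint := integral_usf (E.seq n) (E.fin n) hg
      rw [hint, Real.norm_eq_abs]
      have : treeAvg (E.seq n) (E.fin n) g = treeAvg (E.seq n) (E.fin n) (lik A b) *
          (pval (E.seq n) (fld A b) e - pval G (fld A b) e) := by
        rw [mul_sub, ← treeAvg_predict _ _ A b hn]
        simp only [treeAvg, g, Finset.sum_sub_distrib, ← Finset.sum_mul, sub_div,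
          div_mul_eq_mul_div]
      rw [this, abs_mul]
      exact mul_le_of_le_one_left (abs_nonneg _) (hbd n)
    have h0 := eq_of_mapClusterPt hc hlim
    have hi := integrable_of_continuous (continuous_lik_chan A b e) (ν : Measure (Sym2 V → Bool))
    have hi' := integrable_of_continuous (continuous_lik A b) (ν : Measure (Sym2 V → Bool))
    simp only [g] at h0
    rw [integral_sub hi (hi'.mul_const _), integral_mul_const, sub_eq_zero] at h0
    exact h0

theorem exists_free (G : SimpleGraph V) :
    ∃ ν : ProbabilityMeasure (Sym2 V → Bool), IsFree G (ν : Measure (Sym2 V → Bool)) := by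
  obtain ⟨ν, hν⟩ := exists_clusterPt_of_compactSpace (Filter.map
    (fun n => usf ((canonExh G).seq n) ((canonExh G).fin n)) atTop)
  exact ⟨ν, isFree_of_mapClusterPt _ hν⟩

/-- The free uniform spanning forest. -/
def fusfPM (G : SimpleGraph V) : ProbabilityMeasure (Sym2 V → Bool) := (exists_free G).choose

/-- The free uniform spanning forest as a measure. -/
def fusf (G : SimpleGraph V) : Measure (Sym2 V → Bool) := (fusfPM G : Measure (Sym2 V → Bool))

instance isProbabilityMeasure_fusf (G : SimpleGraph V) : IsProbabilityMeasure (fusf G) :=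
  (fusfPM G).2

lemma isFree_fusf (G : SimpleGraph V) : IsFree G (fusf G) := (exists_free G).choose_spec

theorem tendsto_usf {G : SimpleGraph V} (E : FinExh G) :
    Tendsto (fun n => usf (E.seq n) (E.fin n)) atTop (𝓝 (fusfPM G)) := by
  refine tendsto_nhds_of_unique_mapClusterPt fun ν hν => ?_
  have h : (ν : Measure (Sym2 V → Bool)) = fusf G :=
    (isFree_of_mapClusterPt E hν).unique (isFree_fusf G)
  exact ProbabilityMeasure.toMeasure_injective h

theorem tendsto_treeAvg {G : SimpleGraph V} (E : FinExh G) {f : (Sym2 V → Bool) → ℝ}
    (hf : Continuous f) :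
    Tendsto (fun n => treeAvg (E.seq n) (E.fin n) f) atTop (𝓝 (∫ x, f x ∂fusf G)) := by
  have h := ProbabilityMeasure.tendsto_iff_forall_integral_tendsto.1 (tendsto_usf E)
    (BoundedContinuousFunction.mkOfCompact ⟨f, hf⟩)
  refine Tendsto.congr (fun n => ?_) h
  exact integral_usf _ _ hf

theorem measurable_fusf : Measurable (fusf (V := V)) := by
  refine Measurable.measure_of_isPiSystem_of_isProbabilityMeasure generateFrom_allIn
    isPiSystem_allIn ?_
  rintro _ ⟨S, rfl⟩
  have hm : Measurable fun G : SimpleGraph V => (fusf G).real (allIn S) := by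
    refine measurable_of_tendsto_metrizable
      (f := fun n G => treeAvg ((canonExh G).seq n) ((canonExh G).fin n)
        fun x => ∏ e ∈ S, (if x e = true then (1 : ℝ) else 0)) (fun n => ?_) ?_
    · letI : MeasurableSpace (Finset (Sym2 V)) := ⊤
      have hc : Measurable (cutEdges (V := V) n) := by
        refine measurable_to_countable' fun E => ?_
        have : cutEdges (V := V) n ⁻¹' {E} =
            ⋂ e : Sym2 V, {G | e ∈ cutEdges n G ↔ e ∈ E} := by
          ext G; simp [Finset.ext_iff]
        rw [this]
        refine MeasurableSet.iInter fun e => ?_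
        induction e using Sym2.ind with
        | h a b =>
          simp only [mem_cutEdges]
          refine measurableSet_setOfPred.2 ?_
          fun_prop
      exact (measurable_from_top (f := fun E : Finset (Sym2 V) =>
        treeAvg (edgeGraph E) (edgeGraph_edgeSet_finite E)
          fun x => ∏ e ∈ S, (if x e = true then (1 : ℝ) else 0))).comp hc
    · rw [tendsto_pi_nhds]
      intro G
      have := tendsto_treeAvg (canonExh G) (continuous_indicator_allIn S)
      rwa [integral_prod_eq_real] at this
  have he : (fun G : SimpleGraph V => fusf G (allIn S)) =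
      fun G => ENNReal.ofReal ((fusf G).real (allIn S)) := by
    funext G
    rw [ofReal_measureReal (measure_ne_top _ _)]
  rw [he]
  exact hm.ennreal_ofReal

/-- Relabelling of edge configurations. -/
def pullEdges {α : Type*} (σ : Equiv.Perm V) (x : Sym2 V → α) : Sym2 V → α :=
  fun e => x (e.map σ)

lemma measurable_pullEdges {α : Type*} [MeasurableSpace α] (σ : Equiv.Perm V) :
    Measurable (pullEdges (α := α) σ) := measurable_pi_lambda _ fun e => measurable_pi_apply _

theorem fusf_comap (σ : Equiv.Perm V) (G : SimpleGraph V) :
    fusf (G.comap σ) = (fusf G).map (pullEdges σ) := by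
  have := Measure.isProbabilityMeasure_map (μ := fusf G) (measurable_pullEdges σ).aemeasurable
  refine (isFree_fusf _).unique ⟨fun e he => ?_, fun A b e he => ?_⟩
  · show (fusf G).map (pullEdges σ) ((fun x : Sym2 V → Bool => x e) ⁻¹' {true}) = 0
    rw [Measure.map_apply (measurable_pullEdges σ)
      (measurable_pi_apply e (measurableSet_singleton true))]
    refine (isFree_fusf G).1 (e.map σ) ?_
    induction e using Sym2.ind with
    | h a c => simpa using he
  · have he' : e.map σ ∈ G.edgeSet := by
      induction e using Sym2.ind with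
      | h a c => simpa using he
    have hinj : Function.Injective fun s : Slot V => (s.1, s.2.map σ) := fun s t h => by
      obtain ⟨h1, h2⟩ := Prod.ext_iff.1 h
      exact Prod.ext h1 (Sym2.map.injective σ.injective h2)
    set A' := A.image fun s : Slot V => (s.1, s.2.map σ)
    set b' : Slot V → Bool := fun s => b (s.1, s.2.map σ.symm)
    have hb : ∀ s : Slot V, b' (s.1, s.2.map σ) = b s := fun s => by
      simp [b', Sym2.map_map]
    have hlik : ∀ x, lik A b (pullEdges σ x) = lik A' b' x := by
      intro x
      simp only [lik, A', Finset.prod_image hinj.injOn, hb, pullEdges]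
    have hfld : fld A b = fun g => fld A' b' (g.map σ) := by
      funext g
      simp only [fld, A', Finset.sum_image hinj.injOn, hb]
      congr 1
      exact Finset.sum_congr rfl fun s _ => by
        simp [(Sym2.map.injective σ.injective).eq_iff]
    rw [integral_map (measurable_pullEdges σ).aemeasurable
        (continuous_lik_chan A b e).aestronglyMeasurable,
      integral_map (measurable_pullEdges σ).aemeasurable (continuous_lik A b).aestronglyMeasurable]
    simp only [hlik, pullEdges]
    rw [(isFree_fusf G).2 A' b' _ he', pval, pval, hfld, medge_comap]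

end

end Vale.P143
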