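import Vale.Agent.P143.Truth

/-!
P143: Picard iteration round by round, locality in time, and the one step error bound.
-/

namespace Vale.P143

open scoped ENNReal
open scoped Classical
open MeasureTheory

noncomputable section

variable {V : Type*}

/-- Combine the bits of earlier rounds with the current guess of round `k`. -/
def merge (k : ℕ) (prev : Slot V → Bool) (cur : Sym2 V → Bool) : Slot V → Bool :=
  fun s => if s.1 = k then cur s.2 else prev s

/-- The Picard iterates of round `k`. -/
def iter (G : SimpleGraph V) (U Vl : Slot V → ℝ) (k : ℕ) (prev : Slot V → Bool) :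
    ℕ → Sym2 V → Bool
  | 0 => fun _ => false
  | i + 1 => fun e =>
      decide (Vl (k, e) < pUpTo G U k (U (k, e)) (merge k prev (iter G U Vl k prev i)) e)

/-- The eventual value of the iterates. -/
def roundLim (G : SimpleGraph V) (U Vl : Slot V → ℝ) (k : ℕ) (prev : Slot V → Bool)
    (e : Sym2 V) : Bool :=
  decide (∃ N, ∀ i ≥ N, iter G U Vl k prev i e = true)

/-- The bits of all rounds below `k`, computed from the labels. -/
def upto (G : SimpleGraph V) (U Vl : Slot V → ℝ) : ℕ → Slot V → Bool
  | 0 => fun _ => false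
  | k + 1 => merge k (upto G U Vl k) (roundLim G U Vl k (upto G U Vl k))

/-- The computed bit of a slot. -/
def sol (G : SimpleGraph V) (U Vl : Slot V → ℝ) (s : Slot V) : Bool := upto G U Vl (s.1 + 1) s

lemma pUpTo_congr (G : SimpleGraph V) {U U' : Slot V → ℝ} {k : ℕ} {u : ℝ} {b b' : Slot V → Bool}
    (hP : ∀ t, Past G U k u t ↔ Past G U' k u t) (hb : ∀ t, Past G U k u t → b t = b' t)
    (e : Sym2 V) : pUpTo G U k u b e = pUpTo G U' k u b' e := by
  unfold pUpTo
  rw [yv_congr (P' := Past G U' k u) (fun t _ => hP t) hb]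

lemma past_mono {G : SimpleGraph V} {U : Slot V → ℝ} {k : ℕ} {u u' : ℝ} {t : Slot V}
    (h : u ≤ u') (ht : Past G U k u t) : Past G U k u' t :=
  ⟨ht.1, ht.2.imp_right fun g => ⟨g.1, g.2.trans_le h⟩⟩

lemma iter_congr (G : SimpleGraph V) {U U' Vl Vl' : Slot V → ℝ} {k : ℕ}
    {prev prev' : Slot V → Bool} {u : ℝ}
    (hP : ∀ t, Past G U k u t ↔ Past G U' k u t)
    (hU : ∀ t, Past G U k u t → U t = U' t)
    (hV : ∀ t, Past G U k u t → t.1 = k → Vl t = Vl' t)
    (hB : ∀ t, Past G U k u t → t.1 < k → prev t = prev' t) :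
    ∀ (i : ℕ) (e : Sym2 V), Past G U k u (k, e) →
      iter G U Vl k prev i e = iter G U' Vl' k prev' i e := by
  intro i
  induction i with
  | zero => intro e _; rfl
  | succ i ih =>
    intro e he
    have hlt : U (k, e) < u := (he.2.resolve_left (lt_irrefl k)).2
    have hp : pUpTo G U k (U (k, e)) (merge k prev (iter G U Vl k prev i)) e =
        pUpTo G U' k (U (k, e)) (merge k prev' (iter G U' Vl' k prev' i)) e := by
      refine pUpTo_congr G (fun t => ?_) (fun t ht => ?_) e
      · constructor
        · intro ht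
          have ht' := past_mono hlt.le ht
          refine ⟨((hP t).1 ht').1, ht.2.imp_right fun g => ⟨g.1, ?_⟩⟩
          rw [← hU t ht']
          exact g.2
        · intro ht
          have ht' : Past G U k u t := (hP t).2 (past_mono hlt.le ht)
          refine ⟨ht'.1, ht.2.imp_right fun g => ⟨g.1, ?_⟩⟩
          rw [hU t ht']
          exact g.2
      · have ht' := past_mono hlt.le ht
        simp only [merge]
        by_cases h : t.1 = k
        · rw [if_pos h, if_pos h]
          refine ih t.2 ?_
          have : ((k, t.2) : Slot V) = t := Prod.ext h.symm rfl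
          rw [this]; exact ht'
        · rw [if_neg h, if_neg h]
          exact hB t ht' (lt_of_le_of_ne ht'.le h)
    show decide (_ < _) = decide (_ < _)
    rw [hV (k, e) he rfl, hp, hU (k, e) he]

/-- The iterates computed from the true labels and the true bits of the earlier rounds. -/
def hyb (G : SimpleGraph V) (k i : ℕ)
    (w : (Slot V → ℝ) × (Slot V → Bool) × (Slot V → ℝ)) : Sym2 V → Bool :=
  iter G w.1 (vOf G w.1 w.2.1 w.2.2) k w.2.1 i

/-- The guessed field of the `i`-th iterate at time `u`. -/
def hybBits (G : SimpleGraph V) (k i : ℕ)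
    (w : (Slot V → ℝ) × (Slot V → Bool) × (Slot V → ℝ)) : Slot V → Bool :=
  merge k w.2.1 (hyb G k i w)

/-- The event that iterate `i` is wrong at an observed edge. -/
def Err (G : SimpleGraph V) (k i : ℕ) (e : Sym2 V)
    (w : (Slot V → ℝ) × (Slot V → Bool) × (Slot V → ℝ)) : Prop :=
  Obs G w.1 (k, e) ∧ hyb G k i w e ≠ w.2.1 (k, e)

/-- The discrepancy of the predictive probabilities at time `u`. -/
def gap (G : SimpleGraph V) (k i : ℕ) (u : ℝ) (e : Sym2 V)
    (w : (Slot V → ℝ) × (Slot V → Bool) × (Slot V → ℝ)) : ℝ≥0∞ :=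
  ENNReal.ofReal |pUpTo G w.1 k u (hybBits G k i w) e - pUpTo G w.1 k u w.2.1 e|

lemma past_update_one (G : SimpleGraph V) (U : Slot V → ℝ) {k : ℕ} {e : Sym2 V} {u : ℝ}
    (hu : u ≤ U (k, e)) (hu2 : u ≤ 1 / 2) (t : Slot V) :
    Past G U k u t ↔ Past G (Function.update U (k, e) 1) k u t := by
  by_cases h : t = (k, e)
  · subst h
    constructor
    · intro h
      exact absurd (h.2.resolve_left (lt_irrefl k)).2 (not_lt.2 hu)
    · intro h
      have := (h.2.resolve_left (lt_irrefl k)).2
      rw [Function.update_self] at this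
      linarith
  · simp only [Past, Obs, Function.update_of_ne h]

variable [Countable V]

lemma vOf_congr_time (G : SimpleGraph V) {U U' : Slot V → ℝ} (b : Slot V → Bool) (a : Slot V → ℝ)
    {k : ℕ} {u : ℝ} (hP : ∀ t, Past G U k u t ↔ Past G U' k u t)
    (hU : ∀ t, Past G U k u t → U t = U' t) {t : Slot V} (ht : Past G U k u t) :
    vOf G U b a t = vOf G U' b a t := by
  have hp : pSlot G U b t = pSlot G U' b t := by
    unfold pSlot
    rw [← hU t ht]
    refine pUpTo_congr G (fun r => ⟨fun hr => ?_, fun hr => ?_⟩) (fun _ _ => rfl) t.2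
    · have hr' := ht.trans hr
      refine ⟨((hP r).1 hr').1, hr.2.imp_right fun g => ⟨g.1, ?_⟩⟩
      rw [← hU r hr']; exact g.2
    · have ht' : Past G U' k u t := (hP t).1 ht
      have hr' : Past G U k u r := (hP r).2 (ht'.trans (by rw [← hU t ht]; exact hr))
      refine ⟨hr'.1, hr.2.imp_right fun g => ⟨g.1, ?_⟩⟩
      rw [hU r hr']; exact g.2
  simp only [vOf, if_pos ht.1, if_pos ((hP t).1 ht).1, hp]

theorem gap_update_one (G : SimpleGraph V) {k i : ℕ} {e : Sym2 V} {u : ℝ} {U : Slot V → ℝ}
    (b : Slot V → Bool) (a : Slot V → ℝ) (hu : u ≤ U (k, e)) (hu2 : u ≤ 1 / 2) :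
    gap G k i u e (U, b, a) = gap G k i u e (Function.update U (k, e) 1, b, a) := by
  set U' := Function.update U (k, e) 1
  have hP := past_update_one G U hu hu2
  have hU : ∀ t, Past G U k u t → U t = U' t := by
    intro t ht
    have : t ≠ (k, e) := by
      rintro rfl
      exact absurd (ht.2.resolve_left (lt_irrefl k)).2 (not_lt.2 hu)
    simp only [U', Function.update_of_ne this]
  have hbits : ∀ t, Past G U k u t →
      hybBits G k i (U, b, a) t = hybBits G k i (U', b, a) t := by
    intro t ht
    simp only [hybBits, merge]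
    by_cases h : t.1 = k
    · rw [if_pos h, if_pos h]
      have hte : ((k, t.2) : Slot V) = t := Prod.ext h.symm rfl
      exact iter_congr G hP hU (fun r hr _ => vOf_congr_time G b a hP hU hr) (fun _ _ _ => rfl)
        i t.2 (hte.symm ▸ ht)
    · rw [if_neg h, if_neg h]
  unfold gap
  rw [pUpTo_congr G (b' := hybBits G k i (U', b, a)) hP hbits e,
    pUpTo_congr G (b' := b) hP (fun _ _ => rfl) e]

/-! ### Measurability -/

variable {Z : Type*} [MeasurableSpace Z]

lemma measurable_merge (k : ℕ) {Pf : Z → Slot V → Bool} {Cf : Z → Sym2 V → Bool}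
    (hP : Measurable Pf) (hC : Measurable Cf) :
    Measurable fun z => merge k (Pf z) (Cf z) := by
  refine measurable_pi_lambda _ fun s => ?_
  unfold merge
  split_ifs
  · exact (measurable_pi_apply s.2).comp hC
  · exact (measurable_pi_apply s).comp hP

lemma measurable_iter {Gf : Z → SimpleGraph V} {Uf Vf : Z → Slot V → ℝ} {Pf : Z → Slot V → Bool}
    (hG : Measurable Gf) (hU : Measurable Uf) (hV : Measurable Vf) (hP : Measurable Pf) (k : ℕ) :
    ∀ i, Measurable fun z => iter (Gf z) (Uf z) (Vf z) k (Pf z) i := by
  intro i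
  induction i with
  | zero => exact measurable_const
  | succ i ih =>
    refine measurable_pi_lambda _ fun e => measurable_to_bool ?_
    have hp := measurable_pUpTo hG hU (measurable_merge k hP ih)
      ((measurable_pi_apply ((k, e) : Slot V)).comp hU) k e
    have : (fun z => iter (Gf z) (Uf z) (Vf z) k (Pf z) (i + 1) e) ⁻¹' {true} =
        {z | Vf z (k, e) < pUpTo (Gf z) (Uf z) k (Uf z (k, e))
          (merge k (Pf z) (iter (Gf z) (Uf z) (Vf z) k (Pf z) i)) e} := by
      ext z; simp [iter]
    rw [this]
    exact measurableSet_lt ((measurable_pi_apply _).comp hV) hp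

lemma measurable_upto {Gf : Z → SimpleGraph V} {Uf Vf : Z → Slot V → ℝ}
    (hG : Measurable Gf) (hU : Measurable Uf) (hV : Measurable Vf) :
    ∀ k, Measurable fun z => upto (Gf z) (Uf z) (Vf z) k := by
  intro k
  induction k with
  | zero => exact measurable_const
  | succ k ih =>
    refine measurable_merge k ih (measurable_pi_lambda _ fun e => measurable_to_bool ?_)
    have hit : ∀ i, Measurable fun z =>
        iter (Gf z) (Uf z) (Vf z) k (upto (Gf z) (Uf z) (Vf z) k) i e :=
      fun i => (measurable_pi_apply e).comp (measurable_iter hG hU hV ih k i)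
    have : (fun z => roundLim (Gf z) (Uf z) (Vf z) k (upto (Gf z) (Uf z) (Vf z) k) e) ⁻¹' {true} =
        ⋃ N, ⋂ i ≥ N,
          (fun z => iter (Gf z) (Uf z) (Vf z) k (upto (Gf z) (Uf z) (Vf z) k) i e) ⁻¹' {true} := by
      ext z; simp [roundLim]
    rw [this]
    exact MeasurableSet.iUnion fun N => MeasurableSet.iInter fun i => MeasurableSet.iInter
      fun _ => hit i (measurableSet_singleton true)

lemma measurable_sol {Gf : Z → SimpleGraph V} {Uf Vf : Z → Slot V → ℝ}
    (hG : Measurable Gf) (hU : Measurable Uf) (hV : Measurable Vf) :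
    Measurable fun z => sol (Gf z) (Uf z) (Vf z) :=
  measurable_pi_lambda _ fun s => (measurable_pi_apply s).comp (measurable_upto hG hU hV (s.1 + 1))

variable {Gf : Z → SimpleGraph V}
  {Wf : Z → (Slot V → ℝ) × (Slot V → Bool) × (Slot V → ℝ)}

lemma measurable_hyb (hG : Measurable Gf) (hW : Measurable Wf) (k i : ℕ) :
    Measurable fun z => hyb (Gf z) k i (Wf z) :=
  measurable_iter hG (measurable_fst.comp hW) (measurable_vOf_joint.comp (hG.prodMk hW))
    (measurable_fst.comp (measurable_snd.comp hW)) k i

lemma measurable_hybBits (hG : Measurable Gf) (hW : Measurable Wf) (k i : ℕ) :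
    Measurable fun z => hybBits (Gf z) k i (Wf z) :=
  measurable_merge k (measurable_fst.comp (measurable_snd.comp hW)) (measurable_hyb hG hW k i)

lemma measurableSet_err (hG : Measurable Gf) (hW : Measurable Wf) (k i : ℕ) (e : Sym2 V) :
    MeasurableSet {z | Err (Gf z) k i e (Wf z)} :=
  (measurableSet_obs hG (measurable_fst.comp hW) (k, e)).inter
    (measurableSet_eq_fun ((measurable_pi_apply e).comp (measurable_hyb hG hW k i))
      ((measurable_pi_apply ((k, e) : Slot V)).comp
        (measurable_fst.comp (measurable_snd.comp hW)))).compl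

lemma measurable_gap (hG : Measurable Gf) (hW : Measurable Wf) {uf : Z → ℝ} (hu : Measurable uf)
    (k i : ℕ) (e : Sym2 V) : Measurable fun z => gap (Gf z) k i (uf z) e (Wf z) :=
  (continuous_abs.measurable.comp
    ((measurable_pUpTo hG (measurable_fst.comp hW) (measurable_hybBits hG hW k i) hu k e).sub
      (measurable_pUpTo hG (measurable_fst.comp hW)
        (measurable_fst.comp (measurable_snd.comp hW)) hu k e))).ennreal_ofReal

/-! ### The one step error bound -/

lemma unif_between {p q : ℝ} :
    ∫⁻ v, (if decide (v < q) = decide (v < p) then (0 : ℝ≥0∞) else 1) ∂unif ≤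
      ENNReal.ofReal |q - p| := by
  have h : ∀ v, (if decide (v < q) = decide (v < p) then (0 : ℝ≥0∞) else 1) ≤
      (Set.uIcc p q).indicator 1 v := by
    intro v
    split_ifs with hv
    · exact bot_le
    · rw [Set.indicator_of_mem]
      · simp
      · rw [Set.mem_uIcc]
        simp only [decide_eq_decide] at hv
        by_cases h1 : v < q <;> by_cases h2 : v < p
        · exact absurd (iff_of_true h1 h2) hv
        · exact Or.inl ⟨not_lt.1 h2, h1.le⟩
        · exact Or.inr ⟨not_lt.1 h1, h2.le⟩
        · exact absurd (iff_of_false h1 h2) hv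
  refine (lintegral_mono h).trans ?_
  rw [lintegral_indicator_one measurableSet_uIcc]
  refine (Measure.restrict_apply_le _ _).trans ?_
  rw [Set.uIcc, Real.volume_Icc, max_sub_min_eq_abs]

theorem err_step (G : SimpleGraph V) (k i : ℕ) (e : Sym2 V) (U : Slot V → ℝ)
    (hobs : Obs G U (k, e)) :
    ∫⁻ z, (if Err G k (i + 1) e (U, z) then (1 : ℝ≥0∞) else 0) ∂inner' G ≤
      ∫⁻ z, gap G k i (U (k, e)) e (U, z) ∂inner' G := by
  set s : Slot V := (k, e)
  let f : (Slot V → Bool) × (Slot V → ℝ) × ℝ → ℝ≥0∞ := fun w =>
    if decide (w.2.2 < pUpTo G U k (U s) (hybBits G k i (U, w.1, w.2.1)) e) =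
      decide (w.2.2 < pUpTo G U k (U s) w.1 e) then 0 else 1
  have hW : Measurable fun w : (Slot V → Bool) × (Slot V → ℝ) × ℝ => ((U, w.1, w.2.1) :
      (Slot V → ℝ) × (Slot V → Bool) × (Slot V → ℝ)) :=
    measurable_const.prodMk (measurable_fst.prodMk (measurable_fst.comp measurable_snd))
  have hf : Measurable f := by
    refine Measurable.ite (measurableSet_eq_fun ?_ ?_) measurable_const measurable_const
    · refine measurable_to_bool ?_
      have := measurableSet_lt (measurable_snd.comp measurable_snd)
        (measurable_pUpTo (uf := fun _ => U s)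
          (measurable_const (a := G) (α := SimpleGraph V)) (measurable_fst.comp hW)
          (measurable_hybBits (Gf := fun _ => G) measurable_const hW k i) measurable_const k e)
      simpa [Set.preimage] using this
    · refine measurable_to_bool ?_
      have := measurableSet_lt (measurable_snd.comp measurable_snd)
        (measurable_pUpTo (Uf := fun _ => U) (uf := fun _ => U s)
          (measurable_const (a := G) (α := SimpleGraph V))
          measurable_const measurable_fst measurable_const k e
          (Z := (Slot V → Bool) × (Slot V → ℝ) × ℝ))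
      simpa [Set.preimage] using this
  have hpastk : ∀ {t : Slot V}, Past G U k (U s) t → t ≠ s := by
    rintro t ht rfl
    exact lt_irrefl _ (ht.2.resolve_left (lt_irrefl k)).2
  have hP' : ∀ (b b' : Slot V → Bool) (a a' : Slot V → ℝ),
      (∀ t, Past G U k (U s) t → b t = b' t) → (∀ t, Past G U k (U s) t → a t = a' t) →
      pUpTo G U k (U s) (hybBits G k i (U, b, a)) e =
        pUpTo G U k (U s) (hybBits G k i (U, b', a')) e := by
    intro b b' a a' hbb haa
    refine pUpTo_congr G (fun t => Iff.rfl) (fun t ht => ?_) e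
    simp only [hybBits, merge]
    by_cases h : t.1 = k
    · rw [if_pos h, if_pos h]
      have hte : ((k, t.2) : Slot V) = t := Prod.ext h.symm rfl
      refine iter_congr G (fun r => Iff.rfl) (fun _ _ => rfl) (fun r hr _ => ?_)
        (fun r hr _ => hbb r hr) i t.2 (hte.symm ▸ ht)
      show vOf G U b a r = vOf G U b' a' r
      rw [vOf_congr G U a hr hbb]
      simp only [vOf, haa r hr]
    · rw [if_neg h, if_neg h]; exact hbb t ht
  have hstep := slot_step G U (s := s) hobs hf
    (fun w => by simp only [f]; split_ifs <;> simp)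
    (fun b b' a v hbb => by
      simp only [f, hP' b b' a a hbb fun _ _ => rfl,
        pUpTo_congr G (U := U) (k := k) (u := U s) (fun t => Iff.rfl) hbb e])
    (fun b a r v => by
      simp only [f, hP' b b (Function.update a s r) a (fun _ _ => rfl)
        fun t ht => Function.update_of_ne (hpastk ht) _ _])
  have hae : ∀ᵐ z ∂inner' G, 0 ≤ z.2 s ∧ z.2 s < 1 :=
    Measure.quasiMeasurePreserving_snd.ae (ae_unit s)
  calc ∫⁻ z, (if Err G k (i + 1) e (U, z) then (1 : ℝ≥0∞) else 0) ∂inner' G
      ≤ ∫⁻ z, f (z.1, z.2, vOf G U z.1 z.2 s) ∂inner' G := by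
        refine lintegral_mono_ae ?_
        filter_upwards [hae] with z hz
        have hmem := pSlot_mem z.1 hobs
        have hbit : decide (vOf G U z.1 z.2 s < pUpTo G U k (U s) z.1 e) = z.1 s := by
          have hp : pUpTo G U k (U s) z.1 e = pSlot G U z.1 s := rfl
          rw [hp, vOf, if_pos hobs]
          cases hb : z.1 s
          · simp only [Bool.false_eq_true, if_false, decide_eq_false_iff_not, not_lt]
            nlinarith [hz.1, hmem.2]
          · simp only [if_true, decide_eq_true_eq]
            nlinarith [hz.2, hmem.1]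
        simp only [f, hbit]
        by_cases hE : Err G k (i + 1) e (U, z)
        · rw [if_pos hE]
          refine le_of_eq (if_neg ?_).symm
          exact hE.2
        · rw [if_neg hE]; exact bot_le
    _ = ∫⁻ z, ∫⁻ v, f (z.1, z.2, v) ∂unif ∂inner' G := hstep
    _ ≤ _ := lintegral_mono fun z => unif_between

end

end Vale.P143
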