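import Vale.Agent.P143.Truth
import Vale.Agent.P143.Process

/-!
P143: the edge states are read off from the observed bits of infinitely many rounds.
-/

namespace Vale.P143

open scoped ENNReal Topology Function
open scoped Classical
open Filter MeasureTheory ProbabilityTheory

noncomputable section

lemma iid_sum {ι ι' : Type*} :
    ((iid ι).prod (iid ι')).map (fun z => Sum.elim z.1 z.2) = iid (ι ⊕ ι') := by
  have hm : Measurable fun z : (ι → ℝ) × (ι' → ℝ) => Sum.elim z.1 z.2 := by
    refine measurable_pi_lambda _ fun i => ?_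
    cases i with
    | inl i => exact (measurable_pi_apply i).comp measurable_fst
    | inr i => exact (measurable_pi_apply i).comp measurable_snd
  rw [iid, iid, iid]
  refine Measure.eq_infinitePi _ fun S t ht => ?_
  rw [Measure.map_apply hm (.pi S.countable_toSet fun i _ => ht i)]
  have : (fun z : (ι → ℝ) × (ι' → ℝ) => Sum.elim z.1 z.2) ⁻¹' Set.pi (S : Set (ι ⊕ ι')) t =
      Set.pi (S.toLeft : Set ι) (fun i => t (Sum.inl i)) ×ˢ
        Set.pi (S.toRight : Set ι') (fun i => t (Sum.inr i)) := by
    ext z
    simp [Set.mem_pi]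
  rw [this, Measure.prod_prod, Measure.infinitePi_pi _ (fun i _ => ht _),
    Measure.infinitePi_pi _ (fun i _ => ht _),
    ← Finset.prod_disjSum S.toLeft S.toRight (fun i => unif (t i))]
  rw [Finset.toLeft_disjSum_toRight]

/-- Interleave two families into one. -/
def pairUp {ι : Type*} (z : (ι → ℝ) × (ι → ℝ)) (p : ι × Bool) : ℝ :=
  if p.2 then z.2 p.1 else z.1 p.1

lemma iid_pairUp {ι : Type*} : ((iid ι).prod (iid ι)).map pairUp = iid (ι × Bool) := by
  let g : ι × Bool → ι ⊕ ι := fun p => if p.2 then Sum.inr p.1 else Sum.inl p.1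
  have hg : Function.Injective g := by
    rintro ⟨i, b⟩ ⟨j, c⟩ h
    cases b <;> cases c <;> simp_all [g]
  have hm : Measurable fun z : (ι → ℝ) × (ι → ℝ) => Sum.elim z.1 z.2 := by
    refine measurable_pi_lambda _ fun i => ?_
    cases i with
    | inl i => exact (measurable_pi_apply i).comp measurable_fst
    | inr i => exact (measurable_pi_apply i).comp measurable_snd
  rw [← iid_map_comp g hg, ← iid_sum,
    Measure.map_map (show Measurable fun x : ι ⊕ ι → ℝ => x ∘ g from
      measurable_pi_lambda _ fun i => measurable_pi_apply _) hm]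
  congr 1
  funext z p
  obtain ⟨i, b⟩ := p
  cases b <;> simp [pairUp, g, Function.comp]

variable {V : Type*}

/-- The signed contribution of round `j` to the readout of the edge `e`. -/
def zterm (G : SimpleGraph V) (U : Slot V → ℝ) (bits : Slot V → Bool) (e : Sym2 V) (j : ℕ) : ℤ :=
  if Obs G U (j, e) then (if bits (j, e) then 1 else -1) else 0

/-- The decision from the observed bits. -/
def readout (G : SimpleGraph V) (U : Slot V → ℝ) (bits : Slot V → Bool) (e : Sym2 V) : Bool :=
  decide (e ∈ G.edgeSet ∧ ∃ N, ∀ n ≥ N, 0 ≤ ∑ j ∈ Finset.range n, zterm G U bits e j)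

lemma readout_congr (G : SimpleGraph V) (U : Slot V → ℝ) {b b' : Slot V → Bool}
    (h : ∀ s, Obs G U s → b s = b' s) : readout G U b = readout G U b' := by
  funext e
  have : ∀ j, zterm G U b e j = zterm G U b' e j := fun j => by
    unfold zterm
    by_cases ho : Obs G U (j, e)
    · rw [if_pos ho, if_pos ho, h _ ho]
    · rw [if_neg ho, if_neg ho]
  simp only [readout, this]

/-- The output computed from time and value labels. -/
def outFn (G : SimpleGraph V) (U Vl : Slot V → ℝ) : Sym2 V → Bool :=
  readout G U (sol G U Vl)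

variable [Countable V]

lemma measurable_readout {Z : Type*} [MeasurableSpace Z] {Gf : Z → SimpleGraph V}
    {Uf : Z → Slot V → ℝ} {Bf : Z → Slot V → Bool}
    (hG : Measurable Gf) (hU : Measurable Uf) (hB : Measurable Bf) :
    Measurable fun z => readout (Gf z) (Uf z) (Bf z) := by
  refine measurable_pi_lambda _ fun e => measurable_to_bool ?_
  have hz : ∀ j, Measurable fun z => zterm (Gf z) (Uf z) (Bf z) e j := fun j =>
    Measurable.ite (measurableSet_obs hG hU (j, e))
      ((measurable_of_countable fun b : Bool => if b then (1 : ℤ) else -1).comp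
        ((measurable_pi_apply ((j, e) : Slot V)).comp hB)) measurable_const
  have : (fun z => readout (Gf z) (Uf z) (Bf z) e) ⁻¹' {true} =
      (Gf ⁻¹' {G | e ∈ G.edgeSet}) ∩ ⋃ N, ⋂ n ≥ N,
        {z | 0 ≤ ∑ j ∈ Finset.range n, zterm (Gf z) (Uf z) (Bf z) e j} := by
    ext z; simp [readout]
  rw [this]
  refine (hG ?_).inter (MeasurableSet.iUnion fun N => MeasurableSet.iInter fun n =>
    MeasurableSet.iInter fun _ =>
      measurableSet_le measurable_const (Finset.measurable_sum _ fun j _ => hz j))
  induction e using Sym2.ind with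
  | h a b =>
    show MeasurableSet {G : SimpleGraph V | G.Adj a b}
    refine measurableSet_setOfPred.2 ?_
    fun_prop

lemma measurable_outFn {Z : Type*} [MeasurableSpace Z] {Gf : Z → SimpleGraph V}
    {Uf Vf : Z → Slot V → ℝ} (hG : Measurable Gf) (hU : Measurable Uf) (hV : Measurable Vf) :
    Measurable fun z => outFn (Gf z) (Uf z) (Vf z) :=
  measurable_readout hG hU (measurable_sol hG hU hV)

/-- The signed observation of one round given the edge state. -/
def obsVal (x : Bool) (w : ℝ × ℝ) : ℝ :=
  if w.1 < 1 / 2 then (if w.2 < (if x then (3 : ℝ) / 4 else 1 / 4) then 1 else -1) else 0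

lemma measurable_obsVal (x : Bool) : Measurable (obsVal x) :=
  Measurable.ite (measurableSet_lt measurable_fst measurable_const)
    (Measurable.ite (measurableSet_lt measurable_snd measurable_const) measurable_const
      measurable_const) measurable_const

lemma integral_obsVal (x : Bool) :
    ∫ w, obsVal x w ∂(unif.prod unif) = if x then 1 / 4 else -(1 / 4) := by
  set c : ℝ := if x then (3 : ℝ) / 4 else 1 / 4 with hc
  have hfun : (fun w => obsVal x w) = fun w : ℝ × ℝ =>
      (Set.Iio (1 / 2 : ℝ)).indicator (1 : ℝ → ℝ) w.1 * (2 * (Set.Iio c).indicator (1 : ℝ → ℝ) w.2 - 1) := by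
    funext w
    unfold obsVal
    rw [← hc]
    by_cases h1 : w.1 < 1 / 2
    · rw [Set.indicator_of_mem (show w.1 ∈ Set.Iio (1 / 2 : ℝ) from h1), Pi.one_apply, if_pos h1,
        one_mul]
      by_cases h2 : w.2 < c
      · rw [Set.indicator_of_mem (show w.2 ∈ Set.Iio c from h2), Pi.one_apply, if_pos h2]
        norm_num
      · rw [Set.indicator_of_notMem (show w.2 ∉ Set.Iio c from h2), if_neg h2]
        norm_num
    · rw [Set.indicator_of_notMem (show w.1 ∉ Set.Iio (1 / 2 : ℝ) from h1), if_neg h1, zero_mul]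
  have hint : ∀ d : ℝ, Integrable ((Set.Iio d).indicator (1 : ℝ → ℝ)) unif := fun d =>
    (integrable_const (1 : ℝ)).indicator measurableSet_Iio
  have hval : ∀ d : ℝ, 0 ≤ d → d ≤ 1 → ∫ r, (Set.Iio d).indicator (1 : ℝ → ℝ) r ∂unif = d := by
    intro d h0 h1
    rw [integral_indicator_one measurableSet_Iio, measureReal_def,
      show unif (Set.Iio d) = ENNReal.ofReal d from unif_lt d h0 h1, ENNReal.toReal_ofReal h0]
  rw [hfun, integral_prod_mul (fun r => (Set.Iio (1 / 2 : ℝ)).indicator (1 : ℝ → ℝ) r)
    (fun r => 2 * (Set.Iio c).indicator (1 : ℝ → ℝ) r - 1),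
    integral_sub ((hint c).const_mul 2) (integrable_const _), integral_const_mul,
    hval _ (by norm_num) (by norm_num),
    hval c (by rw [hc]; split_ifs <;> norm_num) (by rw [hc]; split_ifs <;> norm_num)]
  cases x <;> simp [hc] <;> norm_num

theorem ae_average (e : Sym2 V) (x : Bool) :
    ∀ᵐ z ∂(iid (Slot V)).prod (iid (Slot V)),
      Tendsto (fun n : ℕ => (∑ j ∈ Finset.range n, obsVal x (z.1 (j, e), z.2 (j, e))) / n) atTop
        (𝓝 (if x then 1 / 4 else -(1 / 4))) := by
  let X : ℕ → (Slot V × Bool → ℝ) → ℝ := fun j a => obsVal x (a ((j, e), false), a ((j, e), true))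
  have hpairm : ∀ j : ℕ, Measurable fun a : Slot V × Bool → ℝ =>
      (a ((j, e), false), a ((j, e), true)) := fun j =>
    (measurable_pi_apply _).prodMk (measurable_pi_apply _)
  have hXm : ∀ j, Measurable (X j) := fun j => (measurable_obsVal x).comp (hpairm j)
  have hlaw : ∀ j, (iid (Slot V × Bool)).map (fun a => (a ((j, e), false), a ((j, e), true))) =
      unif.prod unif := by
    intro j
    refine (Measure.prod_eq fun A B hA hB => ?_).symm
    rw [Measure.map_apply (hpairm j) (hA.prod hB)]
    have : (fun a : Slot V × Bool → ℝ => (a ((j, e), false), a ((j, e), true))) ⁻¹' (A ×ˢ B) =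
        Set.pi (({((j, e), false), ((j, e), true)} : Finset (Slot V × Bool)) : Set (Slot V × Bool))
          (fun p => if p.2 then B else A) := by
      ext a
      simp [Set.mem_pi]
    rw [this, iid, Measure.infinitePi_pi _ (fun p _ => by split_ifs <;> assumption)]
    rw [Finset.prod_pair (by simp)]
    simp
  have hindep0 : iIndepFun (fun (p : Slot V × Bool) (a : Slot V × Bool → ℝ) => a p)
      (iid (Slot V × Bool)) :=
    iIndepFun_infinitePi (P := fun _ : Slot V × Bool => unif) (X := fun _ => (id : ℝ → ℝ))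
      fun _ => measurable_id
  have hindep : Pairwise ((fun f g => IndepFun f g (iid (Slot V × Bool))) on X) := by
    intro j j' hj
    have hne : ∀ b b' : Bool, (((j, e), b) : Slot V × Bool) ≠ ((j', e), b') := fun b b' h =>
      hj (Prod.ext_iff.1 (Prod.ext_iff.1 h).1).1
    exact (hindep0.indepFun_prodMk_prodMk (fun p => measurable_pi_apply p) _ _ _ _
      (hne _ _) (hne _ _) (hne _ _) (hne _ _)).comp (measurable_obsVal x) (measurable_obsVal x)
  have hident : ∀ j, IdentDistrib (X j) (X 0) (iid (Slot V × Bool)) (iid (Slot V × Bool)) := by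
    intro j
    refine IdentDistrib.comp ⟨(hpairm j).aemeasurable, (hpairm 0).aemeasurable, ?_⟩
      (measurable_obsVal x)
    rw [hlaw, hlaw]
  have hint : Integrable (X 0) (iid (Slot V × Bool)) := by
    refine Integrable.of_bound (hXm 0).aestronglyMeasurable 1 (Eventually.of_forall fun a => ?_)
    simp only [X, obsVal, Real.norm_eq_abs]
    split_ifs <;> norm_num
  have hmean : ∫ a, X 0 a ∂iid (Slot V × Bool) = if x then 1 / 4 else -(1 / 4) := by
    rw [← integral_obsVal x, ← hlaw 0,
      integral_map (hpairm 0).aemeasurable (measurable_obsVal x).aestronglyMeasurable]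
  have hslln := strong_law_ae_real X hint hindep hident
  rw [hmean, ← iid_pairUp] at hslln
  have hpm : Measurable (pairUp (ι := Slot V)) := measurable_pi_lambda _ fun p => by
    unfold pairUp
    split_ifs
    · exact (measurable_pi_apply _).comp measurable_snd
    · exact (measurable_pi_apply _).comp measurable_fst
  filter_upwards [ae_of_ae_map hpm.aemeasurable hslln] with z hz
  simpa [X, pairUp] using hz

theorem ae_readout (G : SimpleGraph V) (hG : ∀ v, (G.neighborSet v).Finite) :
    ∀ᵐ z ∂(iid (Slot V)).prod (iid (Slot V)), ∀ (x : Sym2 V → Bool), ∀ e ∈ G.edgeSet,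
      readout G z.1 (bitsOf x z.2) e = x e := by
  have h : ∀ᵐ z ∂(iid (Slot V)).prod (iid (Slot V)), ∀ (e : Sym2 V) (x : Bool),
      Tendsto (fun n : ℕ => (∑ j ∈ Finset.range n, obsVal x (z.1 (j, e), z.2 (j, e))) / n) atTop
        (𝓝 (if x then 1 / 4 else -(1 / 4))) := by
    simp only [ae_all_iff]
    exact fun e x => ae_average e x
  filter_upwards [h] with z hz x e he
  obtain ⟨j₀, hj₀⟩ : ∃ j₀, ∀ j ≥ j₀, InClass G j e := by
    induction e using Sym2.ind with
    | h a b =>
      refine ⟨max (hG a).toFinset.card (hG b).toFinset.card, fun j hj => ⟨he, fun v hv => ?_⟩⟩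
      rcases Sym2.mem_iff.1 hv with rfl | rfl
      · rw [(hG v).encard_eq_coe_toFinset_card]
        exact_mod_cast (le_max_left _ _).trans hj
      · rw [(hG v).encard_eq_coe_toFinset_card]
        exact_mod_cast (le_max_right _ _).trans hj
  set S : ℕ → ℝ := fun n => ∑ j ∈ Finset.range n, (zterm G z.1 (bitsOf x z.2) e j : ℝ)
  set T : ℕ → ℝ := fun n => ∑ j ∈ Finset.range n, obsVal (x e) (z.1 (j, e), z.2 (j, e))
  have hterm : ∀ j ≥ j₀, (zterm G z.1 (bitsOf x z.2) e j : ℝ) =
      obsVal (x e) (z.1 (j, e), z.2 (j, e)) := by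
    intro j hj
    have hiff : Obs G z.1 (j, e) ↔ z.1 (j, e) < 1 / 2 :=
      ⟨fun h => h.2, fun h => ⟨hj₀ j hj, h⟩⟩
    simp only [zterm, obsVal, bitsOf, hiff, decide_eq_true_eq]
    split_ifs <;> simp
  have hconst : ∀ n ≥ j₀, S n - T n = S j₀ - T j₀ := by
    intro n hn
    induction n, hn using Nat.le_induction with
    | base => rfl
    | succ n hn ih =>
      simp only [S, T, Finset.sum_range_succ, hterm n hn] at ih ⊢
      linarith
  have hlim : Tendsto (fun n : ℕ => S n / n) atTop (𝓝 (if x e then 1 / 4 else -(1 / 4))) := by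
    have h1 : Tendsto (fun n : ℕ => T n / n + (S j₀ - T j₀) / n) atTop
        (𝓝 ((if x e then 1 / 4 else -(1 / 4)) + 0)) :=
      (hz e (x e)).add (tendsto_natCast_atTop_atTop.const_div_atTop _)
    rw [add_zero] at h1
    refine h1.congr' (eventually_atTop.2 ⟨j₀, fun n hn => ?_⟩)
    rw [← hconst n hn]; ring
  have hiff : (∃ N, ∀ n ≥ N, 0 ≤ ∑ j ∈ Finset.range n, zterm G z.1 (bitsOf x z.2) e j) ↔
      x e = true := by
    have hS : ∀ n, (0 ≤ ∑ j ∈ Finset.range n, zterm G z.1 (bitsOf x z.2) e j) ↔ 0 ≤ S n :=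
      fun n => by
        simp only [S]
        rw [← Int.cast_sum]
        exact (Int.cast_nonneg_iff).symm
    simp only [hS]
    constructor
    · rintro ⟨N, hN⟩
      by_contra hx
      rw [if_neg hx] at hlim
      obtain ⟨M, hM⟩ := eventually_atTop.1 (hlim.eventually (eventually_lt_nhds
        (by norm_num : -(1 / 4 : ℝ) < 0)))
      have h1 := hM (max (max N M) 1) ((le_max_right N M).trans (le_max_left _ _))
      have h2 := hN (max (max N M) 1) ((le_max_left N M).trans (le_max_left _ _))
      exact not_le.2 h1 (div_nonneg h2 (Nat.cast_nonneg _))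
    · intro hx
      rw [if_pos hx] at hlim
      obtain ⟨M, hM⟩ := eventually_atTop.1 (hlim.eventually (eventually_gt_nhds
        (by norm_num : (0 : ℝ) < 1 / 4)))
      refine ⟨M, fun n hn => ?_⟩
      rcases div_pos_iff.1 (hM n hn) with ⟨h1, -⟩ | ⟨-, h2⟩
      · exact h1.le
      · exact absurd h2 (not_lt.2 (Nat.cast_nonneg _))
  cases hx : x e <;> simp [readout, he, hiff, hx]

end

end Vale.P143
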