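import Vale.Agent.P143.Compare
import Vale.Agent.P143.Readout
import Vale.Agent.P143.Labels

/-!
P143: the free uniform spanning forest is a factor of i.i.d. labels.
-/

namespace Vale.P143

open scoped ENNReal Topology
open scoped Classical
open Filter MeasureTheory

noncomputable section

variable {V : Type*} [Countable V]

omit [Countable V] in
lemma spanningCoe_edgeSet {G : SimpleGraph V} (H : G.Subgraph) :
    H.spanningCoe.edgeSet = H.edgeSet := by
  ext e
  induction e using Sym2.ind with
  | h a b => rfl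

omit [Countable V] in
lemma edgeSet_finite_of_verts {G : SimpleGraph V} (H : G.Subgraph) (h : H.verts.Finite) :
    H.spanningCoe.edgeSet.Finite := by
  refine Set.Finite.subset ((h.prod h).image fun p : V × V => s(p.1, p.2)) ?_
  intro e he
  induction e using Sym2.ind with
  | h a b => exact ⟨(a, b), ⟨H.edge_vert he, H.edge_vert (SimpleGraph.Subgraph.Adj.symm he)⟩, rfl⟩

omit [Countable V] in
lemma isSpanningTree_iff {G : SimpleGraph V} {H : G.Subgraph} (hc : H.Connected)
    (T : Finset (Sym2 V)) : IsSpanningTree H T ↔ IsSpanForest H.spanningCoe T := by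
  constructor
  · rintro ⟨h1, h2, h3⟩
    exact ⟨spanningCoe_edgeSet H ▸ h1, h2,
      fun a b hab => h3 a (H.edge_vert hab) b (H.edge_vert hab.symm)⟩
  · rintro ⟨h1, h2, h3⟩
    refine ⟨spanningCoe_edgeSet H ▸ h1, h2, fun u hu v hv => ?_⟩
    obtain ⟨p⟩ : H.coe.Reachable ⟨u, hu⟩ ⟨v, hv⟩ := hc.preconnected _ _
    suffices h : ∀ {x y : H.verts}, H.coe.Walk x y → (edgeGraph T).Reachable x.1 y.1 from h p
    intro x y q
    induction q with
    | nil => exact SimpleGraph.Reachable.refl _
    | cons hadj _ ih => exact (h3 _ _ hadj).trans ih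

theorem exists_exhaustion (G : SimpleGraph V) (hc : G.Connected) :
    ∃ H : ℕ → G.Subgraph, IsExhaustion G H := by
  obtain ⟨v₀⟩ := hc.nonempty
  let H : ℕ → G.Subgraph := fun n =>
    { verts := {v | (restrGraph G n).Reachable v₀ v}
      Adj := fun a b => (restrGraph G n).Adj a b ∧ (restrGraph G n).Reachable v₀ a
      adj_sub := fun h => (restrGraph_adj.1 h.1).2
      edge_vert := fun h => h.2
      symm := ⟨fun _ _ h => ⟨h.1.symm, h.2.trans h.1.reachable⟩⟩ }
  have hmono : ∀ {m n : ℕ}, m ≤ n → restrGraph G m ≤ restrGraph G n := fun h =>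
    (canonExh G).exh.mono h
  refine ⟨H, fun m n hmn => ⟨fun v hv => hv.mono (hmono hmn),
    fun a b hab => ⟨hmono hmn hab.1, hab.2.mono (hmono hmn)⟩⟩, fun n => ⟨?_, ?_⟩, fun v => ?_, ?_⟩
  · refine ((Set.finite_singleton v₀).union
      (((Set.finite_Iio n).preimage vnum_injective.injOn))).subset fun v hv => ?_
    have key : ∀ {x y : V}, (restrGraph G n).Walk x y → x = y ∨ vnum y < n := by
      intro x y q
      induction q with
      | nil => exact Or.inl rfl
      | cons hadj _ ih =>
        rcases ih with rfl | h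
        · exact Or.inr (restrGraph_adj.1 hadj).1.2
        · exact Or.inr h
    obtain ⟨q⟩ := hv
    rcases key q with h | h
    · exact Or.inl h.symm
    · exact Or.inr h
  · rw [SimpleGraph.Subgraph.connected_iff]
    refine ⟨⟨fun x y => ?_⟩, ⟨v₀, SimpleGraph.Reachable.refl v₀⟩⟩
    have key : ∀ {a b : V}, (restrGraph G n).Walk a b → ∀ (ha : a ∈ (H n).verts)
        (hb : b ∈ (H n).verts), (H n).coe.Reachable ⟨a, ha⟩ ⟨b, hb⟩ := by
      intro a b q
      induction q with
      | nil => intro ha hb; exact SimpleGraph.Reachable.refl _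
      | @cons a c b hadj q ih =>
        intro ha hb
        have hc' : c ∈ (H n).verts := ha.trans hadj.reachable
        exact (SimpleGraph.Adj.reachable (show (H n).coe.Adj ⟨a, ha⟩ ⟨c, hc'⟩ from
          ⟨hadj, ha⟩)).trans (ih hc' hb)
    obtain ⟨q⟩ := (x.2 : (restrGraph G n).Reachable v₀ x.1).symm.trans y.2
    exact key q x.2 y.2
  · obtain ⟨p⟩ := hc.preconnected v₀ v
    obtain ⟨n, hn⟩ := (canonExh G).exh.exists_walk p
    refine ⟨n, ?_⟩
    show (restrGraph G n).Reachable v₀ v
    have key : ∀ {x y : V} (q : G.Walk x y),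
        (∀ d ∈ q.darts, (restrGraph G n).Adj d.fst d.snd) → (restrGraph G n).Reachable x y := by
      intro x y q
      induction q with
      | nil => intro _; exact SimpleGraph.Reachable.refl _
      | @cons x z y hadj q ih =>
        intro hq
        exact (hq ⟨⟨x, z⟩, hadj⟩ (by simp)).reachable.trans (ih fun d hd => hq d (by simp [hd]))
    exact key p hn
  · intro e he
    induction e using Sym2.ind with
    | h a b =>
      obtain ⟨p⟩ := hc.preconnected v₀ a
      obtain ⟨n, hn⟩ := (canonExh G).exh.exists_walk p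
      obtain ⟨m, hm⟩ := (canonExh G).exh.cover a b he
      refine ⟨max n m, ?_⟩
      show (restrGraph G (max n m)).Adj a b ∧ (restrGraph G (max n m)).Reachable v₀ a
      refine ⟨hmono (le_max_right _ _) hm, ?_⟩
      have key : ∀ {x y : V} (q : G.Walk x y),
          (∀ d ∈ q.darts, (restrGraph G n).Adj d.fst d.snd) → (restrGraph G n).Reachable x y := by
        intro x y q
        induction q with
        | nil => intro _; exact SimpleGraph.Reachable.refl _
        | @cons x z y hadj q ih =>
          intro hq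
          exact (hq ⟨⟨x, z⟩, hadj⟩ (by simp)).reachable.trans (ih fun d hd => hq d (by simp [hd]))
      exact (key p hn).mono (hmono (le_max_left _ _))

theorem isFUSF_fusf (G : SimpleGraph V) (hc : G.Connected) : IsFUSF G (fusf G) := by
  refine ⟨inferInstance, (isFree_fusf G).1, exists_exhaustion G hc, ?_⟩
  rintro H ⟨hmono, hfin, -, hedge⟩ S b
  let E : FinExh G :=
    { seq := fun n => (H n).spanningCoe
      exh :=
        { mono := fun m n hmn a c hac => (hmono hmn).2 hac
          le := fun n a c hac => (H n).adj_sub hac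
          cover := fun a c hac => hedge s(a, c) hac }
      fin := fun n => edgeSet_finite_of_verts (H n) (hfin n).1 }
  set f : (Sym2 V → Bool) → ℝ := fun x => ∏ e ∈ S, (if x e = b e then (1 : ℝ) else 0)
  have hf : Continuous f := continuous_finsetProd _ fun e _ =>
    (continuous_of_discreteTopology (f := fun t : Bool => if t = b e then (1 : ℝ) else 0)).comp
      (continuous_apply e)
  have hset : MeasurableSet {x : Sym2 V → Bool | ∀ e ∈ S, x e = b e} := by
    have : {x : Sym2 V → Bool | ∀ e ∈ S, x e = b e} =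
        ⋂ e ∈ S, (fun x : Sym2 V → Bool => x e) ⁻¹' {b e} := by
      ext x; simp
    rw [this]
    exact Finset.measurableSet_biInter S fun e _ => measurable_pi_apply e (measurableSet_singleton _)
  have hint : ∫ x, f x ∂fusf G = (fusf G {x | ∀ e ∈ S, x e = b e}).toReal := by
    rw [← measureReal_def, ← integral_indicator_one hset]
    refine integral_congr_ae (Eventually.of_forall fun x => ?_)
    simp only [f]
    by_cases h : ∀ e ∈ S, x e = b e
    · rw [Set.indicator_of_mem (show x ∈ {x | ∀ e ∈ S, x e = b e} from h), Pi.one_apply]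
      exact Finset.prod_eq_one fun e he => if_pos (h e he)
    · rw [Set.indicator_of_notMem (show x ∉ {x | ∀ e ∈ S, x e = b e} from h)]
      push Not at h
      obtain ⟨e, he, hx⟩ := h
      exact Finset.prod_eq_zero he (if_neg hx)
  have hlim := tendsto_treeAvg E hf
  rw [hint] at hlim
  refine hlim.congr fun n => ?_
  have h1 : {T | IsSpanningTree (H n) T} = ↑(spanForests (E.seq n) (E.fin n)) := by
    ext T
    simp [mem_spanForests, isSpanningTree_iff (hfin n).2, E]
  have h2 : {T | IsSpanningTree (H n) T ∧ ∀ e ∈ S, (e ∈ T ↔ b e = true)} =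
      ↑((spanForests (E.seq n) (E.fin n)).filter fun T => ∀ e ∈ S, (e ∈ T ↔ b e = true)) := by
    ext T
    simp [mem_spanForests, isSpanningTree_iff (hfin n).2, E]
  rw [h1, h2, Set.ncard_coe_finset, Set.ncard_coe_finset, treeAvg]
  congr 1
  rw [← Finset.sum_boole]
  refine Finset.sum_congr rfl fun T _ => ?_
  have he : ∀ e, treeInd T e = b e ↔ (e ∈ T ↔ b e = true) := fun e => by
    cases b e <;> simp [treeInd]
  simp only [f, Finset.prod_boole, he]
  split_ifs <;> rfl

/-- The full world, with the edge states. -/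
def fullWorld (G : SimpleGraph V) :
    Measure ((Slot V → ℝ) × ((Sym2 V → Bool) × (Slot V → ℝ)) × (Slot V → ℝ)) :=
  (iid (Slot V)).prod (((fusf G).prod (iid (Slot V))).prod (iid (Slot V)))

theorem law_outFn {μ : Measure (SimpleGraph V)} [IsProbabilityMeasure μ] {o : V}
    (hμ : MassTransport μ o) (hlf : ∀ᵐ G ∂μ, ∀ v, (G.neighborSet v).Finite) :
    ∀ᵐ G ∂μ, ((iid (Slot V)).prod (iid (Slot V))).map (fun z => outFn G z.1 z.2) = fusf G := by
  filter_upwards [ae_sol_eq_bits hμ, hlf] with G hsol hG
  have : IsProbabilityMeasure (fullWorld G) := by unfold fullWorld; infer_instance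
  set Ψ : (Slot V → ℝ) × ((Sym2 V → Bool) × (Slot V → ℝ)) × (Slot V → ℝ) →
      (Slot V → ℝ) × (Slot V → Bool) × (Slot V → ℝ) :=
    fun z => (z.1, bitsOf z.2.1.1 z.2.1.2, z.2.2) with hΨdef
  have hΨ : Measurable Ψ :=
    measurable_fst.prodMk ((measurable_bitsOf.comp (measurable_fst.comp measurable_snd)).prodMk
      (measurable_snd.comp measurable_snd))
  have hworld : world G = (fullWorld G).map Ψ := by
    rw [world, inner', bitLaw, fullWorld]
    have h1 := Measure.map_prod_map ((fusf G).prod (iid (Slot V))) (iid (Slot V))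
      measurable_bitsOf measurable_id
    rw [Measure.map_id] at h1
    rw [h1]
    have h2 := Measure.map_prod_map (iid (Slot V)) (((fusf G).prod (iid (Slot V))).prod (iid (Slot V)))
      measurable_id (measurable_bitsOf.prodMap measurable_id)
    rw [Measure.map_id] at h2
    rw [h2]
    rfl
  let K : (Slot V → ℝ) × (Slot V → Bool) × (Slot V → ℝ) → (Slot V → ℝ) × (Slot V → ℝ) :=
    fun w => (w.1, vOf G w.1 w.2.1 w.2.2)
  have hK : Measurable K :=
    measurable_fst.prodMk (measurable_vOf_joint.comp (measurable_const.prodMk measurable_id))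
  have hout : Measurable fun z : (Slot V → ℝ) × (Slot V → ℝ) => outFn G z.1 z.2 :=
    measurable_outFn (Gf := fun _ => G) measurable_const measurable_fst measurable_snd
  have hsol' : ∀ᵐ z ∂fullWorld G, ∀ s : Slot V, Obs G z.1 s →
      sol G z.1 (vOf G z.1 (bitsOf z.2.1.1 z.2.1.2) z.2.2) s = bitsOf z.2.1.1 z.2.1.2 s := by
    rw [hworld] at hsol
    exact ae_of_ae_map hΨ.aemeasurable hsol
  have hread : ∀ᵐ z ∂fullWorld G, ∀ e ∈ G.edgeSet,
      readout G z.1 (bitsOf z.2.1.1 z.2.1.2) e = z.2.1.1 e := by
    have hproj : MeasurePreserving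
        (fun z : (Slot V → ℝ) × ((Sym2 V → Bool) × (Slot V → ℝ)) × (Slot V → ℝ) => (z.1, z.2.1.2))
        (fullWorld G) ((iid (Slot V)).prod (iid (Slot V))) := by
      unfold fullWorld
      exact (MeasurePreserving.id _).prod ((measurePreserving_snd).comp measurePreserving_fst)
    filter_upwards [hproj.quasiMeasurePreserving.ae (ae_readout G hG)] with z hz e he
    exact hz z.2.1.1 e he
  have hnon : ∀ᵐ z ∂fullWorld G, ∀ e, e ∉ G.edgeSet → z.2.1.1 e = false := by
    have hx : ∀ᵐ x ∂fusf G, ∀ e, e ∉ G.edgeSet → x e = false := by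
      simp only [ae_all_iff]
      intro e he
      rw [ae_iff]
      simpa using (isFree_fusf G).1 e he
    have hproj : MeasurePreserving
        (fun z : (Slot V → ℝ) × ((Sym2 V → Bool) × (Slot V → ℝ)) × (Slot V → ℝ) => z.2.1.1)
        (fullWorld G) (fusf G) := by
      unfold fullWorld
      exact (measurePreserving_fst.comp measurePreserving_fst).comp measurePreserving_snd
    exact hproj.quasiMeasurePreserving.ae hx
  have heq : ∀ᵐ z ∂fullWorld G, outFn G (K (Ψ z)).1 (K (Ψ z)).2 = z.2.1.1 := by
    filter_upwards [hsol', hread, hnon] with z h1 h2 h3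
    show readout G z.1 (sol G z.1 (vOf G z.1 (bitsOf z.2.1.1 z.2.1.2) z.2.2)) = z.2.1.1
    rw [readout_congr G z.1 h1]
    funext e
    by_cases he : e ∈ G.edgeSet
    · exact h2 e he
    · rw [h3 e he]
      simp [readout, he]
  calc ((iid (Slot V)).prod (iid (Slot V))).map (fun z => outFn G z.1 z.2)
      = ((world G).map K).map fun z => outFn G z.1 z.2 := by rw [← map_world G]
    _ = (fullWorld G).map fun z => outFn G (K (Ψ z)).1 (K (Ψ z)).2 := by
        rw [hworld, Measure.map_map hK hΨ, Measure.map_map hout (hK.comp hΨ)]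
        rfl
    _ = (fullWorld G).map fun z => z.2.1.1 := Measure.map_congr heq
    _ = fusf G := by
        have hproj : MeasurePreserving
            (fun z : (Slot V → ℝ) × ((Sym2 V → Bool) × (Slot V → ℝ)) × (Slot V → ℝ) => z.2.1.1)
            (fullWorld G) (fusf G) := by
          unfold fullWorld
          exact (measurePreserving_fst.comp measurePreserving_fst).comp measurePreserving_snd
        exact hproj.map_eq

theorem law_factorMap {μ : Measure (SimpleGraph V)} [IsProbabilityMeasure μ] {o : V}
    (hμ : MassTransport μ o) (h : ∀ᵐ G ∂μ, G.Connected ∧ ∀ v, (G.neighborSet v).Finite) :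
    ∀ᵐ G ∂μ, IsFUSF G ((labelLaw V).map fun L => factorMap (G, L)) := by
  filter_upwards [law_outFn hμ (h.mono fun G hG => hG.2), h] with G hlaw hG
  have hpm : Measurable (pairUp (ι := Slot V)) := measurable_pi_lambda _ fun p => by
    unfold pairUp
    split_ifs
    · exact (measurable_pi_apply _).comp measurable_snd
    · exact (measurable_pi_apply _).comp measurable_fst
  have hout : Measurable (outPair G) :=
    measurable_outFn (Gf := fun _ : Slot V × Bool → ℝ => G) measurable_const
      (measurable_pi_lambda _ fun s =>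
        measurable_pi_apply (X := fun _ : Slot V × Bool => ℝ) (s, false))
      (measurable_pi_lambda _ fun s =>
        measurable_pi_apply (X := fun _ : Slot V × Bool => ℝ) (s, true))
  have heq : (labelLaw V).map (fun L => factorMap (G, L)) = fusf G := by
    rw [show labelLaw V = iid V from rfl, map_factorMap G hG.2, ← iid_pairUp,
      Measure.map_map hout hpm, ← hlaw]
    congr 1
  rw [heq]
  exact isFUSF_fusf G hG.1

theorem exists_factor :
    ∃ Φ : SimpleGraph V × (V → ℝ) → Sym2 V → Bool, Measurable Φ ∧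
      (∀ (σ : Equiv.Perm V) (G : SimpleGraph V) (L : V → ℝ) (e : Sym2 V),
        Φ (G.comap σ, L ∘ σ) e = Φ (G, L) (e.map σ)) ∧
      ∀ (μ : Measure (SimpleGraph V)) (o : V), IsProbabilityMeasure μ → MassTransport μ o →
        (∀ᵐ G ∂μ, G.Connected ∧ ∀ v, (G.neighborSet v).Finite) →
        ∀ᵐ G ∂μ, IsFUSF G ((labelLaw V).map fun L => Φ (G, L)) :=
  ⟨factorMap, measurable_factorMap, factorMap_comap, fun _ _ hp hμ h => by
    haveI := hp
    exact law_factorMap hμ h⟩

/-! ### Cayley graphs -/

omit [Countable V] in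
lemma cayleyGraph_adj {Γ : Type*} [Group Γ] (S : Set Γ) (a b : Γ) :
    (cayleyGraph S).Adj a b ↔ a ≠ b ∧ (a⁻¹ * b ∈ S ∨ b⁻¹ * a ∈ S) :=
  SimpleGraph.fromRel_adj _ _ _

omit [Countable V] in
lemma cayleyGraph_comap {Γ : Type*} [Group Γ] (S : Set Γ) (γ : Γ) :
    (cayleyGraph S).comap (Equiv.mulLeft γ) = cayleyGraph S := by
  ext a b
  simp [cayleyGraph_adj, SimpleGraph.comap_adj, mul_assoc]

omit [Countable V] in
lemma cayleyGraph_finite {Γ : Type*} [Group Γ] {S : Set Γ} (hS : S.Finite) (v : Γ) :
    ((cayleyGraph S).neighborSet v).Finite := by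
  refine ((hS.image fun s => v * s).union (hS.image fun s => v * s⁻¹)).subset fun w hw => ?_
  rcases ((cayleyGraph_adj S v w).1 hw).2 with h | h
  · exact Or.inl ⟨_, h, by simp⟩
  · exact Or.inr ⟨_, h, by simp⟩

omit [Countable V] in
lemma cayleyGraph_connected {Γ : Type*} [Group Γ] {S : Set Γ} (hS : Subgroup.closure S = ⊤) :
    (cayleyGraph S).Connected := by
  have hmul : ∀ (γ : Γ) {a b : Γ}, (cayleyGraph S).Reachable a b →
      (cayleyGraph S).Reachable (γ * a) (γ * b) := by
    intro γ a b h
    obtain ⟨p⟩ := h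
    induction p with
    | nil => exact SimpleGraph.Reachable.refl _
    | @cons a c b hadj _ ih =>
      have : ((cayleyGraph S).comap (Equiv.mulLeft γ)).Adj a c := by
        rw [cayleyGraph_comap]; exact hadj
      exact (show (cayleyGraph S).Adj (γ * a) (γ * c) from this).reachable.trans ih
  have h1 : ∀ g : Γ, (cayleyGraph S).Reachable 1 g := by
    intro g
    have hg : g ∈ Subgroup.closure S := hS ▸ Subgroup.mem_top g
    induction hg using Subgroup.closure_induction with
    | mem x hx =>
      by_cases h : (1 : Γ) = x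
      · exact h ▸ SimpleGraph.Reachable.refl _
      · exact SimpleGraph.Adj.reachable ((cayleyGraph_adj S 1 x).2 ⟨h, Or.inl (by simpa using hx)⟩)
    | one => exact SimpleGraph.Reachable.refl _
    | mul x y _ _ hx hy => exact hx.trans (by simpa using hmul x hy)
    | inv x _ hx => exact (by simpa using hmul x⁻¹ hx : (cayleyGraph S).Reachable x⁻¹ 1).symm
  exact SimpleGraph.Connected.mk fun a b => (h1 a).symm.trans (h1 b)

omit [Countable V] in
lemma countable_of_closure {Γ : Type*} [Group Γ] {S : Set Γ} (hfin : S.Finite)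
    (hS : Subgroup.closure S = ⊤) : Countable Γ := by
  have hT : (S ∪ S⁻¹).Countable := hfin.countable.union hfin.inv.countable
  have : Countable ↥(S ∪ S⁻¹) := hT.to_subtype
  have hsurj : Function.Surjective fun l : List ↥(S ∪ S⁻¹) => (l.map Subtype.val).prod := by
    intro g
    have hg : g ∈ (Subgroup.closure S).toSubmonoid := by rw [hS]; trivial
    rw [Subgroup.closure_toSubmonoid] at hg
    obtain ⟨l, hl, hprod⟩ := Submonoid.exists_list_of_mem_closure hg
    refine ⟨l.pmap Subtype.mk hl, ?_⟩
    simp [List.map_pmap, hprod]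
  exact hsurj.countable

theorem cayley_factor (Γ : Type*) [Group Γ] (S : Set Γ) (hfin : S.Finite)
    (hS : Subgroup.closure S = ⊤) :
    ∃ Φ : (Γ → ℝ) → Sym2 Γ → Bool, Measurable Φ ∧
      (∀ (γ : Γ) (U : Γ → ℝ) (e : Sym2 Γ),
        Φ (fun v => U (γ⁻¹ * v)) (e.map fun v => γ * v) = Φ U e) ∧
      IsFUSF (cayleyGraph S) ((labelLaw Γ).map Φ) := by
  haveI := countable_of_closure hfin hS
  obtain ⟨Φ, hm, hequiv, hlaw⟩ := exists_factor (V := Γ)
  refine ⟨fun U => Φ (cayleyGraph S, U), hm.comp (measurable_const.prodMk measurable_id), ?_, ?_⟩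
  · intro γ U e
    have h := hequiv (Equiv.mulLeft γ) (cayleyGraph S) (fun v => U (γ⁻¹ * v)) e
    rw [cayleyGraph_comap] at h
    have hU : (fun v => U (γ⁻¹ * v)) ∘ Equiv.mulLeft γ = U := by
      funext v; simp
    rw [hU] at h
    exact h.symm
  · haveI : MeasurableSingletonClass (SimpleGraph Γ) := ⟨fun G₀ => by
      have : ({G₀} : Set (SimpleGraph Γ)) = ⋂ a, ⋂ b, {G | G.Adj a b ↔ G₀.Adj a b} := by
        ext G
        simp only [Set.mem_singleton_iff, Set.mem_iInter, Set.mem_ofPred_eq]
        exact ⟨fun h a b => by rw [h], fun h => SimpleGraph.ext (funext₂ fun a b => propext (h a b))⟩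
      rw [this]
      refine MeasurableSet.iInter fun a => MeasurableSet.iInter fun b =>
        measurableSet_setOfPred.2 ?_
      fun_prop⟩
    have hmtp : MassTransport (Measure.dirac (cayleyGraph S)) (1 : Γ) := by
      intro f _ hinv
      rw [lintegral_dirac, lintegral_dirac]
      rw [← (Equiv.inv Γ).tsum_eq (fun v => f (cayleyGraph S) v 1)]
      refine tsum_congr fun v => ?_
      have h := hinv (Equiv.mulLeft v⁻¹) (cayleyGraph S) 1 v
      rw [cayleyGraph_comap] at h
      simpa using h
    have h := hlaw (Measure.dirac (cayleyGraph S)) 1 inferInstance hmtp (by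
      rw [ae_dirac_eq, Filter.eventually_pure]
      exact ⟨cayleyGraph_connected hS, cayleyGraph_finite hfin⟩)
    rw [ae_dirac_eq, Filter.eventually_pure] at h
    exact h

end

end Vale.P143
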