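import Vale.Agent.P143.Slots

/-!
P143: the predictive identity for infinitely many past slots and the one step lemma.
-/

namespace Vale.P143

open scoped ENNReal Topology
open scoped Classical
open Filter MeasureTheory

noncomputable section

lemma generateFrom_eval_true {ι : Type*} [Countable ι] :
    (inferInstance : MeasurableSpace (ι → Bool)) = MeasurableSpace.generateFrom
      (Set.range fun S : Finset ι => {x : ι → Bool | ∀ t ∈ S, x t = true}) := by
  have hcyl : ∀ S : Finset ι, MeasurableSet {x : ι → Bool | ∀ t ∈ S, x t = true} := fun S => by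
    have : {x : ι → Bool | ∀ t ∈ S, x t = true} = ⋂ t ∈ S, (fun x => x t) ⁻¹' {true} := by
      ext x; simp
    rw [this]
    exact Finset.measurableSet_biInter S fun t _ => measurable_pi_apply t (measurableSet_singleton _)
  refine le_antisymm ?_ (MeasurableSpace.generateFrom_le ?_)
  · refine iSup_le fun t => ?_
    rintro _ ⟨A, -, rfl⟩
    have h : MeasurableSet[MeasurableSpace.generateFrom
        (Set.range fun S : Finset ι => {x : ι → Bool | ∀ t ∈ S, x t = true})]
        {x : ι → Bool | x t = true} :=
      MeasurableSpace.measurableSet_generateFrom ⟨{t}, by ext x; simp⟩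
    have : (fun x : ι → Bool => x t) ⁻¹' A =
        (if true ∈ A then {x | x t = true} else ∅) ∪
          (if false ∈ A then {x | x t = true}ᶜ else ∅) := by
      ext x
      cases hx : x t <;> by_cases h1 : true ∈ A <;> by_cases h2 : false ∈ A <;> simp [hx, h1, h2]
    rw [this]
    refine MeasurableSet.union ?_ ?_ <;> split_ifs
    · exact h
    · exact @MeasurableSet.empty _ (MeasurableSpace.generateFrom _)
    · exact h.compl
    · exact @MeasurableSet.empty _ (MeasurableSpace.generateFrom _)
  · rintro _ ⟨S, rfl⟩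
    exact hcyl S

lemma ext_of_eval_true {ι : Type*} [Countable ι] {m₁ m₂ : Measure (ι → Bool)} [IsFiniteMeasure m₁]
    (h : ∀ S : Finset ι, m₁ {x | ∀ t ∈ S, x t = true} = m₂ {x | ∀ t ∈ S, x t = true}) :
    m₁ = m₂ := by
  refine ext_of_generate_finite _ generateFrom_eval_true ?_ ?_ (by simpa using h ∅)
  · rintro _ ⟨S, rfl⟩ _ ⟨T, rfl⟩ -
    exact ⟨S ∪ T, by ext x; simp [or_imp, forall_and]⟩
  · rintro _ ⟨S, rfl⟩
    exact h S

lemma measurePreserving_update {ι : Type*} [DecidableEq ι] (s : ι) :
    MeasurePreserving (fun z : (ι → ℝ) × ℝ => Function.update z.1 s z.2)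
      ((iid ι).prod unif) (iid ι) := by
  refine ⟨measurable_update', ?_⟩
  rw [iid]
  refine Measure.eq_infinitePi _ fun S t ht => ?_
  rw [Measure.map_apply measurable_update' (.pi S.countable_toSet fun i _ => ht i)]
  by_cases hs : s ∈ S
  · have : (fun z : (ι → ℝ) × ℝ => Function.update z.1 s z.2) ⁻¹' Set.pi (S : Set ι) t =
        Set.pi (S.erase s : Set ι) t ×ˢ t s := by
      ext z
      simp only [Set.mem_preimage, Set.mem_pi, Finset.mem_coe, Set.mem_prod, Finset.mem_erase]
      constructor
      · intro h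
        refine ⟨fun i hi => ?_, ?_⟩
        · simpa [Function.update_of_ne hi.1] using h i hi.2
        · simpa using h s hs
      · rintro ⟨h1, h2⟩ i hi
        by_cases e : i = s
        · subst e; simpa using h2
        · simpa [Function.update_of_ne e] using h1 i ⟨e, hi⟩
    rw [this, Measure.prod_prod, Measure.infinitePi_pi _ fun i _ => ht i,
      ← Finset.mul_prod_erase S _ hs, mul_comm]
  · have : (fun z : (ι → ℝ) × ℝ => Function.update z.1 s z.2) ⁻¹' Set.pi (S : Set ι) t =
        Set.pi (S : Set ι) t ×ˢ Set.univ := by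
      ext z
      simp only [Set.mem_preimage, Set.mem_pi, Finset.mem_coe, Set.mem_prod, Set.mem_univ, and_true]
      exact forall₂_congr fun i hi => by
        rw [Function.update_of_ne (fun e : i = s => hs (e ▸ hi))]
    rw [this, Measure.prod_prod, Measure.infinitePi_pi _ fun i _ => ht i, measure_univ, mul_one]

lemma lintegral_iid_update {ι : Type*} [DecidableEq ι] (s : ι) {F : (ι → ℝ) → ℝ≥0∞} (hF : Measurable F) :
    ∫⁻ x, F x ∂iid ι = ∫⁻ x, ∫⁻ r, F (Function.update x s r) ∂unif ∂iid ι := by
  have h := (measurePreserving_update s).lintegral_comp hF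
  rw [← h]
  exact lintegral_prod (fun z : (ι → ℝ) × ℝ => F (Function.update z.1 s z.2))
    (hF.comp measurable_update').aemeasurable

lemma iid_map_comp {ι κ : Type*} (g : ι → κ) (hg : Function.Injective g) :
    (iid κ).map (fun x => x ∘ g) = iid ι := by
  have hm : Measurable fun x : κ → ℝ => x ∘ g :=
    measurable_pi_lambda _ fun i => measurable_pi_apply _
  rw [iid, iid]
  refine Measure.eq_infinitePi _ fun S t ht => ?_
  have ht' : ∀ j ∈ S.image g, MeasurableSet (Function.extend g t (fun _ => Set.univ) j) := by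
    intro j hj
    obtain ⟨i, -, rfl⟩ := Finset.mem_image.1 hj
    rw [hg.extend_apply]
    exact ht i
  rw [Measure.map_apply hm (.pi S.countable_toSet fun i _ => ht i)]
  have : (fun x : κ → ℝ => x ∘ g) ⁻¹' Set.pi (S : Set ι) t =
      Set.pi ((S.image g : Finset κ) : Set κ) (Function.extend g t fun _ => Set.univ) := by
    ext x
    simp [Set.mem_pi, hg.extend_apply]
  rw [this, Measure.infinitePi_pi _ ht', Finset.prod_image hg.injOn]
  simp [hg.extend_apply]

lemma ae_unit {ι : Type*} (s : ι) : ∀ᵐ a ∂iid ι, 0 ≤ a s ∧ a s < 1 := by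
  have h : MeasurePreserving (fun a : ι → ℝ => a s) (iid ι) unif := by
    unfold iid; exact measurePreserving_eval_infinitePi _ s
  have h1 : ∀ᵐ r ∂unif, 0 ≤ r ∧ r < 1 := by
    have e : unif = volume.restrict (Set.Ico (0 : ℝ) 1) :=
      (Measure.restrict_congr_set Ico_ae_eq_Icc).symm
    rw [e]
    exact ae_restrict_mem measurableSet_Ico
  exact h.quasiMeasurePreserving.ae h1

lemma iid_eq_zero {ι : Type*} {t t' : ι} (h : t ≠ t') : iid ι {a | a t = a t'} = 0 := by
  have hm : MeasurableSet {a : ι → ℝ | a t = a t'} :=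
    measurableSet_eq_fun (measurable_pi_apply t) (measurable_pi_apply t')
  rw [← lintegral_indicator_one hm, lintegral_iid_update t (measurable_one.indicator hm)]
  have hz : ∀ c : ℝ, unif {c} = 0 := fun c =>
    le_antisymm ((Measure.restrict_apply_le _ _).trans Real.volume_singleton.le) bot_le
  refine le_antisymm (le_of_eq_of_le (lintegral_congr fun x => ?_) lintegral_zero.le) bot_le
  have : (fun r => Set.indicator {a : ι → ℝ | a t = a t'} (1 : (ι → ℝ) → ℝ≥0∞)
      (Function.update x t r)) = Set.indicator {x t'} 1 := by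
    funext r
    simp [Set.indicator, Function.update_of_ne h.symm]
  rw [this, lintegral_indicator_one (measurableSet_singleton _), hz]

variable {V : Type*} [Countable V]

lemma measurableSet_bit (s : Slot V) : MeasurableSet {b : Slot V → Bool | b s = true} :=
  measurableSet_eq_fun (measurable_pi_apply (X := fun _ : Slot V => Bool) s) measurable_const

/-- The bits kept on `P`. -/
def maskBits (P : Set (Slot V)) (bits : Slot V → Bool) : Slot V → Bool :=
  fun t => if t ∈ P then bits t else false

lemma measurable_maskBits (P : Set (Slot V)) : Measurable (maskBits P) :=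
  measurable_pi_lambda _ fun t => by
    unfold maskBits
    split_ifs
    · exact measurable_pi_apply t
    · exact measurable_const

theorem predict (G : SimpleGraph V) {P : Set (Slot V)} {k : ℕ} (hP : ∀ t ∈ P, t.1 ≤ k)
    {s : Slot V} (hsP : s ∉ P) (he : s.2 ∈ G.edgeSet) {h : (Slot V → Bool) → ℝ≥0∞}
    (hm : Measurable h) (hd : DependsOn h P) :
    ∫⁻ b in {b | b s = true}, h b ∂bitLaw G =
      ∫⁻ b, ENNReal.ofReal (pval G (yv k (fun t => t ∈ P) b) s.2) * h b ∂bitLaw G := by
  set p : (Slot V → Bool) → ℝ := fun b => pval G (yv k (fun t => t ∈ P) b) s.2 with hp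
  have hpm : Measurable p := measurable_pval_yv G k _ s.2
  have hp0 : ∀ b, 0 ≤ p b := fun b => by
    have := pval_mem G (yv k (fun t => t ∈ P) b) he
    simp only [p]; linarith [this.1]
  have hp1 : ∀ b, p b ≤ 1 := fun b => by
    have := pval_mem G (yv k (fun t => t ∈ P) b) he
    simp only [p]; linarith [this.2]
  set m₁ := ((bitLaw G).restrict {b | b s = true}).map (maskBits P) with hm₁
  set m₂ := ((bitLaw G).withDensity fun b => ENNReal.ofReal (p b)).map (maskBits P) with hm₂
  have hm12 : m₁ = m₂ := by
    refine ext_of_eval_true fun S => ?_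
    have hset : MeasurableSet {x : Slot V → Bool | ∀ t ∈ S, x t = true} :=
      measurableSet_patternSet S fun _ => true
    rw [hm₁, hm₂, Measure.map_apply (measurable_maskBits P) hset,
      Measure.map_apply (measurable_maskBits P) hset]
    by_cases hS : (S : Set (Slot V)) ⊆ P
    · have hpre : maskBits P ⁻¹' {x | ∀ t ∈ S, x t = true} = patternSet S fun _ => true := by
        ext b
        simp only [Set.mem_preimage, patternSet, Set.mem_ofPred_eq, maskBits]
        exact forall₂_congr fun t ht => by rw [if_pos (hS ht)]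
      rw [hpre, Measure.restrict_apply (measurableSet_patternSet _ _),
        withDensity_apply _ (measurableSet_patternSet _ _)]
      have key := predict_cylinder G hP hsP he S hS
      rw [setIntegral_indicator (measurableSet_patternSet _ _)] at key
      simp only [Pi.one_apply, setIntegral_const, smul_eq_mul, mul_one] at key
      have hint : Integrable (fun b => p b) (bitLaw G) :=
        Integrable.of_bound hpm.aestronglyMeasurable 1 (Eventually.of_forall fun b => by
          rw [Real.norm_eq_abs, abs_of_nonneg (hp0 b)]; exact hp1 b)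
      rw [← ofReal_integral_eq_lintegral_ofReal hint.integrableOn
          (Eventually.of_forall fun b => hp0 b),
        ← integral_indicator (measurableSet_patternSet _ _), Set.inter_comm,
        ← ofReal_measureReal (measure_ne_top _ _)]
      congr 1
      rw [key]
      refine integral_congr_ae (Eventually.of_forall fun b => ?_)
      by_cases hb : b ∈ patternSet S (fun _ => true) <;> simp [Set.indicator, hb, p]
    · obtain ⟨t, ht, htP⟩ := Set.not_subset.1 hS
      have hpre : maskBits P ⁻¹' {x | ∀ t ∈ S, x t = true} = ∅ := by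
        ext b
        simp only [Set.mem_preimage, Set.mem_ofPred_eq, Set.mem_empty_iff_false, iff_false]
        intro hb
        have := hb t (Finset.mem_coe.1 ht)
        simp [maskBits, htP] at this
      rw [hpre, measure_empty, measure_empty]
  have hfac : ∀ b, h (maskBits P b) = h b := fun b => hd fun t ht => by simp [maskBits, ht]
  calc ∫⁻ b in {b | b s = true}, h b ∂bitLaw G
      = ∫⁻ b, h b ∂m₁ := by
        rw [hm₁, lintegral_map hm (measurable_maskBits P)]
        simp only [hfac]
    _ = ∫⁻ b, h b ∂m₂ := by rw [hm12]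
    _ = _ := by
        rw [hm₂, lintegral_map hm (measurable_maskBits P)]
        simp only [hfac]
        rw [lintegral_withDensity_eq_lintegral_mul _ hpm.ennreal_ofReal hm]
        rfl

theorem predict_compl (G : SimpleGraph V) {P : Set (Slot V)} {k : ℕ} (hP : ∀ t ∈ P, t.1 ≤ k)
    {s : Slot V} (hsP : s ∉ P) (he : s.2 ∈ G.edgeSet) {h : (Slot V → Bool) → ℝ≥0∞}
    (hm : Measurable h) (hd : DependsOn h P) (hle : ∀ b, h b ≤ 1) :
    ∫⁻ b in {b | b s = true}ᶜ, h b ∂bitLaw G =
      ∫⁻ b, ENNReal.ofReal (1 - pval G (yv k (fun t => t ∈ P) b) s.2) * h b ∂bitLaw G := by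
  have hset : MeasurableSet {b : Slot V → Bool | b s = true} :=
    measurableSet_bit s
  have hfin : ∫⁻ b, h b ∂bitLaw G ≠ ⊤ := ne_top_of_le_ne_top (by simp)
    ((lintegral_mono hle).trans_eq (by simp : ∫⁻ _b, (1 : ℝ≥0∞) ∂bitLaw G = 1))
  have h1 := lintegral_add_compl h hset (μ := bitLaw G)
  have h2 : ∫⁻ b, ENNReal.ofReal (pval G (yv k (fun t => t ∈ P) b) s.2) * h b ∂bitLaw G +
      ∫⁻ b, ENNReal.ofReal (1 - pval G (yv k (fun t => t ∈ P) b) s.2) * h b ∂bitLaw G =
      ∫⁻ b, h b ∂bitLaw G := by
    rw [← lintegral_add_left (f := fun b : Slot V → Bool =>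
      ENNReal.ofReal (pval G (yv k (fun t => t ∈ P) b) s.2) * h b)
      ((measurable_pval_yv G k _ s.2).ennreal_ofReal.mul hm)]
    refine lintegral_congr fun b => ?_
    have hb := pval_mem G (yv k (fun t => t ∈ P) b) he
    rw [← add_mul, ← ENNReal.ofReal_add (by linarith [hb.1]) (by linarith [hb.2])]
    simp
  rw [predict G hP hsP he hm hd] at h1
  refine (ENNReal.add_right_inj ?_).1 (h1.trans h2.symm)
  refine ne_top_of_le_ne_top hfin ?_
  exact h2 ▸ le_add_right le_rfl

lemma unif_affine {p : ℝ} (h0 : 0 < p) (h1 : p < 1) {f : ℝ → ℝ≥0∞} (hf : Measurable f) :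
    ENNReal.ofReal p * ∫⁻ r, f (p * r) ∂unif +
      ENNReal.ofReal (1 - p) * ∫⁻ r, f (p + (1 - p) * r) ∂unif = ∫⁻ r, f r ∂unif := by
  have hscale : ∀ (a : ℝ), 0 < a → ∀ (g : ℝ → ℝ≥0∞), Measurable g →
      ENNReal.ofReal a * ∫⁻ r, g (a * r) ∂unif = ∫⁻ r in Set.Icc 0 a, g r := by
    intro a ha g hg
    have hsm : ENNReal.ofReal |a| • Measure.map (fun x => a * x) volume = volume :=
      Real.smul_map_volume_mul_left ha.ne'
    conv_rhs => rw [← hsm]
    rw [Measure.restrict_smul, lintegral_smul_measure,
      Measure.restrict_map (measurable_const_mul a) measurableSet_Icc,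
      lintegral_map hg (measurable_const_mul a), abs_of_pos ha, smul_eq_mul]
    congr 2
    rw [unif]
    congr 1
    ext r
    simp only [Set.mem_preimage, Set.mem_Icc]
    constructor <;> rintro ⟨u, v⟩ <;> constructor <;> nlinarith
  rw [hscale p h0 f hf, hscale (1 - p) (by linarith) (fun r => f (p + r))
    (hf.comp (measurable_const_add p))]
  have hmp : MeasurePreserving (fun x : ℝ => p + x) volume volume :=
    measurePreserving_add_left volume p
  have hshift : ∫⁻ r in Set.Icc (0 : ℝ) (1 - p), f (p + r) = ∫⁻ r in Set.Icc p 1, f r := by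
    rw [← hmp.setLIntegral_comp_preimage measurableSet_Icc hf]
    congr 2
    ext r
    simp only [Set.mem_preimage, Set.mem_Icc]
    constructor <;> rintro ⟨u, v⟩ <;> constructor <;> linarith
  rw [hshift, setLIntegral_congr (Ioc_ae_eq_Icc.symm : Set.Icc p 1 =ᵐ[volume] Set.Ioc p 1),
    ← lintegral_union measurableSet_Ioc (Set.disjoint_left.2 fun r a b => absurd a.2 (not_le.2 b.1)),
    Set.Icc_union_Ioc_eq_Icc h0.le h1.le, unif]

/-- The uniform label reconstructed from the bit and the auxiliary variable. -/
def vOf (G : SimpleGraph V) (U : Slot V → ℝ) (bits : Slot V → Bool) (aux : Slot V → ℝ)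
    (s : Slot V) : ℝ :=
  if Obs G U s then
    (if bits s then pSlot G U bits s * aux s
     else pSlot G U bits s + (1 - pSlot G U bits s) * aux s)
  else aux s

/-- The joint law of bits and auxiliary variables. -/
def inner' (G : SimpleGraph V) : Measure ((Slot V → Bool) × (Slot V → ℝ)) :=
  (bitLaw G).prod (iid (Slot V))

instance isProbabilityMeasure_inner' (G : SimpleGraph V) : IsProbabilityMeasure (inner' G) := by
  unfold inner'; infer_instance

lemma pSlot_eq (G : SimpleGraph V) (U : Slot V → ℝ) (bits : Slot V → Bool) (s : Slot V) :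
    pSlot G U bits s =
      pval G (yv s.1 (fun t => t ∈ {t | Past G U s.1 (U s) t}) bits) s.2 := rfl

lemma pSlot_mem {G : SimpleGraph V} {U : Slot V → ℝ} (bits : Slot V → Bool) {s : Slot V}
    (h : Obs G U s) : 1 / 4 ≤ pSlot G U bits s ∧ pSlot G U bits s ≤ 3 / 4 :=
  pval_mem G _ h.1.1

lemma not_past_self (G : SimpleGraph V) (U : Slot V → ℝ) (s : Slot V) :
    ¬Past G U s.1 (U s) s := fun h => by
  rcases h.2 with h | h
  · exact lt_irrefl _ h
  · exact lt_irrefl _ h.2

lemma pSlot_dependsOn (G : SimpleGraph V) (U : Slot V → ℝ) (s : Slot V) :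
    DependsOn (fun b => pSlot G U b s) {t | Past G U s.1 (U s) t} := fun b b' h => by
  show pval G (yv s.1 (Past G U s.1 (U s)) b) s.2 = pval G (yv s.1 (Past G U s.1 (U s)) b') s.2
  rw [yv_congr (P := Past G U s.1 (U s)) (P' := Past G U s.1 (U s)) (fun _ _ => Iff.rfl)
    fun t ht => h t ht]

theorem slot_step (G : SimpleGraph V) (U : Slot V → ℝ) {s : Slot V} (hs : Obs G U s)
    {f : (Slot V → Bool) × (Slot V → ℝ) × ℝ → ℝ≥0∞} (hf : Measurable f) (hle : ∀ z, f z ≤ 1)
    (hb : ∀ b b' a v, (∀ t, Past G U s.1 (U s) t → b t = b' t) → f (b, a, v) = f (b', a, v))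
    (ha : ∀ b a r v, f (b, Function.update a s r, v) = f (b, a, v)) :
    ∫⁻ z, f (z.1, z.2, vOf G U z.1 z.2 s) ∂inner' G =
      ∫⁻ z, ∫⁻ v, f (z.1, z.2, v) ∂unif ∂inner' G := by
  set P : Set (Slot V) := {t | Past G U s.1 (U s) t}
  have hp : Measurable fun b : Slot V → Bool => pSlot G U b s :=
    measurable_pSlot measurable_const measurable_const measurable_id s
  have hpz : Measurable fun z : (Slot V → Bool) × (Slot V → ℝ) => pSlot G U z.1 s :=
    hp.comp measurable_fst
  have hbit : Measurable fun z : (Slot V → Bool) × (Slot V → ℝ) => z.1 s :=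
    (measurable_pi_apply s).comp measurable_fst
  have hv : Measurable fun z : (Slot V → Bool) × (Slot V → ℝ) => vOf G U z.1 z.2 s := by
    simp only [vOf, if_pos hs]
    refine Measurable.ite (hbit (measurableSet_singleton true))
      (hpz.mul ((measurable_pi_apply s).comp measurable_snd))
      (hpz.add ((measurable_const.sub hpz).mul ((measurable_pi_apply s).comp measurable_snd)))
  have hL : Measurable fun z : (Slot V → Bool) × (Slot V → ℝ) =>
      f (z.1, z.2, vOf G U z.1 z.2 s) := hf.comp (measurable_fst.prodMk (measurable_snd.prodMk hv))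
  have hR : Measurable fun z : (Slot V → Bool) × (Slot V → ℝ) => ∫⁻ v, f (z.1, z.2, v) ∂unif :=
    Measurable.lintegral_prod_right' (f := fun w : ((Slot V → Bool) × (Slot V → ℝ)) × ℝ =>
      f (w.1.1, w.1.2, w.2))
      (hf.comp ((measurable_fst.comp measurable_fst).prodMk
        ((measurable_snd.comp measurable_fst).prodMk measurable_snd)))
  set φ₁ : (Slot V → Bool) × (Slot V → ℝ) → ℝ≥0∞ :=
    fun z => ∫⁻ r, f (z.1, z.2, pSlot G U z.1 s * r) ∂unif with hφ₁
  set φ₀ : (Slot V → Bool) × (Slot V → ℝ) → ℝ≥0∞ :=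
    fun z => ∫⁻ r, f (z.1, z.2, pSlot G U z.1 s + (1 - pSlot G U z.1 s) * r) ∂unif with hφ₀
  have hm₁ : Measurable φ₁ :=
    Measurable.lintegral_prod_right' (f := fun w : ((Slot V → Bool) × (Slot V → ℝ)) × ℝ =>
      f (w.1.1, w.1.2, pSlot G U w.1.1 s * w.2))
      (hf.comp ((measurable_fst.comp measurable_fst).prodMk
        ((measurable_snd.comp measurable_fst).prodMk ((hpz.comp measurable_fst).mul measurable_snd))))
  have hm₀ : Measurable φ₀ :=
    Measurable.lintegral_prod_right' (f := fun w : ((Slot V → Bool) × (Slot V → ℝ)) × ℝ =>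
      f (w.1.1, w.1.2, pSlot G U w.1.1 s + (1 - pSlot G U w.1.1 s) * w.2))
      (hf.comp ((measurable_fst.comp measurable_fst).prodMk
        ((measurable_snd.comp measurable_fst).prodMk ((hpz.comp measurable_fst).add
          ((measurable_const.sub (hpz.comp measurable_fst)).mul measurable_snd)))))
  have hupd : ∀ (b : Slot V → Bool) (a : Slot V → ℝ),
      ∫⁻ r, f (b, Function.update a s r, vOf G U b (Function.update a s r) s) ∂unif =
        if b s then φ₁ (b, a) else φ₀ (b, a) := by
    intro b a
    simp only [vOf, if_pos hs, Function.update_self, ha]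
    split_ifs <;> rfl
  have hphidep : ∀ a, DependsOn (fun b => φ₁ (b, a)) P ∧ DependsOn (fun b => φ₀ (b, a)) P := by
    intro a
    constructor <;> intro b b' hbb
    · simp only [hφ₁, show pSlot G U b s = pSlot G U b' s from pSlot_dependsOn G U s hbb,
        fun r => hb b b' a r hbb]
    · simp only [hφ₀, show pSlot G U b s = pSlot G U b' s from pSlot_dependsOn G U s hbb,
        fun r => hb b b' a r hbb]
  have hone : ∀ g : ℝ → ℝ≥0∞, (∀ r, g r ≤ 1) → ∫⁻ r, g r ∂unif ≤ 1 := fun g hg =>
    (lintegral_mono hg).trans (by simp)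
  have hPle : ∀ t ∈ P, t.1 ≤ s.1 := fun t ht => Past.le ht
  have hsP : s ∉ P := not_past_self G U s
  have hbs : MeasurableSet {b : Slot V → Bool | b s = true} :=
    measurableSet_bit s
  calc ∫⁻ z, f (z.1, z.2, vOf G U z.1 z.2 s) ∂inner' G
      = ∫⁻ b, ∫⁻ a, (if b s then φ₁ (b, a) else φ₀ (b, a)) ∂iid (Slot V) ∂bitLaw G := by
        rw [inner', lintegral_prod _ hL.aemeasurable]
        refine lintegral_congr fun b => ?_
        rw [lintegral_iid_update s (F := fun a => f (b, a, vOf G U b a s))
          (hL.comp measurable_prodMk_left)]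
        exact lintegral_congr fun a => hupd b a
    _ = ∫⁻ a, ∫⁻ b, (if b s then φ₁ (b, a) else φ₀ (b, a)) ∂bitLaw G ∂iid (Slot V) :=
        lintegral_lintegral_swap
          (Measurable.ite (hbit (measurableSet_singleton true)) hm₁ hm₀).aemeasurable
    _ = ∫⁻ a, ∫⁻ b, ∫⁻ v, f (b, a, v) ∂unif ∂bitLaw G ∂iid (Slot V) := by
        refine lintegral_congr fun a => ?_
        have h1 : Measurable fun b => φ₁ (b, a) := hm₁.comp measurable_prodMk_right
        have h0 : Measurable fun b => φ₀ (b, a) := hm₀.comp measurable_prodMk_right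
        rw [← lintegral_add_compl (fun b => if b s then φ₁ (b, a) else φ₀ (b, a)) hbs]
        have e1 : ∫⁻ b in {b | b s = true}, (if b s then φ₁ (b, a) else φ₀ (b, a)) ∂bitLaw G =
            ∫⁻ b in {b | b s = true}, φ₁ (b, a) ∂bitLaw G :=
          setLIntegral_congr_fun hbs fun b (hbx : b s = true) => by simp [hbx]
        have e0 : ∫⁻ b in {b | b s = true}ᶜ, (if b s then φ₁ (b, a) else φ₀ (b, a)) ∂bitLaw G =
            ∫⁻ b in {b | b s = true}ᶜ, φ₀ (b, a) ∂bitLaw G :=
          setLIntegral_congr_fun hbs.compl fun b (hbx : ¬b s = true) => by simp [hbx]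
        rw [e1, e0, predict G hPle hsP hs.1.1 h1 (hphidep a).1,
          predict_compl G hPle hsP hs.1.1 h0 (hphidep a).2 fun b => hone _ fun r => hle _,
          ← lintegral_add_left (f := fun b : Slot V → Bool =>
            ENNReal.ofReal (pval G (yv s.1 (fun t => t ∈ P) b) s.2) * φ₁ (b, a))
            (((measurable_pval_yv G _ _ _).ennreal_ofReal).mul h1)]
        refine lintegral_congr fun b => ?_
        rw [← pSlot_eq]
        have := pSlot_mem b hs
        exact unif_affine (by linarith [this.1]) (by linarith [this.2])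
          (hf.comp (measurable_const.prodMk (measurable_const.prodMk measurable_id)))
    _ = _ := by
        rw [inner', lintegral_prod_symm _ hR.aemeasurable]

end

end Vale.P143
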