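import Mathlib

/-!
P143: weighted cut spaces in `ℓ²(V × V)`, their projections, and the transfer entries.
-/

namespace Vale.P143

open scoped RealInnerProductSpace ENNReal Topology
open Filter
open scoped Classical

noncomputable section

variable {V : Type*}

/-- The Hilbert space of square summable functions on ordered pairs. -/
abbrev ESpace (V : Type*) := lp (fun _ : V × V => ℝ) 2

/-- The scaling of the coordinate of an ordered pair. -/
def scal (y : Sym2 V → ℝ) (p : V × V) : ℝ := Real.exp (-(y s(p.1, p.2)) / 2)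

lemma scal_pos (y : Sym2 V → ℝ) (p : V × V) : 0 < scal y p := Real.exp_pos _

/-- Fields which are scaled gradients along the edges of `H` (arbitrary on the other pairs). -/
def cutSpace (H : SimpleGraph V) (y : Sym2 V → ℝ) : Submodule ℝ (ESpace V) where
  carrier := {x | ∃ φ : V → ℝ, ∀ a b, H.Adj a b → scal y (a, b) * x (a, b) = φ b - φ a}
  zero_mem' := ⟨0, fun a b _ => by simp⟩
  add_mem' := by
    rintro x z ⟨φ, hφ⟩ ⟨ψ, hψ⟩
    refine ⟨φ + ψ, fun a b h => ?_⟩
    simp only [lp.coeFn_add, Pi.add_apply, mul_add, hφ a b h, hψ a b h]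
    ring
  smul_mem' := by
    rintro c x ⟨φ, hφ⟩
    refine ⟨c • φ, fun a b h => ?_⟩
    have := hφ a b h
    simp only [lp.coeFn_smul, Pi.smul_apply, smul_eq_mul]
    linear_combination c * this

lemma mem_cutSpace {H : SimpleGraph V} {y : Sym2 V → ℝ} {x : ESpace V} :
    x ∈ cutSpace H y ↔
      ∃ φ : V → ℝ, ∀ a b, H.Adj a b → scal y (a, b) * x (a, b) = φ b - φ a := Iff.rfl

/-- The sum of the scaled coordinates along a walk. -/
def walkSum (y : Sym2 V → ℝ) (x : ESpace V) {G : SimpleGraph V} :
    {u v : V} → G.Walk u v → ℝ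
  | _, _, .nil => 0
  | u, _, .cons' _ w _ _ p => scal y (u, w) * x (u, w) + walkSum y x p

lemma walkSum_nil (y : Sym2 V → ℝ) (x : ESpace V) {G : SimpleGraph V} {u : V} :
    walkSum y x (SimpleGraph.Walk.nil : G.Walk u u) = 0 := rfl

lemma walkSum_cons (y : Sym2 V → ℝ) (x : ESpace V) {G : SimpleGraph V} {u w v : V}
    (h : G.Adj u w) (p : G.Walk w v) :
    walkSum y x (SimpleGraph.Walk.cons h p) = scal y (u, w) * x (u, w) + walkSum y x p := rfl

lemma walkSum_eq_sub (y : Sym2 V → ℝ) (x : ESpace V) (φ : V → ℝ) {G : SimpleGraph V} {u v : V}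
    (p : G.Walk u v)
    (h : ∀ d ∈ p.darts, scal y (d.fst, d.snd) * x (d.fst, d.snd) = φ d.snd - φ d.fst) :
    walkSum y x p = φ v - φ u := by
  induction p with
  | nil => simp [walkSum_nil]
  | cons hadj p ih =>
    rw [walkSum_cons, ih (fun d hd => h d (by simp [hd]))]
    have := h ⟨⟨_, _⟩, hadj⟩ (by simp)
    simp only at this
    rw [this]
    ring

lemma continuous_walkSum (y : Sym2 V → ℝ) {G : SimpleGraph V} {u v : V} (p : G.Walk u v) :
    Continuous fun x : ESpace V => walkSum y x p := by
  induction p with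
  | nil => simpa [walkSum_nil] using continuous_const
  | cons hadj p ih =>
    simp only [walkSum_cons]
    exact (continuous_const.mul (lp.evalCLM ℝ (fun _ : V × V => ℝ) 2 _).continuous).add ih

/-- A chosen root of the component of a vertex. -/
def root (G : SimpleGraph V) (v : V) : V := (G.connectedComponentMk v).out

lemma reachable_root (G : SimpleGraph V) (v : V) : G.Reachable (root G v) v :=
  SimpleGraph.ConnectedComponent.exact (Quot.out_eq _)

lemma root_eq_of_adj {G : SimpleGraph V} {a b : V} (h : G.Adj a b) : root G a = root G b := by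
  unfold root
  rw [SimpleGraph.ConnectedComponent.sound h.reachable]

/-- The sum of the scaled coordinates along a chosen walk from the root. -/
def pot (G : SimpleGraph V) (y : Sym2 V → ℝ) (x : ESpace V) (v : V) : ℝ :=
  walkSum y x (reachable_root G v).some

lemma mem_cutSpace_iff_pot {H : SimpleGraph V} {y : Sym2 V → ℝ} {x : ESpace V} :
    x ∈ cutSpace H y ↔
      ∀ a b, H.Adj a b → scal y (a, b) * x (a, b) = pot H y x b - pot H y x a := by
  refine ⟨?_, fun h => ⟨pot H y x, h⟩⟩
  rintro ⟨φ, hφ⟩ a b hab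
  unfold pot
  rw [walkSum_eq_sub y x φ _ (fun d _ => hφ _ _ d.adj),
    walkSum_eq_sub y x φ _ (fun d _ => hφ _ _ d.adj), hφ a b hab, root_eq_of_adj hab]
  ring

lemma isClosed_cutSpace (H : SimpleGraph V) (y : Sym2 V → ℝ) :
    IsClosed (cutSpace H y : Set (ESpace V)) := by
  have : (cutSpace H y : Set (ESpace V)) = ⋂ a : V, ⋂ b : V, ⋂ (_ : H.Adj a b),
      {x : ESpace V | scal y (a, b) * x (a, b) = pot H y x b - pot H y x a} := by
    ext x
    simp [mem_cutSpace_iff_pot]
  rw [this]
  refine isClosed_iInter fun a => isClosed_iInter fun b => isClosed_iInter fun _ => ?_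
  exact isClosed_eq (continuous_const.mul (lp.evalCLM ℝ (fun _ : V × V => ℝ) 2 _).continuous)
    ((continuous_walkSum y _).sub (continuous_walkSum y _))

instance completeSpace_cutSpace (H : SimpleGraph V) (y : Sym2 V → ℝ) :
    CompleteSpace (cutSpace H y) := (isClosed_cutSpace H y).completeSpace_coe

lemma cutSpace_anti {H H' : SimpleGraph V} (hle : H ≤ H') (y : Sym2 V → ℝ) :
    cutSpace H' y ≤ cutSpace H y := fun _ ⟨φ, hφ⟩ => ⟨φ, fun a b h => hφ a b (hle h)⟩

lemma cutSpace_congr {H : SimpleGraph V} {y y' : Sym2 V → ℝ}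
    (h : ∀ e ∈ H.edgeSet, y e = y' e) : cutSpace H y = cutSpace H y' := by
  ext x
  simp only [mem_cutSpace]
  refine exists_congr fun φ => forall_congr' fun a => forall_congr' fun b => ?_
  refine imp_congr_right fun hab => ?_
  simp [scal, h s(a, b) hab]

/-- An increasing sequence of subgraphs of `G` covering all edges of `G`. -/
structure Exhausts (H : ℕ → SimpleGraph V) (G : SimpleGraph V) : Prop where
  mono : Monotone H
  le : ∀ n, H n ≤ G
  cover : ∀ a b, G.Adj a b → ∃ n, (H n).Adj a b

lemma Exhausts.exists_walk {H : ℕ → SimpleGraph V} {G : SimpleGraph V} (hH : Exhausts H G)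
    {u v : V} (p : G.Walk u v) :
    ∃ n, ∀ d ∈ p.darts, (H n).Adj d.fst d.snd := by
  induction p with
  | nil => exact ⟨0, by simp⟩
  | cons hadj p ih =>
    obtain ⟨n, hn⟩ := ih
    obtain ⟨m, hm⟩ := hH.cover _ _ hadj
    refine ⟨max n m, fun d hd => ?_⟩
    simp only [SimpleGraph.Walk.darts_cons, List.mem_cons] at hd
    rcases hd with rfl | hd
    · exact hH.mono (le_max_right n m) hm
    · exact hH.mono (le_max_left n m) (hn d hd)

lemma iInf_cutSpace {H : ℕ → SimpleGraph V} {G : SimpleGraph V} (hH : Exhausts H G)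
    (y : Sym2 V → ℝ) : ⨅ n, cutSpace (H n) y = cutSpace G y := by
  refine le_antisymm (fun x hx => ?_) (le_iInf fun n => cutSpace_anti (hH.le n) y)
  simp only [Submodule.mem_iInf] at hx
  rw [mem_cutSpace_iff_pot]
  intro a b hab
  obtain ⟨n₁, h₁⟩ := hH.exists_walk (reachable_root G a).some
  obtain ⟨n₂, h₂⟩ := hH.exists_walk (reachable_root G b).some
  obtain ⟨n₃, h₃⟩ := hH.cover a b hab
  obtain ⟨φ, hφ⟩ := hx (max n₁ (max n₂ n₃))
  unfold pot
  rw [walkSum_eq_sub y x φ _ (fun d hd => hφ _ _ (hH.mono (le_max_left _ _) (h₁ d hd))),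
    walkSum_eq_sub y x φ _ (fun d hd => hφ _ _
      (hH.mono ((le_max_left _ _).trans (le_max_right _ _)) (h₂ d hd))),
    hφ a b (hH.mono ((le_max_right _ _).trans (le_max_right _ _)) h₃), root_eq_of_adj hab]
  ring

/-- The orthogonal projection onto the weighted cut space. -/
def cproj (H : SimpleGraph V) (y : Sym2 V → ℝ) : ESpace V →L[ℝ] ESpace V :=
  (cutSpace H y).starProjection

lemma cproj_mem (H : SimpleGraph V) (y : Sym2 V → ℝ) (u : ESpace V) :
    cproj H y u ∈ cutSpace H y := Submodule.starProjection_apply_mem _ _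

lemma cproj_inner_eq_zero (H : SimpleGraph V) (y : Sym2 V → ℝ) (u : ESpace V) {w : ESpace V}
    (hw : w ∈ cutSpace H y) : ⟪u - cproj H y u, w⟫ = 0 :=
  Submodule.starProjection_inner_eq_zero u w hw

lemma tendsto_cproj {H : ℕ → SimpleGraph V} {G : SimpleGraph V} (hH : Exhausts H G)
    (y : Sym2 V → ℝ) (u : ESpace V) :
    Tendsto (fun n => cproj (H n) y u) atTop (𝓝 (cproj G y u)) := by
  have hmono : Monotone fun n => (cutSpace (H n) y)ᗮ :=
    fun m n hmn => Submodule.orthogonal_le (cutSpace_anti (hH.mono hmn) y)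
  have hcl : (⨆ n, (cutSpace (H n) y)ᗮ).topologicalClosure = (cutSpace G y)ᗮ := by
    rw [← Submodule.orthogonal_orthogonal_eq_closure, ← Submodule.iInf_orthogonal,
      ← iInf_cutSpace hH y]
    congr 1
    exact iInf_congr fun n => Submodule.orthogonal_orthogonal _
  have : (⨆ n, (cutSpace (H n) y)ᗮ).topologicalClosure.HasOrthogonalProjection :=
    inferInstance
  have h := Submodule.starProjection_tendsto_closure_iSup _ hmono u
  have e : (⨆ n, (cutSpace (H n) y)ᗮ).topologicalClosure.starProjection u =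
      (cutSpace G y)ᗮ.starProjection u := by
    simp only [hcl]
  rw [e, Submodule.starProjection_orthogonal_val] at h
  simp only [Submodule.starProjection_orthogonal_val] at h
  simpa [cproj] using h.const_sub u

/-- The unit vector of an ordered pair. -/
def unitVec (p : V × V) : ESpace V := lp.single 2 p (1 : ℝ)

lemma inner_unitVec_left (p : V × V) (x : ESpace V) : ⟪unitVec p, x⟫ = x p := by
  unfold unitVec
  rw [lp.inner_single_left]
  simp

lemma inner_unitVec_right (p : V × V) (x : ESpace V) : ⟪x, unitVec p⟫ = x p := by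
  rw [real_inner_comm, inner_unitVec_left]

lemma unitVec_apply (p q : V × V) : unitVec p q = if q = p then (1 : ℝ) else 0 := by
  unfold unitVec
  rw [lp.single_apply, Pi.single_apply]

lemma norm_unitVec (p : V × V) : ‖unitVec p‖ = 1 := by
  have h : ⟪unitVec p, unitVec p⟫ = (1 : ℝ) := by
    classical
    rw [inner_unitVec_left, unitVec_apply, if_pos rfl]
  rw [real_inner_self_eq_norm_sq] at h
  exact (sq_eq_one_iff.1 h).resolve_right (by linarith [norm_nonneg (unitVec p)])

/-- The matrix entries of the projection. -/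
def pent (H : SimpleGraph V) (y : Sym2 V → ℝ) (p q : V × V) : ℝ := cproj H y (unitVec q) p

lemma pent_eq_inner (H : SimpleGraph V) (y : Sym2 V → ℝ) (p q : V × V) :
    pent H y p q = ⟪unitVec p, cproj H y (unitVec q)⟫ := (inner_unitVec_left _ _).symm

lemma pent_comm (H : SimpleGraph V) (y : Sym2 V → ℝ) (p q : V × V) :
    pent H y p q = pent H y q p := by
  rw [pent_eq_inner, pent_eq_inner, cproj, ← Submodule.inner_starProjection_left_eq_right,
    real_inner_comm]

lemma tendsto_pent {H : ℕ → SimpleGraph V} {G : SimpleGraph V} (hH : Exhausts H G)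
    (y : Sym2 V → ℝ) (p q : V × V) :
    Tendsto (fun n => pent (H n) y p q) atTop (𝓝 (pent G y p q)) := by
  simp only [pent_eq_inner]
  exact ((innerSL ℝ (unitVec p)).continuous.tendsto _).comp (tendsto_cproj hH y (unitVec q))

lemma pent_congr {H : SimpleGraph V} {y y' : Sym2 V → ℝ}
    (h : ∀ e ∈ H.edgeSet, y e = y' e) (p q : V × V) : pent H y p q = pent H y' p q := by
  have hK := cutSpace_congr h
  have : cproj H y (unitVec q) = cproj H y' (unitVec q) := by
    unfold cproj
    simp only [hK]
  rw [pent, pent, this]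

/-- The transfer probability of an edge: the sum of the two diagonal entries. -/
def medge (H : SimpleGraph V) (y : Sym2 V → ℝ) : Sym2 V → ℝ :=
  Sym2.lift ⟨fun a b => pent H y (a, b) (a, b) + pent H y (b, a) (b, a),
    fun _ _ => add_comm _ _⟩

lemma medge_mk (H : SimpleGraph V) (y : Sym2 V → ℝ) (a b : V) :
    medge H y s(a, b) = pent H y (a, b) (a, b) + pent H y (b, a) (b, a) := rfl

lemma tendsto_medge {H : ℕ → SimpleGraph V} {G : SimpleGraph V} (hH : Exhausts H G)
    (y : Sym2 V → ℝ) (e : Sym2 V) :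
    Tendsto (fun n => medge (H n) y e) atTop (𝓝 (medge G y e)) := by
  induction e using Sym2.ind with
  | h a b => exact (tendsto_pent hH y _ _).add (tendsto_pent hH y _ _)

lemma medge_congr {H : SimpleGraph V} {y y' : Sym2 V → ℝ}
    (h : ∀ e ∈ H.edgeSet, y e = y' e) (e : Sym2 V) : medge H y e = medge H y' e := by
  induction e using Sym2.ind with
  | h a b => rw [medge_mk, medge_mk, pent_congr h, pent_congr h]

lemma pent_self_eq_norm_sq (H : SimpleGraph V) (y : Sym2 V → ℝ) (p : V × V) :
    pent H y p p = ‖cproj H y (unitVec p)‖ ^ 2 := by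
  rw [pent_eq_inner, ← real_inner_self_eq_norm_sq]
  have := cproj_inner_eq_zero H y (unitVec p) (cproj_mem H y (unitVec p))
  rw [inner_sub_left] at this
  linarith

lemma cproj_add_swap {H : SimpleGraph V} (y : Sym2 V → ℝ) {a b : V} (h : H.Adj a b) :
    cproj H y (unitVec (a, b) + unitVec (b, a)) = 0 := by
  refine Submodule.eq_starProjection_of_mem_of_inner_eq_zero (zero_mem _) fun w hw => ?_
  obtain ⟨φ, hφ⟩ := hw
  rw [sub_zero, inner_add_left, inner_unitVec_left, inner_unitVec_left]
  have h1 := hφ a b h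
  have h2 := hφ b a h.symm
  have hs : scal y (b, a) = scal y (a, b) := by simp [scal, Sym2.eq_swap]
  rw [hs] at h2
  have : scal y (a, b) * (w (a, b) + w (b, a)) = 0 := by linarith
  exact (mul_eq_zero.1 this).resolve_left (scal_pos y _).ne'

lemma norm_cproj_le (H : SimpleGraph V) (y : Sym2 V → ℝ) (u : ESpace V) :
    ‖cproj H y u‖ ≤ ‖u‖ := Submodule.norm_starProjection_apply_le _ _

lemma pent_self_le_half {H : SimpleGraph V} (y : Sym2 V → ℝ) {a b : V} (h : H.Adj a b) :
    pent H y (a, b) (a, b) ≤ 1 / 2 := by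
  classical
  have h0 := cproj_add_swap y h
  have hne : (a, b) ≠ (b, a) := by
    intro e; exact h.ne (congrArg Prod.fst e)
  have h1 : cproj H y (unitVec (a, b) - unitVec (b, a)) = (2 : ℝ) • cproj H y (unitVec (a, b)) := by
    rw [map_add] at h0
    rw [map_sub, two_smul]
    linear_combination (norm := abel) -h0
  have h2 : ‖unitVec (a, b) - unitVec (b, a)‖ ^ 2 = 2 := by
    rw [norm_sub_sq_real, norm_unitVec, norm_unitVec, inner_unitVec_left, unitVec_apply,
      if_neg hne]
    norm_num
  have h3 := pow_le_pow_left₀ (norm_nonneg _)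
    (norm_cproj_le H y (unitVec (a, b) - unitVec (b, a))) 2
  rw [h1, norm_smul, mul_pow, h2, ← pent_self_eq_norm_sq] at h3
  norm_num at h3
  linarith

lemma medge_nonneg (H : SimpleGraph V) (y : Sym2 V → ℝ) (e : Sym2 V) : 0 ≤ medge H y e := by
  induction e using Sym2.ind with
  | h a b => rw [medge_mk, pent_self_eq_norm_sq, pent_self_eq_norm_sq]; positivity

lemma medge_le_one {H : SimpleGraph V} (y : Sym2 V → ℝ) {e : Sym2 V} (he : e ∈ H.edgeSet) :
    medge H y e ≤ 1 := by
  induction e using Sym2.ind with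
  | h a b =>
    have h : H.Adj a b := he
    have := pent_self_le_half y h
    have := pent_self_le_half y h.symm
    rw [medge_mk]; linarith

end

end Vale.P143
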