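import Vale.Agent.P143.Law

/-!
P143: observation slots, fields of past observations, measurability, and the law of the bits.
-/

namespace Vale.P143

open scoped RealInnerProductSpace ENNReal Topology
open scoped Classical
open Filter MeasureTheory

noncomputable section

variable {V : Type*}

/-- The uniform law on the unit interval. -/
def unif : Measure ℝ := volume.restrict (Set.Icc 0 1)

instance isProbabilityMeasure_unif : IsProbabilityMeasure unif := by
  constructor
  simp [unif]

/-- Independent uniform variables indexed by `ι`. -/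
def iid (ι : Type*) : Measure (ι → ℝ) := Measure.infinitePi fun _ : ι => unif

instance isProbabilityMeasure_iid (ι : Type*) : IsProbabilityMeasure (iid ι) := by
  unfold iid; infer_instance

/-- The edge `e` takes part in round `k`. -/
def InClass (G : SimpleGraph V) (k : ℕ) (e : Sym2 V) : Prop :=
  e ∈ G.edgeSet ∧ ∀ v ∈ e, (G.neighborSet v).encard ≤ (k : ℕ∞)

/-- The slot is observed. -/
def Obs (G : SimpleGraph V) (U : Slot V → ℝ) (s : Slot V) : Prop :=
  InClass G s.1 s.2 ∧ U s < 1 / 2

/-- The slot is observed before time `u` of round `k`. -/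
def Past (G : SimpleGraph V) (U : Slot V → ℝ) (k : ℕ) (u : ℝ) (s : Slot V) : Prop :=
  Obs G U s ∧ (s.1 < k ∨ (s.1 = k ∧ U s < u))

lemma Past.le {G : SimpleGraph V} {U : Slot V → ℝ} {k : ℕ} {u : ℝ} {s : Slot V}
    (h : Past G U k u s) : s.1 ≤ k := by
  rcases h.2 with h | h
  · exact h.le
  · exact h.1.le

/-- The signed count of the bits of the slots in `P` at the edge `e`, up to round `k`. -/
def cnt (k : ℕ) (P : Slot V → Prop) (bits : Slot V → Bool) (e : Sym2 V) : ℤ :=
  ∑ j ∈ Finset.range (k + 1), if P (j, e) then (if bits (j, e) then 1 else -1) else 0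

/-- A field with integer counts. -/
def scaled (Y : Sym2 V → ℤ) : Sym2 V → ℝ := fun e => beta * (Y e : ℝ)

/-- The field of the slots in `P`. -/
def yv (k : ℕ) (P : Slot V → Prop) (bits : Slot V → Bool) : Sym2 V → ℝ := scaled (cnt k P bits)

/-- The predictive probability at time `u` of round `k`. -/
def pUpTo (G : SimpleGraph V) (U : Slot V → ℝ) (k : ℕ) (u : ℝ) (bits : Slot V → Bool)
    (e : Sym2 V) : ℝ :=
  pval G (yv k (Past G U k u) bits) e

/-- The predictive probability of a slot. -/
def pSlot (G : SimpleGraph V) (U : Slot V → ℝ) (bits : Slot V → Bool) (s : Slot V) : ℝ :=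
  pUpTo G U s.1 (U s) bits s.2

lemma cnt_congr {k : ℕ} {P P' : Slot V → Prop} {b b' : Slot V → Bool} {e : Sym2 V}
    (hP : ∀ j ≤ k, (P (j, e) ↔ P' (j, e))) (hb : ∀ j ≤ k, P (j, e) → b (j, e) = b' (j, e)) :
    cnt k P b e = cnt k P' b' e := by
  refine Finset.sum_congr rfl fun j hj => ?_
  have hj' : j ≤ k := Nat.lt_succ_iff.1 (Finset.mem_range.1 hj)
  by_cases h : P (j, e)
  · rw [if_pos h, if_pos ((hP j hj').1 h), hb j hj' h]
  · rw [if_neg h, if_neg (fun h' => h ((hP j hj').2 h'))]

lemma yv_congr {k : ℕ} {P P' : Slot V → Prop} {b b' : Slot V → Bool}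
    (hP : ∀ s : Slot V, s.1 ≤ k → (P s ↔ P' s)) (hb : ∀ s : Slot V, P s → b s = b' s) :
    yv k P b = yv k P' b' := by
  funext e
  simp only [yv, scaled]
  rw [cnt_congr (fun j hj => hP (j, e) hj) (fun j _ h => hb (j, e) h)]

lemma abs_cnt_le (k : ℕ) (P : Slot V → Prop) (bits : Slot V → Bool) (e : Sym2 V) :
    |(cnt k P bits e : ℝ)| ≤ k + 1 := by
  simp only [cnt, Int.cast_sum]
  refine (Finset.abs_sum_le_sum_abs _ _).trans
    ((Finset.sum_le_sum fun j _ => (?_ : _ ≤ (1 : ℝ))).trans_eq (by simp))
  split_ifs <;> simp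

lemma beta_nonneg : 0 ≤ beta := Real.log_nonneg (by norm_num)

lemma abs_yv_sub_le (k : ℕ) (P P' : Slot V → Prop) (b b' : Slot V → Bool) (e : Sym2 V) :
    |yv k P b e - yv k P' b' e| ≤ beta * (2 * (k + 1)) := by
  simp only [yv, scaled, ← mul_sub, abs_mul, abs_of_nonneg beta_nonneg]
  refine mul_le_mul_of_nonneg_left ?_ beta_nonneg
  have h1 := abs_cnt_le k P b e
  have h2 := abs_cnt_le k P' b' e
  exact (abs_sub _ _).trans (by linarith)

lemma fld_eq_yv {A : Finset (Slot V)} {k : ℕ} (hA : ∀ s ∈ A, s.1 ≤ k) (bits : Slot V → Bool) :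
    fld A bits = yv k (fun s => s ∈ A) bits := by
  funext e
  simp only [fld, yv, scaled, cnt, Int.cast_sum]
  congr 1
  rw [← Finset.sum_filter]
  refine (Finset.sum_bij_ne_zero (fun s _ _ => s.1) ?_ ?_ ?_ ?_)
  · intro s hs _
    rw [Finset.mem_filter] at hs
    exact Finset.mem_range.2 (Nat.lt_succ_of_le (hA s hs.1))
  · intro s hs _ t ht _ h
    rw [Finset.mem_filter] at hs ht
    exact Prod.ext h (hs.2.trans ht.2.symm)
  · intro j _ hne
    by_cases h : (j, e) ∈ A
    · refine ⟨(j, e), Finset.mem_filter.2 ⟨h, rfl⟩, ?_, rfl⟩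
      cases bits (j, e) <;> simp [sgnBit]
    · simp [h] at hne
  · intro s hs _
    rw [Finset.mem_filter] at hs
    have : ((s.1, e) : Slot V) = s := Prod.ext rfl hs.2.symm
    rw [this, if_pos hs.1, sgnBit]
    split_ifs <;> simp

/-! ### Measurability -/

variable [Countable V] {Z : Type*} [MeasurableSpace Z]

lemma measurable_encard_le (v : V) (k : ℕ) :
    MeasurableSet {G : SimpleGraph V | (G.neighborSet v).encard ≤ (k : ℕ∞)} := by
  have : {G : SimpleGraph V | (G.neighborSet v).encard ≤ (k : ℕ∞)} =
      ⋂ (t : Finset V) (_ : t.card = k + 1), ⋃ w ∈ t, {G : SimpleGraph V | G.Adj v w}ᶜ := by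
    ext G
    simp only [Set.mem_ofPred_eq, Set.mem_iInter, Set.mem_iUnion, Set.mem_compl_iff, exists_prop]
    constructor
    · intro h t ht
      by_contra hc
      push Not at hc
      have hsub : (t : Set V) ⊆ G.neighborSet v := fun w hw => hc w hw
      have := (Set.encard_le_encard hsub).trans h
      rw [Set.encard_coe_eq_coe_finsetCard, ht, Nat.cast_le] at this
      omega
    · intro h
      by_contra hc
      rw [not_le] at hc
      have h1 : ((k + 1 : ℕ) : ℕ∞) ≤ (G.neighborSet v).encard := by
        push_cast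
        exact Order.add_one_le_of_lt hc
      obtain ⟨t, hts, htc⟩ := Set.exists_subset_encard_eq h1
      have hfin : t.Finite := Set.finite_of_encard_eq_coe htc
      obtain ⟨w, hw, hn⟩ := h hfin.toFinset (by
        rw [hfin.encard_eq_coe_toFinset_card, Nat.cast_inj] at htc
        exact htc)
      exact hn (hts (hfin.mem_toFinset.1 hw))
  rw [this]
  refine MeasurableSet.iInter fun t => MeasurableSet.iInter fun _ =>
    Finset.measurableSet_biUnion t fun w _ => (measurableSet_setOfPred.2 ?_).compl
  fun_prop

lemma measurableSet_inClass (k : ℕ) (e : Sym2 V) :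
    MeasurableSet {G : SimpleGraph V | InClass G k e} := by
  induction e using Sym2.ind with
  | h a b =>
    have : {G : SimpleGraph V | InClass G k s(a, b)} =
        {G | G.Adj a b} ∩ {G | (G.neighborSet a).encard ≤ (k : ℕ∞)} ∩
          {G | (G.neighborSet b).encard ≤ (k : ℕ∞)} := by
      ext G; simp [InClass, and_assoc]
    rw [this]
    refine ((measurableSet_setOfPred.2 ?_).inter (measurable_encard_le a k)).inter
      (measurable_encard_le b k)
    fun_prop

variable {Gf : Z → SimpleGraph V} {Uf : Z → Slot V → ℝ} {Bf : Z → Slot V → Bool} {uf : Z → ℝ}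

lemma measurableSet_obs (hG : Measurable Gf) (hU : Measurable Uf) (s : Slot V) :
    MeasurableSet {z | Obs (Gf z) (Uf z) s} :=
  (hG (measurableSet_inClass s.1 s.2)).inter
    (measurableSet_lt ((measurable_pi_apply s).comp hU) measurable_const)

lemma measurableSet_past (hG : Measurable Gf) (hU : Measurable Uf) (hu : Measurable uf) (k : ℕ)
    (s : Slot V) : MeasurableSet {z | Past (Gf z) (Uf z) k (uf z) s} := by
  have : {z | Past (Gf z) (Uf z) k (uf z) s} = {z | Obs (Gf z) (Uf z) s} ∩
      ({_z : Z | s.1 < k} ∪ ({_z : Z | s.1 = k} ∩ {z | Uf z s < uf z})) := by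
    ext z; simp [Past]
  rw [this]
  refine (measurableSet_obs hG hU s).inter (MeasurableSet.union (MeasurableSet.const _)
    ((MeasurableSet.const _).inter (measurableSet_lt ((measurable_pi_apply s).comp hU) hu)))

lemma measurable_cnt {Pf : Z → Slot V → Prop} (hP : ∀ s, MeasurableSet {z | Pf z s})
    (hB : Measurable Bf) (k : ℕ) (e : Sym2 V) :
    Measurable fun z => cnt k (Pf z) (Bf z) e := by
  refine Finset.measurable_sum _ fun j _ => Measurable.ite (hP (j, e)) ?_ measurable_const
  exact (measurable_of_countable fun b : Bool => if b then (1 : ℤ) else -1).comp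
    ((measurable_pi_apply (j, e)).comp hB)

lemma measurable_pent_edgeGraph (E : Finset (Sym2 V)) {Yf : Z → Sym2 V → ℤ}
    (hY : ∀ e, Measurable fun z => Yf z e) (p q : V × V) :
    Measurable fun z => pent (edgeGraph E) (scaled (Yf z)) p q := by
  let ext' : (E → ℤ) → Sym2 V → ℤ := fun g e => if h : e ∈ E then g ⟨e, h⟩ else 0
  have : (fun z => pent (edgeGraph E) (scaled (Yf z)) p q) =
      (fun g => pent (edgeGraph E) (scaled (ext' g)) p q) ∘ fun z (e : E) => Yf z e := by
    funext z
    refine pent_congr (fun e he => ?_) p q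
    have hmem : e ∈ E := by
      induction e using Sym2.ind with
      | h a b => exact (edgeGraph_adj.1 he).1
    simp [scaled, ext', hmem]
  rw [this]
  exact (measurable_of_countable _).comp (measurable_pi_lambda _ fun e => hY e)

lemma measurable_pent (hG : Measurable Gf) {Yf : Z → Sym2 V → ℤ}
    (hY : ∀ e, Measurable fun z => Yf z e) (p q : V × V) :
    Measurable fun z => pent (Gf z) (scaled (Yf z)) p q := by
  refine measurable_of_tendsto_metrizable
    (f := fun n z => pent (restrGraph (Gf z) n) (scaled (Yf z)) p q) (fun n => ?_)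
    (tendsto_pi_nhds.2 fun z => tendsto_pent (canonExh (Gf z)).exh _ p q)
  intro t ht
  have hE : ∀ E : Finset (Sym2 V), MeasurableSet {z | cutEdges n (Gf z) = E} := by
    intro E
    have : {z | cutEdges n (Gf z) = E} = ⋂ e : Sym2 V, {z | e ∈ cutEdges n (Gf z) ↔ e ∈ E} := by
      ext z; simp [Finset.ext_iff]
    rw [this]
    refine MeasurableSet.iInter fun e => ?_
    induction e using Sym2.ind with
    | h a b =>
      simp only [mem_cutEdges]
      refine measurableSet_setOfPred.2 ?_
      fun_prop
  have : (fun z => pent (restrGraph (Gf z) n) (scaled (Yf z)) p q) ⁻¹' t =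
      ⋃ E : Finset (Sym2 V), {z | cutEdges n (Gf z) = E} ∩
        (fun z => pent (edgeGraph E) (scaled (Yf z)) p q) ⁻¹' t := by
    ext z
    simp only [Set.mem_preimage, Set.mem_iUnion, Set.mem_inter_iff, Set.mem_ofPred_eq, restrGraph]
    exact ⟨fun h => ⟨_, rfl, h⟩, fun ⟨E, hE', h⟩ => hE' ▸ h⟩
  rw [this]
  exact MeasurableSet.iUnion fun E => (hE E).inter (measurable_pent_edgeGraph E hY p q ht)

lemma measurable_pval (hG : Measurable Gf) {Yf : Z → Sym2 V → ℤ}
    (hY : ∀ e, Measurable fun z => Yf z e) (e : Sym2 V) :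
    Measurable fun z => pval (Gf z) (scaled (Yf z)) e := by
  induction e using Sym2.ind with
  | h a b =>
    unfold pval
    simp only [medge_mk]
    exact (((measurable_pent hG hY _ _).add (measurable_pent hG hY _ _)).div_const 2).const_add _

lemma measurable_pUpTo (hG : Measurable Gf) (hU : Measurable Uf) (hB : Measurable Bf)
    (hu : Measurable uf) (k : ℕ) (e : Sym2 V) :
    Measurable fun z => pUpTo (Gf z) (Uf z) k (uf z) (Bf z) e :=
  measurable_pval hG (fun e' => measurable_cnt (measurableSet_past hG hU hu k) hB k e') e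

lemma measurable_pSlot (hG : Measurable Gf) (hU : Measurable Uf) (hB : Measurable Bf)
    (s : Slot V) : Measurable fun z => pSlot (Gf z) (Uf z) (Bf z) s :=
  measurable_pUpTo hG hU hB ((measurable_pi_apply s).comp hU) s.1 s.2

/-! ### The law of the observed bits -/

/-- The bits computed from the edge states and the noises. -/
def bitsOf (x : Sym2 V → Bool) (N : Slot V → ℝ) : Slot V → Bool :=
  fun s => decide (N s < if x s.2 then 3 / 4 else 1 / 4)

lemma measurable_bitsOf :
    Measurable fun z : (Sym2 V → Bool) × (Slot V → ℝ) => bitsOf z.1 z.2 := by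
  refine measurable_pi_lambda _ fun s => measurable_to_bool ?_
  have : (fun z : (Sym2 V → Bool) × (Slot V → ℝ) => bitsOf z.1 z.2 s) ⁻¹' {true} =
      {z | z.2 s < (fun b : Bool => if b then (3 / 4 : ℝ) else 1 / 4) (z.1 s.2)} := by
    ext z; simp [bitsOf]
  rw [this]
  exact measurableSet_lt ((measurable_pi_apply s).comp measurable_snd)
    ((measurable_of_countable (fun b : Bool => if b then (3 / 4 : ℝ) else 1 / 4)).comp
      ((measurable_pi_apply s.2).comp measurable_fst))

/-- The law of the bits. -/
def bitLaw (G : SimpleGraph V) : Measure (Slot V → Bool) :=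
  ((fusf G).prod (iid (Slot V))).map fun z => bitsOf z.1 z.2

instance isProbabilityMeasure_bitLaw (G : SimpleGraph V) : IsProbabilityMeasure (bitLaw G) :=
  Measure.isProbabilityMeasure_map measurable_bitsOf.aemeasurable

lemma unif_lt (c : ℝ) (h0 : 0 ≤ c) (h1 : c ≤ 1) : unif {n | n < c} = ENNReal.ofReal c := by
  rw [show {n : ℝ | n < c} = Set.Iio c from rfl, unif,
    Measure.restrict_apply measurableSet_Iio]
  have : Set.Iio c ∩ Set.Icc (0 : ℝ) 1 = Set.Ico 0 c := by
    ext n
    simp only [Set.mem_inter_iff, Set.mem_Iio, Set.mem_Icc, Set.mem_Ico]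
    constructor
    · rintro ⟨a, b, -⟩; exact ⟨b, a⟩
    · rintro ⟨a, b⟩; exact ⟨b, a, b.le.trans h1⟩
  rw [this, Real.volume_Ico, sub_zero]

lemma unif_bit (b x : Bool) :
    unif {n : ℝ | decide (n < if x then (3 : ℝ) / 4 else 1 / 4) = b} = ENNReal.ofReal (chan b x) := by
  have hc0 : (0 : ℝ) ≤ if x then 3 / 4 else 1 / 4 := by split_ifs <;> norm_num
  have hc1 : (if x then (3 : ℝ) / 4 else 1 / 4) ≤ 1 := by split_ifs <;> norm_num
  cases b
  · have : {n : ℝ | decide (n < if x then (3 : ℝ) / 4 else 1 / 4) = false} =
        (Set.Iio (if x then (3 : ℝ) / 4 else 1 / 4))ᶜ := by ext n; simp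
    rw [this, prob_compl_eq_one_sub measurableSet_Iio,
      show unif (Set.Iio (if x then (3 : ℝ) / 4 else 1 / 4)) = _ from unif_lt _ hc0 hc1, ← ENNReal.ofReal_one, ← ENNReal.ofReal_sub _ hc0]
    congr 1
    cases x <;> norm_num [chan]
  · have : {n : ℝ | decide (n < if x then (3 : ℝ) / 4 else 1 / 4) = true} =
        {n | n < if x then (3 : ℝ) / 4 else 1 / 4} := by ext n; simp
    rw [this, unif_lt _ hc0 hc1]
    congr 1
    cases x <;> norm_num [chan]

/-- The event that the bits on `A` follow the pattern `b`. -/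
def patternSet (A : Finset (Slot V)) (b : Slot V → Bool) : Set (Slot V → Bool) :=
  {bits | ∀ s ∈ A, bits s = b s}

lemma measurableSet_patternSet (A : Finset (Slot V)) (b : Slot V → Bool) :
    MeasurableSet (patternSet A b) := by
  have : patternSet A b = ⋂ s ∈ A, (fun x : Slot V → Bool => x s) ⁻¹' {b s} := by
    ext x; simp [patternSet]
  rw [this]
  exact Finset.measurableSet_biInter A fun s _ => measurable_pi_apply s (measurableSet_singleton _)

lemma bitLaw_real_patternSet (G : SimpleGraph V) (A : Finset (Slot V)) (b : Slot V → Bool) :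
    (bitLaw G).real (patternSet A b) = ∫ x, lik A b x ∂fusf G := by
  have h : bitLaw G (patternSet A b) = ∫⁻ x, ENNReal.ofReal (lik A b x) ∂fusf G := by
    rw [bitLaw, Measure.map_apply measurable_bitsOf (measurableSet_patternSet A b),
      Measure.prod_apply (measurable_bitsOf (measurableSet_patternSet A b))]
    refine lintegral_congr fun x => ?_
    have : Prod.mk x ⁻¹' ((fun z : (Sym2 V → Bool) × (Slot V → ℝ) => bitsOf z.1 z.2) ⁻¹'
        patternSet A b) =
        Set.pi (A : Set (Slot V))
          fun s => {n : ℝ | decide (n < if x s.2 then (3 : ℝ) / 4 else 1 / 4) = b s} := by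
      ext N; simp [patternSet, bitsOf, Set.mem_pi]
    rw [this, iid, Measure.infinitePi_pi]
    · simp only [unif_bit, lik]
      rw [ENNReal.ofReal_prod_of_nonneg fun s _ => (chan_pos _ _).le]
    · intro s _
      have hm : Measurable fun n : ℝ => decide (n < if x s.2 then (3 : ℝ) / 4 else 1 / 4) := by
        refine measurable_to_bool ?_
        have : (fun n : ℝ => decide (n < if x s.2 then (3 : ℝ) / 4 else 1 / 4)) ⁻¹' {true} =
            Set.Iio (if x s.2 then (3 : ℝ) / 4 else 1 / 4) := by ext n; simp
        rw [this]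
        exact measurableSet_Iio
      exact hm (measurableSet_singleton (b s))
  have hn : (0 : (Sym2 V → Bool) → ℝ) ≤ᵐ[fusf G] lik A b :=
    Eventually.of_forall fun x => Finset.prod_nonneg fun s _ => (chan_pos _ _).le
  rw [measureReal_def, h,
    integral_eq_lintegral_of_nonneg_ae hn (continuous_lik A b).aestronglyMeasurable]

lemma bitLaw_real_inter (G : SimpleGraph V) (A : Finset (Slot V)) (b : Slot V → Bool)
    {s : Slot V} (hsA : s ∉ A) (he : s.2 ∈ G.edgeSet) :
    (bitLaw G).real (patternSet A b ∩ {bits | bits s = true}) =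
      (bitLaw G).real (patternSet A b) * pval G (fld A b) s.2 := by
  have hset : patternSet A b ∩ {bits | bits s = true} =
      patternSet (insert s A) (Function.update b s true) := by
    ext bits
    simp only [patternSet, Set.mem_inter_iff, Set.mem_ofPred_eq, Finset.forall_mem_insert,
      Function.update_self]
    constructor
    · rintro ⟨h1, h2⟩
      refine ⟨h2, fun t ht => ?_⟩
      rw [Function.update_of_ne (fun e : t = s => hsA (e ▸ ht))]
      exact h1 t ht
    · rintro ⟨h2, h1⟩
      refine ⟨fun t ht => ?_, h2⟩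
      rw [h1 t ht, Function.update_of_ne (fun e : t = s => hsA (e ▸ ht))]
  rw [hset, bitLaw_real_patternSet, bitLaw_real_patternSet, ← (isFree_fusf G).2 A b _ he]
  refine integral_congr_ae (Eventually.of_forall fun x => ?_)
  simp only [lik, Finset.prod_insert hsA, Function.update_self]
  rw [mul_comm]
  congr 1
  refine Finset.prod_congr rfl fun t ht => ?_
  rw [Function.update_of_ne (fun e : t = s => hsA (e ▸ ht))]

/-- The extension of a pattern on `A` by `false`. -/
def extPattern (A : Finset (Slot V)) (g : A → Bool) : Slot V → Bool :=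
  fun s => if h : s ∈ A then g ⟨s, h⟩ else false

theorem predict_finite (G : SimpleGraph V) {A : Finset (Slot V)} {k : ℕ} (hA : ∀ t ∈ A, t.1 ≤ k)
    {s : Slot V} (hsA : s ∉ A) (he : s.2 ∈ G.edgeSet) {F : (Slot V → Bool) → ℝ}
    (hF : DependsOn F (A : Set (Slot V))) :
    ∫ bits in {bits | bits s = true}, F bits ∂bitLaw G =
      ∫ bits, pval G (yv k (fun t => t ∈ A) bits) s.2 * F bits ∂bitLaw G := by
  set res : (Slot V → Bool) → (A → Bool) := fun bits t => bits t
  have hres : Measurable res := measurable_pi_lambda _ fun t => measurable_pi_apply _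
  have hFc : ∀ bits, F bits = F (extPattern A (res bits)) := fun bits =>
    hF fun t ht => by simp [extPattern, res, Finset.mem_coe.1 ht]
  have hyc : ∀ bits, yv k (fun t => t ∈ A) bits =
      yv k (fun t => t ∈ A) (extPattern A (res bits)) := fun bits =>
    yv_congr (fun _ _ => Iff.rfl) fun t ht => by simp [extPattern, res, ht]
  have hfib : ∀ g : A → Bool, res ⁻¹' {g} = patternSet A (extPattern A g) := fun g => by
    ext bits
    simp only [Set.mem_preimage, Set.mem_singleton_iff, patternSet, Set.mem_ofPred_eq, res]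
    constructor
    · intro h t ht
      simp [extPattern, ht, ← h]
    · intro h
      funext t
      rw [h t t.2]
      simp [extPattern, t.2]
  have hint : ∀ (m : Measure (Slot V → Bool)) [IsFiniteMeasure m] (Φ : (A → Bool) → ℝ),
      ∫ bits, Φ (res bits) ∂m =
        ∑ g, m.real (patternSet A (extPattern A g)) * Φ g := by
    intro m _ Φ
    rw [← integral_map hres.aemeasurable (measurable_of_countable Φ).aestronglyMeasurable,
      integral_fintype Integrable.of_finite]
    refine Finset.sum_congr rfl fun g _ => ?_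
    rw [measureReal_def, Measure.map_apply hres (measurableSet_singleton g), hfib, smul_eq_mul,
      measureReal_def]
  calc ∫ bits in {bits | bits s = true}, F bits ∂bitLaw G
      = ∫ bits in {bits | bits s = true}, F (extPattern A (res bits)) ∂bitLaw G :=
        integral_congr_ae (Eventually.of_forall fun bits => hFc bits)
    _ = ∑ g, ((bitLaw G).restrict {bits | bits s = true}).real (patternSet A (extPattern A g)) *
          F (extPattern A g) := hint _ fun g => F (extPattern A g)
    _ = ∑ g, (bitLaw G).real (patternSet A (extPattern A g)) *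
          (pval G (yv k (fun t => t ∈ A) (extPattern A g)) s.2 * F (extPattern A g)) := by
        refine Finset.sum_congr rfl fun g _ => ?_
        rw [measureReal_restrict_apply (measurableSet_patternSet _ _),
          bitLaw_real_inter G A _ hsA he, fld_eq_yv hA]
        ring
    _ = ∫ bits, pval G (yv k (fun t => t ∈ A) (extPattern A (res bits))) s.2 *
          F (extPattern A (res bits)) ∂bitLaw G :=
        (hint _ fun g => pval G (yv k (fun t => t ∈ A) (extPattern A g)) s.2 *
          F (extPattern A g)).symm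
    _ = _ := by simp only [← hFc, ← hyc]

lemma measurable_pval_yv (G : SimpleGraph V) (k : ℕ) (P : Slot V → Prop) (e : Sym2 V) :
    Measurable fun bits : Slot V → Bool => pval G (yv k P bits) e :=
  measurable_pval measurable_const
    (fun e' => measurable_cnt (Bf := fun z => z) (Pf := fun _ => P)
      (fun _ => MeasurableSet.const _) measurable_id k e') e

theorem predict_cylinder (G : SimpleGraph V) {P : Set (Slot V)} {k : ℕ}
    (hP : ∀ t ∈ P, t.1 ≤ k) {s : Slot V} (hsP : s ∉ P) (he : s.2 ∈ G.edgeSet)
    (A₀ : Finset (Slot V)) (hA₀ : (A₀ : Set (Slot V)) ⊆ P) :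
    ∫ bits in {bits | bits s = true}, (patternSet A₀ fun _ => true).indicator 1 bits ∂bitLaw G =
      ∫ bits, pval G (yv k (fun t => t ∈ P) bits) s.2 *
        (patternSet A₀ fun _ => true).indicator 1 bits ∂bitLaw G := by
  set F : (Slot V → Bool) → ℝ := (patternSet A₀ fun _ => true).indicator 1
  obtain ⟨num, hnum⟩ := Countable.exists_injective_nat (Slot V)
  let A : ℕ → Finset (Slot V) :=
    fun j => A₀ ∪ ((Finset.range j).preimage num hnum.injOn).filter (fun t => t ∈ P)
  have hAP : ∀ j, ∀ t ∈ A j, t ∈ P := by
    intro j t ht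
    simp only [A, Finset.mem_union, Finset.mem_filter] at ht
    rcases ht with ht | ht
    · exact hA₀ ht
    · exact ht.2
  have hF : ∀ j, DependsOn F (A j : Set (Slot V)) := by
    intro j x z hxz
    have hiff : x ∈ patternSet A₀ (fun _ => true) ↔ z ∈ patternSet A₀ fun _ => true := by
      simp only [patternSet, Set.mem_ofPred_eq]
      exact forall₂_congr fun t ht => by rw [hxz t (Finset.mem_union_left _ ht)]
    simp only [F, Set.indicator, hiff, Pi.one_apply]
  have heq : ∀ j, ∫ bits in {bits | bits s = true}, F bits ∂bitLaw G =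
      ∫ bits, pval G (yv k (fun t => t ∈ A j) bits) s.2 * F bits ∂bitLaw G := fun j =>
    predict_finite G (fun t ht => hP t (hAP j t ht)) (fun h => hsP (hAP j s h)) he (hF j)
  have hmeasF : Measurable F := measurable_one.indicator (measurableSet_patternSet _ _)
  have hFle : ∀ bits, |F bits| ≤ 1 := fun bits => by
    simp only [F, Set.indicator]; split_ifs <;> simp
  have hlim : Tendsto (fun j => ∫ bits, pval G (yv k (fun t => t ∈ A j) bits) s.2 * F bits ∂bitLaw G)
      atTop (𝓝 (∫ bits, pval G (yv k (fun t => t ∈ P) bits) s.2 * F bits ∂bitLaw G)) := by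
    refine tendsto_integral_of_dominated_convergence (fun _ => (1 : ℝ)) (fun j => ?_)
      (integrable_const _) (fun j => Eventually.of_forall fun bits => ?_)
      (Eventually.of_forall fun bits => ?_)
    · exact ((measurable_pval_yv G k (fun t => t ∈ A j) s.2).mul hmeasF).aestronglyMeasurable
    · rw [Real.norm_eq_abs, abs_mul]
      have := pval_mem G (yv k (fun t => t ∈ A j) bits) he
      exact mul_le_one₀ (abs_le.2 ⟨by linarith, by linarith⟩) (abs_nonneg _) (hFle bits)
    · refine Tendsto.mul_const _ ?_
      unfold pval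
      refine ((tendsto_medge_field G (beta * (2 * (k + 1))) (fun j e => abs_yv_sub_le k _ _ _ _ e)
        (fun e => ?_) s.2).div_const 2).const_add _
      refine eventually_atTop.2
        ⟨(Finset.range (k + 1)).sup (fun i => num (i, e) + 1), fun j hj => ?_⟩
      simp only [yv, scaled]
      rw [cnt_congr (P' := fun t => t ∈ P) (fun i hi => ?_) (fun _ _ _ => rfl)]
      refine ⟨fun h => hAP j _ h, fun h => Finset.mem_union_right _ ?_⟩
      rw [Finset.mem_filter, Finset.mem_preimage, Finset.mem_range]
      refine ⟨?_, h⟩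
      have hik : i ∈ Finset.range (k + 1) := Finset.mem_range.2 (Nat.lt_succ_of_le hi)
      have := Finset.le_sup (f := fun i => num (i, e) + 1) hik
      omega
  exact tendsto_nhds_unique (tendsto_const_nhds.congr heq) hlim

end

end Vale.P143
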