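import Vale.Agent.P143.Predict

/-!
P143: under the true law the reconstructed labels are independent uniform.
-/

namespace Vale.P143

open scoped ENNReal
open scoped Classical
open MeasureTheory

noncomputable section

variable {V : Type*}

lemma Past.trans {G : SimpleGraph V} {U : Slot V → ℝ} {k : ℕ} {u : ℝ} {t r : Slot V}
    (ht : Past G U k u t) (hr : Past G U t.1 (U t) r) : Past G U k u r := by
  refine ⟨hr.1, ?_⟩
  rcases ht.2 with h | ⟨h1, h2⟩
  · exact Or.inl (hr.le.trans_lt h)
  · rcases hr.2 with g | ⟨g1, g2⟩
    · exact Or.inl (h1 ▸ g)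
    · exact Or.inr ⟨g1.trans h1, g2.trans h2⟩

lemma vOf_update_of_ne (G : SimpleGraph V) (U : Slot V → ℝ) (b : Slot V → Bool)
    (a : Slot V → ℝ) {s t : Slot V} (h : t ≠ s) (r : ℝ) :
    vOf G U b (Function.update a s r) t = vOf G U b a t := by
  simp only [vOf, Function.update_of_ne h]

/-- All time labels within a round are distinct. -/
def DistinctTimes (U : Slot V → ℝ) : Prop :=
  ∀ k : ℕ, Function.Injective fun e : Sym2 V => U (k, e)

variable [Countable V]

lemma vOf_congr (G : SimpleGraph V) (U : Slot V → ℝ) {b b' : Slot V → Bool} (a : Slot V → ℝ)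
    {k : ℕ} {u : ℝ} {t : Slot V} (ht : Past G U k u t)
    (h : ∀ r, Past G U k u r → b r = b' r) : vOf G U b a t = vOf G U b' a t := by
  simp only [vOf, if_pos ht.1, h t ht,
    show pSlot G U b t = pSlot G U b' t from pSlot_dependsOn G U t fun r hr => h r (ht.trans hr)]

lemma ae_distinctTimes : ∀ᵐ U ∂iid (Slot V), DistinctTimes U := by
  have h : ∀ᵐ U ∂iid (Slot V), ∀ (k : ℕ) (e e' : Sym2 V), e ≠ e' → U (k, e) ≠ U (k, e') := by
    simp only [ae_all_iff]
    intro k e e' he
    rw [ae_iff]
    have hne : ((k, e) : Slot V) ≠ (k, e') := fun h => he (Prod.ext_iff.1 h).2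
    simpa using iid_eq_zero hne
  filter_upwards [h] with U hU k e e' heq
  by_contra hne
  exact hU k e e' hne heq

lemma measurable_vOf_joint :
    Measurable fun z : SimpleGraph V × (Slot V → ℝ) × (Slot V → Bool) × (Slot V → ℝ) =>
      vOf z.1 z.2.1 z.2.2.1 z.2.2.2 := by
  refine measurable_pi_lambda _ fun s => ?_
  have hG : Measurable fun z : SimpleGraph V × (Slot V → ℝ) × (Slot V → Bool) × (Slot V → ℝ) =>
    z.1 := measurable_fst
  have hU : Measurable fun z : SimpleGraph V × (Slot V → ℝ) × (Slot V → Bool) × (Slot V → ℝ) =>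
    z.2.1 := measurable_fst.comp measurable_snd
  have hB : Measurable fun z : SimpleGraph V × (Slot V → ℝ) × (Slot V → Bool) × (Slot V → ℝ) =>
    z.2.2.1 := measurable_fst.comp (measurable_snd.comp measurable_snd)
  have hA : Measurable fun z : SimpleGraph V × (Slot V → ℝ) × (Slot V → Bool) × (Slot V → ℝ) =>
    z.2.2.2 s :=
    (measurable_pi_apply s).comp (measurable_snd.comp (measurable_snd.comp measurable_snd))
  have hp := measurable_pSlot hG hU hB s
  exact Measurable.ite (measurableSet_obs hG hU s)
    (Measurable.ite (((measurable_pi_apply s).comp hB) (measurableSet_singleton true))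
      (hp.mul hA) (hp.add ((measurable_const.sub hp).mul hA))) hA

lemma measurable_vOf (G : SimpleGraph V) (U : Slot V → ℝ) :
    Measurable fun z : (Slot V → Bool) × (Slot V → ℝ) => vOf G U z.1 z.2 :=
  measurable_vOf_joint.comp (measurable_const.prodMk (measurable_const.prodMk measurable_id))

theorem map_vOf (G : SimpleGraph V) (U : Slot V → ℝ) (hU : DistinctTimes U) :
    (inner' G).map (fun z => vOf G U z.1 z.2) = iid (Slot V) := by
  rw [iid]
  refine Measure.eq_infinitePi _ fun S B hB => ?_
  rw [Measure.map_apply (measurable_vOf G U) (.pi S.countable_toSet fun i _ => hB i)]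
  let g : Finset (Slot V) → (Slot V → Bool) × (Slot V → ℝ) → ℝ≥0∞ :=
    fun T z => ∏ t ∈ T, (B t).indicator 1 (vOf G U z.1 z.2 t)
  have hg : ∀ T, Measurable (g T) := fun T => Finset.measurable_prod _ fun t _ =>
    (measurable_one.indicator (hB t)).comp ((measurable_pi_apply t).comp (measurable_vOf G U))
  have hind : ∀ (C : Set ℝ) (v : ℝ), C.indicator (1 : ℝ → ℝ≥0∞) v ≤ 1 := fun C v => by
    simp only [Set.indicator]; split_ifs <;> simp
  have hg1 : ∀ T z, g T z ≤ 1 := fun T z => Finset.prod_le_one' fun t _ => hind _ _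
  suffices H : ∫⁻ z, g S z ∂inner' G = ∏ t ∈ S, unif (B t) by
    rw [← H, ← lintegral_indicator_one
      ((measurable_vOf G U) (.pi S.countable_toSet fun i _ => hB i))]
    refine lintegral_congr fun z => ?_
    by_cases hz : ∀ t ∈ S, vOf G U z.1 z.2 t ∈ B t
    · rw [Set.indicator_of_mem (by simpa [Set.mem_pi] using hz), Pi.one_apply]
      exact (Finset.prod_eq_one fun t ht => by simp [hz t ht]).symm
    · rw [Set.indicator_of_notMem (by simpa [Set.mem_pi] using hz)]
      push Not at hz
      obtain ⟨t, ht, hn⟩ := hz
      exact (Finset.prod_eq_zero ht (by simp [hn])).symm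
  induction S using Finset.strongInduction with
  | H S ih =>
  rcases S.eq_empty_or_nonempty with rfl | hne
  · simp [g]
  have main : ∀ s ∈ S, (∫⁻ z, g S z ∂inner' G = unif (B s) * ∫⁻ z, g (S.erase s) z ∂inner' G) →
      ∫⁻ z, g S z ∂inner' G = ∏ t ∈ S, unif (B t) := by
    intro s hs h
    rw [h, ih _ (Finset.erase_ssubset hs), Finset.mul_prod_erase S (fun t => unif (B t)) hs]
  by_cases hex : ∃ s ∈ S, ¬Obs G U s
  · obtain ⟨s, hs, hno⟩ := hex
    refine main s hs ?_
    rw [inner', lintegral_prod _ (hg S).aemeasurable, lintegral_prod _ (hg _).aemeasurable,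
      ← lintegral_const_mul' _ _ (measure_ne_top _ _)]
    refine lintegral_congr fun b => ?_
    rw [lintegral_iid_update s (F := fun a => g S (b, a)) ((hg S).comp measurable_prodMk_left),
      ← lintegral_const_mul' _ _ (measure_ne_top _ _)]
    refine lintegral_congr fun a => ?_
    have : ∀ r, g S (b, Function.update a s r) =
        (B s).indicator 1 r * g (S.erase s) (b, a) := by
      intro r
      simp only [g]
      rw [← Finset.mul_prod_erase S _ hs]
      congr 1
      · simp [vOf, hno]
      · exact Finset.prod_congr rfl fun t ht => by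
          rw [vOf_update_of_ne G U b a (Finset.ne_of_mem_erase ht)]
    simp only [this]
    rw [lintegral_mul_const _ (measurable_one.indicator (hB s)), lintegral_indicator_one (hB s)]
  · push Not at hex
    obtain ⟨s, hs, hmax⟩ := S.exists_max_image (fun t => toLex (t.1, U t)) hne
    refine main s hs ?_
    have hpast : ∀ t ∈ S.erase s, Past G U s.1 (U s) t := by
      intro t ht
      obtain ⟨hts, htS⟩ := Finset.mem_erase.1 ht
      refine ⟨hex t htS, ?_⟩
      rcases (Prod.Lex.le_iff).1 (hmax t htS) with h | ⟨h1, h2⟩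
      · exact Or.inl h
      · simp only [ofLex_toLex] at h1 h2
        refine Or.inr ⟨h1, lt_of_le_of_ne h2 fun he => hts ?_⟩
        have h3 : U (s.1, t.2) = U (s.1, s.2) := by
          have : ((s.1, t.2) : Slot V) = t := Prod.ext h1.symm rfl
          rw [this]; exact he
        exact Prod.ext h1 (hU s.1 h3)
    let f : (Slot V → Bool) × (Slot V → ℝ) × ℝ → ℝ≥0∞ :=
      fun w => (B s).indicator 1 w.2.2 * g (S.erase s) (w.1, w.2.1)
    have hf : Measurable f :=
      ((measurable_one.indicator (hB s)).comp (measurable_snd.comp measurable_snd)).mul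
        ((hg _).comp (measurable_fst.prodMk (measurable_fst.comp measurable_snd)))
    have hstep := slot_step G U (hex s hs) hf
      (fun w => mul_le_one' (hind _ _) (hg1 _ _))
      (fun b b' a v hbb => by
        simp only [f, g]
        congr 1
        exact Finset.prod_congr rfl fun t ht => by rw [vOf_congr G U a (hpast t ht) hbb])
      (fun b a r v => by
        simp only [f, g]
        congr 1
        exact Finset.prod_congr rfl fun t ht => by
          rw [vOf_update_of_ne G U b a (Finset.ne_of_mem_erase ht)])
    calc ∫⁻ z, g S z ∂inner' G = ∫⁻ z, f (z.1, z.2, vOf G U z.1 z.2 s) ∂inner' G :=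
          lintegral_congr fun z => (Finset.mul_prod_erase S _ hs).symm
      _ = ∫⁻ z, ∫⁻ v, f (z.1, z.2, v) ∂unif ∂inner' G := hstep
      _ = ∫⁻ z, unif (B s) * g (S.erase s) z ∂inner' G := by
          refine lintegral_congr fun z => ?_
          simp only [f]
          rw [lintegral_mul_const _ (measurable_one.indicator (hB s)),
            lintegral_indicator_one (hB s)]
      _ = _ := lintegral_const_mul _ (hg _)

/-- The whole true world: times, bits, auxiliary variables. -/
def world (G : SimpleGraph V) :
    Measure ((Slot V → ℝ) × (Slot V → Bool) × (Slot V → ℝ)) :=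
  (iid (Slot V)).prod (inner' G)

instance isProbabilityMeasure_world (G : SimpleGraph V) : IsProbabilityMeasure (world G) := by
  unfold world; infer_instance

theorem map_world (G : SimpleGraph V) :
    (world G).map (fun w => (w.1, vOf G w.1 w.2.1 w.2.2)) =
      (iid (Slot V)).prod (iid (Slot V)) := by
  have hm : Measurable fun w : (Slot V → ℝ) × (Slot V → Bool) × (Slot V → ℝ) =>
      (w.1, vOf G w.1 w.2.1 w.2.2) :=
    measurable_fst.prodMk (measurable_vOf_joint.comp (measurable_const.prodMk measurable_id))
  refine (Measure.prod_eq fun A C hA hC => ?_).symm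
  rw [Measure.map_apply hm (hA.prod hC), world, Measure.prod_apply (hm (hA.prod hC))]
  calc ∫⁻ U, inner' G (Prod.mk U ⁻¹' ((fun w : (Slot V → ℝ) × (Slot V → Bool) × (Slot V → ℝ) =>
          (w.1, vOf G w.1 w.2.1 w.2.2)) ⁻¹' A ×ˢ C)) ∂iid (Slot V)
      = ∫⁻ U, A.indicator (fun _ => iid (Slot V) C) U ∂iid (Slot V) := by
        refine lintegral_congr_ae ?_
        filter_upwards [ae_distinctTimes] with U hU
        by_cases hUA : U ∈ A
        · rw [Set.indicator_of_mem hUA, ← map_vOf G U hU,
            Measure.map_apply (measurable_vOf G U) hC]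
          congr 1
          ext z; simp [hUA]
        · rw [Set.indicator_of_notMem hUA]
          convert measure_empty (μ := inner' G)
          ext z; simp [hUA]
    _ = iid (Slot V) A * iid (Slot V) C := by
        rw [lintegral_indicator_const hA, mul_comm]

end

end Vale.P143
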